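import Mathlib

/-!
# Row 113, S0149: basic definitions (helper95)

`X` is the unit circle `ℝ/ℤ` with Haar probability `μX`; `α : X` is the rotation, `σ x = x + α`.
See `R113/Plan.lean` for the whole proof.
-/

set_option autoImplicit false

open MeasureTheory Set Filter Topology
open scoped BigOperators

namespace Crest.Agent.R113

abbrev X : Type := UnitAddCircle

noncomputable abbrev μX : Measure X := AddCircle.haarAddCircle

/-- bounded measurable real functions -/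
structure BM (g : X → ℝ) : Prop where
  meas : Measurable g
  bdd : ∃ C : ℝ, ∀ x, |g x| ≤ C

namespace BM

variable {g h : X → ℝ}

theorem of_le (hg : Measurable g) {C : ℝ} (hC : ∀ x, |g x| ≤ C) : BM g := ⟨hg, C, hC⟩

theorem const (c : ℝ) : BM (fun _ => c) := ⟨measurable_const, |c|, fun _ => le_rfl⟩

theorem zero : BM (0 : X → ℝ) := const 0

theorem add' (hg : BM g) (hh : BM h) : BM (fun x => g x + h x) := by
  obtain ⟨C, hC⟩ := hg.bdd
  obtain ⟨D, hD⟩ := hh.bdd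
  exact ⟨hg.meas.add hh.meas, C + D, fun x => (abs_add_le _ _).trans (add_le_add (hC x) (hD x))⟩

theorem add (hg : BM g) (hh : BM h) : BM (g + h) := hg.add' hh

theorem neg' (hg : BM g) : BM (fun x => - g x) := by
  obtain ⟨C, hC⟩ := hg.bdd
  exact ⟨hg.meas.neg, C, fun x => by simpa using hC x⟩

theorem neg (hg : BM g) : BM (-g) := hg.neg'

theorem sub' (hg : BM g) (hh : BM h) : BM (fun x => g x - h x) := by
  simpa [sub_eq_add_neg] using hg.add' hh.neg'

theorem sub (hg : BM g) (hh : BM h) : BM (g - h) := hg.sub' hh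

theorem mul' (hg : BM g) (hh : BM h) : BM (fun x => g x * h x) := by
  obtain ⟨C, hC⟩ := hg.bdd
  obtain ⟨D, hD⟩ := hh.bdd
  refine ⟨hg.meas.mul hh.meas, C * D, fun x => ?_⟩
  rw [abs_mul]
  exact mul_le_mul (hC x) (hD x) (abs_nonneg _) ((abs_nonneg _).trans (hC x))

theorem mul (hg : BM g) (hh : BM h) : BM (g * h) := hg.mul' hh

theorem const_mul (hg : BM g) (c : ℝ) : BM (fun x => c * g x) := (const c).mul' hg

theorem mul_const (hg : BM g) (c : ℝ) : BM (fun x => g x * c) := hg.mul' (const c)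

theorem div_const (hg : BM g) (c : ℝ) : BM (fun x => g x / c) := by
  simpa [div_eq_mul_inv] using hg.mul_const c⁻¹

theorem pow (hg : BM g) (n : ℕ) : BM (fun x => g x ^ n) := by
  induction n with
  | zero => simpa using const 1
  | succ n ih => simpa [pow_succ] using ih.mul' hg

theorem abs (hg : BM g) : BM (fun x => |g x|) := by
  obtain ⟨C, hC⟩ := hg.bdd
  exact ⟨hg.meas.abs, C, fun x => by simpa using hC x⟩

theorem exp (hg : BM g) : BM (fun x => Real.exp (g x)) := by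
  obtain ⟨C, hC⟩ := hg.bdd
  refine ⟨Real.measurable_exp.comp hg.meas, Real.exp C, fun x => ?_⟩
  rw [abs_of_pos (Real.exp_pos _)]
  exact Real.exp_le_exp.mpr ((le_abs_self _).trans (hC x))

theorem shift (hg : BM g) (a : X) : BM (fun x => g (x + a)) := by
  obtain ⟨C, hC⟩ := hg.bdd
  exact ⟨hg.meas.comp (measurable_add_const a), C, fun x => hC _⟩

theorem shift_sub (hg : BM g) (a : X) : BM (fun x => g (x - a)) := by
  simpa [sub_eq_add_neg] using hg.shift (-a)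

theorem sum {ι : Type*} (s : Finset ι) {G : ι → X → ℝ} (hG : ∀ i ∈ s, BM (G i)) :
    BM (fun x => ∑ i ∈ s, G i x) := by
  classical
  induction s using Finset.induction_on with
  | empty => simpa using const 0
  | insert a s ha ih =>
    simp only [Finset.sum_insert ha]
    exact (hG a (Finset.mem_insert_self _ _)).add'
      (ih fun i hi => hG i (Finset.mem_insert_of_mem hi))

theorem prod {ι : Type*} (s : Finset ι) {G : ι → X → ℝ} (hG : ∀ i ∈ s, BM (G i)) :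
    BM (fun x => ∏ i ∈ s, G i x) := by
  classical
  induction s using Finset.induction_on with
  | empty => simpa using const 1
  | insert a s ha ih =>
    simp only [Finset.prod_insert ha]
    exact (hG a (Finset.mem_insert_self _ _)).mul'
      (ih fun i hi => hG i (Finset.mem_insert_of_mem hi))

theorem indicator (hg : BM g) {s : Set X} (hs : MeasurableSet s) : BM (s.indicator g) := by
  obtain ⟨C, hC⟩ := hg.bdd
  refine ⟨hg.meas.indicator hs, C, fun x => ?_⟩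
  by_cases hx : x ∈ s
  · simpa [hx] using hC x
  · simpa [hx] using (abs_nonneg _).trans (hC x)

theorem ind_one {s : Set X} (hs : MeasurableSet s) : BM (s.indicator (1 : X → ℝ)) :=
  (const 1).indicator hs

theorem memLp (hg : BM g) (p : ENNReal) : MemLp g p μX := by
  obtain ⟨C, hC⟩ := hg.bdd
  exact MemLp.of_bound hg.meas.aestronglyMeasurable C (Eventually.of_forall fun x => hC x)

theorem integrable (hg : BM g) : Integrable g μX :=
  memLp_one_iff_integrable.mp (hg.memLp 1)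

theorem of_continuous (hg : Continuous g) : BM g := by
  obtain ⟨C, hC⟩ := (isCompact_range hg).isBounded.exists_norm_le
  exact ⟨hg.measurable, C, fun x => hC _ (mem_range_self x)⟩

/-- `|∫ g| ≤ C` for `|g| ≤ C`. -/
theorem abs_integral_le {C : ℝ} (hC : ∀ x, |g x| ≤ C) : |∫ x, g x ∂μX| ≤ C := by
  have := norm_integral_le_of_norm_le_const (μ := μX) (f := g) (C := C)
    (Eventually.of_forall fun x => hC x)
  simpa using this

/-- Cauchy–Schwarz -/
theorem integral_mul_le (hg : BM g) (hh : BM h) :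
    |∫ x, g x * h x ∂μX| ≤ √(∫ x, g x ^ 2 ∂μX) * √(∫ x, h x ^ 2 ∂μX) := by
  have hA : 0 ≤ ∫ x, g x ^ 2 ∂μX := integral_nonneg fun x => sq_nonneg _
  have hB : 0 ≤ ∫ x, h x ^ 2 ∂μX := integral_nonneg fun x => sq_nonneg _
  rw [← Real.sqrt_mul hA]
  apply Real.abs_le_sqrt
  have key : ∀ s : ℝ, 0 ≤ (∫ x, g x ^ 2 ∂μX) * (s * s) + (2 * ∫ x, g x * h x ∂μX) * s
      + ∫ x, h x ^ 2 ∂μX := by
    intro s
    have h1 : 0 ≤ ∫ x, (s * g x + h x) ^ 2 ∂μX := integral_nonneg fun x => sq_nonneg _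
    have h2 : ∫ x, (s * g x + h x) ^ 2 ∂μX = (∫ x, g x ^ 2 ∂μX) * (s * s)
        + (2 * ∫ x, g x * h x ∂μX) * s + ∫ x, h x ^ 2 ∂μX := by
      have e : (fun x => (s * g x + h x) ^ 2)
          = fun x => (s * s) * g x ^ 2 + (2 * s) * (g x * h x) + h x ^ 2 := by
        funext x; ring
      rw [e, integral_add, integral_add, integral_const_mul, integral_const_mul]
      · ring
      · exact ((hg.pow 2).const_mul _).integrable
      · exact ((hg.mul' hh).const_mul _).integrable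
      · exact (((hg.pow 2).const_mul _).add' ((hg.mul' hh).const_mul _)).integrable
      · exact (hh.pow 2).integrable
    linarith
  have := discrim_le_zero key
  unfold discrim at this
  nlinarith

end BM

theorem integral_shift (g : X → ℝ) (a : X) : ∫ x, g (x + a) ∂μX = ∫ x, g x ∂μX :=
  integral_add_right_eq_self g a

theorem integral_shift_sub (g : X → ℝ) (a : X) : ∫ x, g (x - a) ∂μX = ∫ x, g x ∂μX := by
  simpa [sub_eq_add_neg] using integral_shift g (-a)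

theorem real_preimage_shift (A : Set X) (a : X) :
    μX.real ((fun x => x + a) ⁻¹' A) = μX.real A := by
  simp only [Measure.real, measure_preimage_add_right]

/-- The points whose orbit meets `A` at one of finitely many given shifts. -/
theorem real_meets_le {ι : Type*} (s : Finset ι) (a : ι → X) (A : Set X) :
    μX.real {x | ∃ i ∈ s, x + a i ∈ A} ≤ s.card * μX.real A := by
  have e : {x | ∃ i ∈ s, x + a i ∈ A} = ⋃ i ∈ s, (fun x => x + a i) ⁻¹' A := by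
    ext x; simp
  rw [e]
  refine (measureReal_biUnion_finset_le s _).trans ?_
  simp [real_preimage_shift]

theorem measurableSet_meets {ι : Type*} (s : Finset ι) (a : ι → X) {A : Set X}
    (hA : MeasurableSet A) : MeasurableSet {x | ∃ i ∈ s, x + a i ∈ A} := by
  have e : {x | ∃ i ∈ s, x + a i ∈ A} = ⋃ i ∈ s, (fun x => x + a i) ⁻¹' A := by
    ext x; simp
  rw [e]
  exact s.measurableSet_biUnion fun i _ => measurable_add_const _ hA

/-- the cocycle `f_n = ∏_{k<n} F ∘ σ^k` -/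
noncomputable def fn (α : X) (F : X → ℝ) (n : ℕ) (x : X) : ℝ :=
  ∏ k ∈ Finset.range n, F (x + k • α)

theorem BM.fn {F : X → ℝ} (hF : BM F) (α : X) (n : ℕ) : BM (fn α F n) :=
  BM.prod _ fun _ _ => hF.shift _

/-- Birkhoff average -/
noncomputable def avg (α : X) (n : ℕ) (g : X → ℝ) (x : X) : ℝ :=
  (∑ k ∈ Finset.range n, g (x + k • α)) / n

theorem BM.avg {g : X → ℝ} (hg : BM g) (α : X) (n : ℕ) : BM (avg α n g) :=
  (BM.sum _ fun _ _ => hg.shift _).div_const _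

/-- **Tilt system.**  All that the analysis uses about an invariant projection `p` of trace `t`
of `T = U F(V)`: for a bounded real `g`, `P g` is the diagonal of the projection `p_g` onto
`e^{-g} ran p` and `m g` is the distribution `|ξ(x,d)|² dx dd` of its Fourier mass. -/
structure TiltSys (α : X) (F : X → ℝ) (t : ℝ) where
  P : (X → ℝ) → X → ℝ
  m : (X → ℝ) → Measure (X × ℤ)
  P_meas : ∀ g, Measurable (P g)
  P_nonneg : ∀ g x, 0 ≤ P g x
  P_le_one : ∀ g x, P g x ≤ 1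
  m_fin : ∀ g, IsFiniteMeasure (m g)
  P_int : ∀ g, BM g → ∫ x, P g x ∂μX = t
  m_fst : ∀ g, BM g → ∀ A : Set X, MeasurableSet A → (m g).real (A ×ˢ univ) ≤ μX.real A
  diag : ∀ g, BM g → ∫ x, P g x * (1 - P g x) ∂μX ≤ (m g).real {z | z.2 ≠ 0}
  coco : ∀ g h, BM g → BM h →
    ∫ x, (P g x - P h x) ^ 2 ∂μX ≤ ∫ x, (P g x - P h x) * (h x - g x) ∂μX
  comm : ∀ g u, BM g → BM u → ∀ (w : X × ℤ → ℝ) (B : ℝ), Measurable w → (∀ z, |w z| ≤ B) →
    (∀ z, |w z| ≤ |u (z.1 + z.2 • α) - u z.1|) →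
    ∫ z, w z ^ 2 ∂(m g) ≤ (1 + B) ^ 2 * ∫ x, (P g x - P (g + u) x) * u x ∂μX
  cov : ∀ h, BM h → ∀ (n : ℕ) (k : ℝ),
    ∫ x, (P h x - P 0 (x + n • α)) ^ 2 ∂μX
      ≤ 2 * ∫ x, (1 - fn α F n x * Real.exp (h x + k)) ^ 2 ∂μX
  inv : ∀ g, BM g → ∀ (n : ℕ) (k : ℝ) (S : Set X), MeasurableSet S →
    ∫ x in S, P g x * (1 - P g (x + n • α)) ∂μX
      ≤ √(∫ x, (Real.exp (k + g x - g (x + n • α)) * fn α F n x - S.indicator 1 x) ^ 2 ∂μX)
        + 2 * √((m g).real {z | z.2 ≠ 0})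

attribute [instance] TiltSys.m_fin

theorem TiltSys.P_bm {α : X} {F : X → ℝ} {t : ℝ} (T : TiltSys α F t) (g : X → ℝ) :
    BM (T.P g) :=
  ⟨T.P_meas g, 1, fun x => abs_le.mpr ⟨by linarith [T.P_nonneg g x], T.P_le_one g x⟩⟩

/-- monotonicity -/
theorem TiltSys.mono {α : X} {F : X → ℝ} {t : ℝ} (T : TiltSys α F t) {g h : X → ℝ}
    (hg : BM g) (hh : BM h) : 0 ≤ ∫ x, (T.P g x - T.P h x) * (h x - g x) ∂μX :=
  (integral_nonneg fun _ => sq_nonneg _).trans (T.coco g h hg hh)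

theorem TiltSys.t_mem {α : X} {F : X → ℝ} {t : ℝ} (T : TiltSys α F t) : 0 ≤ t ∧ t ≤ 1 := by
  rw [← T.P_int 0 BM.zero]
  refine ⟨integral_nonneg fun x => T.P_nonneg _ x, ?_⟩
  have := integral_mono (T.P_bm 0).integrable (BM.const 1).integrable (fun x => T.P_le_one 0 x)
  simpa using this

theorem TiltSys.m_le_one {α : X} {F : X → ℝ} {t : ℝ} (T : TiltSys α F t) {g : X → ℝ}
    (hg : BM g) (Z : Set (X × ℤ)) : (T.m g).real Z ≤ 1 := by
  have h1 := T.m_fst g hg univ MeasurableSet.univ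
  have h2 : (T.m g).real Z ≤ (T.m g).real (univ ×ˢ univ) :=
    measureReal_mono (by simp)
  simpa using h2.trans h1

/-- admissible multipliers: bounded by `C`, constant along the segments cut by `Cs` -/
structure Adm (α : X) (Cs : Set X) (C : ℝ) (κ : X → ℝ) : Prop where
  meas : Measurable κ
  bdd : ∀ x, |κ x| ≤ C
  inv : ∀ x, x ∉ Cs → κ (x + α) = κ x

theorem Adm.bm {α : X} {Cs : Set X} {C : ℝ} {κ : X → ℝ} (h : Adm α Cs C κ) : BM κ :=
  ⟨h.meas, C, h.bdd⟩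

/-- A deterministic clock: `C m` counts the nominal ticks at times `≤ m`. -/
structure Clock (ℓ W D : ℕ) (C : ℤ → ℤ) : Prop where
  mono : Monotone C
  near : ∀ m : ℤ, |(C m : ℝ) - m / ℓ - 3 / 8| ≤ 1
  gap : ∀ m b : ℤ, 0 ≤ b → 2 * b ≤ ℓ → C m - C (m - b) ≤ 1
  avg : ∀ j : ℤ, |∑ n ∈ Finset.range (W * ℓ), ((C (j + n) : ℝ) - (j + n) / ℓ - 3 / 8)|
    ≤ W + 4 * ℓ
  sep : ∀ j d s : ℤ, |d| ≤ D →
    (W * ℓ : ℝ) / 200 * min (|(d : ℝ)| / ℓ) 1
      ≤ (((Finset.range (W * ℓ)).filter fun n : ℕ => C (j + n + d) - C (j + n) ≠ s).card : ℝ)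

/-- One level of the construction: a clock hand `ψ` ticking on `Θ ⊆ {‖x‖ < δ}`. -/
structure Level (α : X) (ℓ W D : ℕ) (e ε δ : ℝ) where
  ψ : X → ℝ
  Θ : Set X
  R : Set X
  G : Set X
  χ : X → ℝ
  ψ_meas : Measurable ψ
  Θ_meas : MeasurableSet Θ
  R_meas : MeasurableSet R
  G_meas : MeasurableSet G
  ψ_bdd : ∀ x, |ψ x| ≤ 2
  step : ∀ x, x ∉ R → ψ (x + α) - ψ x = Θ.indicator 1 x - 1 / ℓ
  R_small : μX.real R ≤ ε
  avg_le : ∫ x, |avg α (W * ℓ) ψ x| ∂μX ≤ e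
  G_big : μX.real Gᶜ ≤ e
  sep : ∀ x ∈ G, ∀ d : ℤ, |d| ≤ D →
    min (|(d : ℝ)| / ℓ) 1 / 200 - e ≤ (∑ n ∈ Finset.range (W * ℓ),
      ((ψ (x + d • α + n • α) - ψ (x + d • α)) - (ψ (x + n • α) - ψ x)) ^ 2) / (W * ℓ : ℕ)
  χ_cont : Continuous χ
  χ_nonneg : ∀ x, 0 ≤ χ x
  χ_le_one : ∀ x, χ x ≤ 1
  χ_eq : ∀ x, x ∉ R → χ x = Θ.indicator 1 x
  χ_supp : ∀ x, δ ≤ ‖x‖ → χ x = 0

/-- One stage: a level together with its cost `c` and its relation to the weight `F`. -/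
structure Stage (α : X) (F : X → ℝ) where
  ℓ : ℕ
  W : ℕ
  D : ℕ
  e : ℝ
  c : ℝ
  Λ : ℝ
  ψ : X → ℝ
  low : X → ℝ
  Θ : Set X
  R : Set X
  G : Set X
  Bad : Set X
  ℓ_ge : 8 ≤ ℓ
  W_ge : 4 ≤ W
  e_pos : 0 < e
  c_ge : 2 ≤ c
  Λ_nonneg : 0 ≤ Λ
  ψ_meas : Measurable ψ
  low_meas : Measurable low
  Θ_meas : MeasurableSet Θ
  R_meas : MeasurableSet R
  G_meas : MeasurableSet G
  Bad_meas : MeasurableSet Bad
  ψ_bdd : ∀ x, |ψ x| ≤ 2
  low_nonneg : ∀ x, 0 ≤ low x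
  low_le : ∀ x, low x ≤ Λ
  step : ∀ x, x ∉ R → ψ (x + α) - ψ x = Θ.indicator 1 x - 1 / ℓ
  cut_small : μX.real (Θ ∪ R) ≤ 2 / ℓ
  R_tiny : (W * ℓ : ℝ) * μX.real R * Real.exp (2 * c * (W + 4)) ≤ e ^ 2
  Bad_small : (W * ℓ : ℝ) * μX.real Bad ≤ e ^ 2
  avg_le : ∫ x, |avg α (W * ℓ) ψ x| ∂μX ≤ e
  G_big : μX.real Gᶜ ≤ e
  sep : ∀ x ∈ G, ∀ d : ℤ, |d| ≤ D →
    min (|(d : ℝ)| / ℓ) 1 / 200 - e ≤ (∑ n ∈ Finset.range (W * ℓ),
      ((ψ (x + d • α + n • α) - ψ (x + d • α)) - (ψ (x + n • α) - ψ x)) ^ 2) / (W * ℓ : ℕ)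
  c_big : (ℓ : ℝ) ^ 2 + W * ℓ * Λ ≤ e ^ 2 * c
  F_nonneg : ∀ x, 0 ≤ F x
  F_le_low : ∀ x, F x ≤ Real.exp (- low x)
  F_le : ∀ x, x ∉ R → F x ≤ Real.exp (- c * Θ.indicator 1 x - low x)
  F_eq : ∀ x, x ∉ R → x ∉ Bad → F x = Real.exp (- c * Θ.indicator 1 x - low x)

namespace Stage

variable {α : X} {F : X → ℝ} (s : Stage α F)

/-- the cut set -/
def cut : Set X := s.Θ ∪ s.R

theorem cut_meas : MeasurableSet s.cut := s.Θ_meas.union s.R_meas

theorem ψ_bm : BM s.ψ := ⟨s.ψ_meas, 2, s.ψ_bdd⟩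

theorem low_bm : BM s.low :=
  ⟨s.low_meas, s.Λ, fun x => by rw [abs_of_nonneg (s.low_nonneg x)]; exact s.low_le x⟩

theorem ℓ_pos : (0 : ℝ) < s.ℓ := by
  have := s.ℓ_ge
  exact_mod_cast (by omega : 0 < s.ℓ)

theorem step_cut {x : X} (hx : x ∉ s.cut) : s.ψ (x + α) = s.ψ x - 1 / s.ℓ := by
  have h1 : x ∉ s.R := fun h => hx (Or.inr h)
  have h2 : x ∉ s.Θ := fun h => hx (Or.inl h)
  have := s.step x h1
  rw [indicator_of_notMem h2] at this
  linarith

end Stage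

/-- The whole system of stages. -/
structure Tower (α : X) (F : X → ℝ) where
  st : ℕ → Stage α F
  F_meas : Measurable F
  e_summable : Summable fun i => (st i).e
  ℓ_mono : StrictMono fun i => (st i).ℓ
  D_ge : ∀ i, (st (16 * i)).ℓ ≤ (st i).D
  sparse : ∀ j k, j < k → ((st j).W * (st j).ℓ : ℝ) ≤ (st j).e * (st k).ℓ
  c_le : ∀ i j, i < j → (st i).c ≤ (st j).Λ

end Crest.Agent.R113
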