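import Crest.Agent.R113.Basic

/-!
# Row 113: the deterministic clock
See `R113/Plan.lean` for the whole proof of S0149 and `R113/Basic.lean` for the definitions.
-/

set_option autoImplicit false

open MeasureTheory Set Filter Topology
open scoped BigOperators

namespace Crest.Agent.R113

/-- nominal tick times `t_k = kℓ + ξ_k ℓ/4`, `ℓ = 8 l` -/
def tick (l : ℕ) (ξ : ℤ → ℤ) (k : ℤ) : ℤ := k * (8 * l) + ξ k * (2 * l)

/-- number of ticks at times `≤ m` (normalised: `clk m = k + 1` for `t_k ≤ m < t_{k+1}`) -/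
def clk (l : ℕ) (ξ : ℤ → ℤ) (m : ℤ) : ℤ :=
  m / (8 * l) + if tick l ξ (m / (8 * l)) ≤ m then 1 else 0

/-- the Galois connection between `tick` and `clk` -/
theorem lt_clk_iff {l : ℕ} (hl : 1 ≤ l) {ξ : ℤ → ℤ} (h01 : ∀ k, ξ k = 0 ∨ ξ k = 1) (k m : ℤ) :
    k < clk l ξ m ↔ tick l ξ k ≤ m := by
  have hL : (1 : ℤ) ≤ l := by exact_mod_cast hl
  have h1 := Int.emod_add_mul_ediv m (8 * l)
  have h2 := Int.emod_nonneg m (show (8 * l : ℤ) ≠ 0 by omega)
  have h3 := Int.emod_lt_of_pos m (show (0 : ℤ) < 8 * l by omega)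
  unfold clk
  generalize m / (8 * l) = q at *
  rcases lt_trichotomy k q with h | rfl | h
  · refine iff_of_true (by split_ifs <;> omega) ?_
    have : (k + 1) * (8 * l) ≤ q * (8 * l) := mul_le_mul_of_nonneg_right h (by omega)
    unfold tick
    rcases h01 k with h4 | h4 <;> rw [h4] <;> nlinarith
  · split_ifs with h4 <;> simp [h4]
  · refine iff_of_false (by split_ifs <;> omega) ?_
    have : (q + 1) * (8 * l) ≤ k * (8 * l) := mul_le_mul_of_nonneg_right h (by omega)
    unfold tick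
    rcases h01 k with h4 | h4 <;> rw [h4] <;> nlinarith

theorem clock_cell {l : ℕ} (ξ : ℤ → ℤ) (k r : ℤ) (h0 : 0 ≤ r) (h1 : r < 8 * l) :
    clk l ξ (k * (8 * l) + r) = k + if ξ k * (2 * l) ≤ r then 1 else 0 := by
  have h : (k * (8 * l) + r) / (8 * l) = k := by
    rw [add_comm, Int.add_mul_ediv_right _ _ (by omega), Int.ediv_eq_zero_of_lt h0 h1, zero_add]
  unfold clk tick
  rw [h]
  simp only [add_le_add_iff_left]

/-- the clock hand -/
noncomputable def clock_phi (l : ℕ) (ξ : ℤ → ℤ) (m : ℤ) : ℝ :=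
  (clk l ξ m : ℝ) - m / (8 * l : ℕ) - 3 / 8

theorem clock_phi_cell {l : ℕ} (hl : 1 ≤ l) (ξ : ℤ → ℤ) (k r : ℤ) (h0 : 0 ≤ r) (h1 : r < 8 * l) :
    clock_phi l ξ (k * (8 * l) + r) =
      (if ξ k * (2 * l) ≤ r then 1 else 0) - r / (8 * l) - 3 / 8 := by
  have hL : (0 : ℝ) < l := by exact_mod_cast hl
  unfold clock_phi
  rw [clock_cell ξ k r h0 h1]
  push_cast
  field_simp
  ring

theorem clock_near {l : ℕ} (hl : 1 ≤ l) {ξ : ℤ → ℤ} (h01 : ∀ k, ξ k = 0 ∨ ξ k = 1) (m : ℤ) :
    |clock_phi l ξ m| ≤ 1 := by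
  have hL : (1 : ℤ) ≤ l := by exact_mod_cast hl
  have hL' : (0 : ℝ) < l := by exact_mod_cast hl
  have h1 := Int.emod_add_mul_ediv m (8 * l)
  have h2 := Int.emod_nonneg m (show (8 * l : ℤ) ≠ 0 by omega)
  have h3 := Int.emod_lt_of_pos m (show (0 : ℤ) < 8 * l by omega)
  rw [show m = m / (8 * l) * (8 * l) + m % (8 * l) by linarith, clock_phi_cell hl ξ _ _ h2 h3]
  generalize m % (8 * l) = r at *
  have h4 : (0 : ℝ) ≤ r / (8 * l) := div_nonneg (by exact_mod_cast h2) (by positivity)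
  have h5 : (r : ℝ) / (8 * l) ≤ 1 := by
    rw [div_le_one (by positivity)]; exact_mod_cast h3.le
  split_ifs with h
  · rw [abs_le]; constructor <;> linarith
  · have h6 : r ≤ 2 * l := by rcases h01 (m / (8 * l)) with h7 | h7 <;> rw [h7] at h <;> omega
    have h7 : (r : ℝ) / (8 * l) ≤ 1 / 4 := by
      rw [div_le_iff₀ (by positivity)]
      have : (r : ℝ) ≤ 2 * l := by exact_mod_cast h6
      linarith
    rw [abs_le]; constructor <;> linarith

theorem clock_sum_id (N : ℕ) : ∑ n ∈ Finset.range N, (n : ℝ) = N * (N - 1) / 2 := by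
  induction N with
  | zero => simp
  | succ N ih => rw [Finset.sum_range_succ, ih]; push_cast; ring

theorem clock_period {l : ℕ} (hl : 1 ≤ l) {ξ : ℤ → ℤ} (h01 : ∀ k, ξ k = 0 ∨ ξ k = 1) (k : ℤ) :
    ∑ n ∈ Finset.range (8 * l), clock_phi l ξ (k * (8 * l) + n) = l + 1 / 2 - 2 * l * ξ k := by
  have hL : (0 : ℝ) < l := by exact_mod_cast hl
  rw [Finset.sum_congr rfl fun (n : ℕ) hn => clock_phi_cell hl ξ k n (by positivity)
    (by exact_mod_cast Finset.mem_range.1 hn)]
  have h1 : ∑ n ∈ Finset.range (8 * l), (if ξ k * (2 * l) ≤ (n : ℤ) then (1 : ℝ) else 0) =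
      8 * l - 2 * l * ξ k := by
    rcases h01 k with h | h
    · simp [h]
    · rw [h, show 8 * l = 2 * l + 6 * l by ring, Finset.sum_range_add,
        Finset.sum_eq_zero fun n hn => if_neg (by have := Finset.mem_range.1 hn; omega),
        Finset.sum_congr rfl fun n _ => if_pos (by push_cast; omega)]
      simp
      ring
  rw [Finset.sum_sub_distrib, Finset.sum_sub_distrib, h1, ← Finset.sum_div]
  simp only [Int.cast_natCast, clock_sum_id, Finset.sum_const, Finset.card_range, nsmul_eq_mul]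
  push_cast
  field_simp
  ring

theorem clock_double {l : ℕ} (hl : 1 ≤ l) {ξ : ℤ → ℤ} (h01 : ∀ k, ξ k = 0 ∨ ξ k = 1)
    (hbal : ∀ k, ξ (2 * k) + ξ (2 * k + 1) = 1) (k : ℤ) (N : ℕ) :
    ∑ n ∈ Finset.range (2 * N * (8 * l)), clock_phi l ξ (2 * k * (8 * l) + n) = N := by
  induction N with
  | zero => simp
  | succ N ih =>
    rw [show 2 * (N + 1) * (8 * l) = 2 * N * (8 * l) + 8 * l + 8 * l by ring, Finset.sum_range_add,
      Finset.sum_range_add, ih]
    have h1 := clock_period hl h01 (2 * (k + N))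
    have h2 := clock_period hl h01 (2 * (k + N) + 1)
    have h3 : (ξ (2 * (k + N)) : ℝ) + ξ (2 * (k + N) + 1) = 1 := by exact_mod_cast hbal (k + N)
    rw [Finset.sum_congr rfl fun n _ => congrArg (clock_phi l ξ)
      (show 2 * k * (8 * l) + ((2 * N * (8 * l) + n : ℕ) : ℤ) = 2 * (k + N) * (8 * l) + n by
        push_cast; ring), h1,
      Finset.sum_congr rfl fun n _ => congrArg (clock_phi l ξ)
      (show 2 * k * (8 * l) + ((2 * N * (8 * l) + 8 * l + n : ℕ) : ℤ) =
        (2 * (k + N) + 1) * (8 * l) + n by push_cast; ring), h2]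
    push_cast
    linear_combination (-2 * l : ℝ) * h3

theorem clock_avg {l : ℕ} (hl : 1 ≤ l) {ξ : ℤ → ℤ} (h01 : ∀ k, ξ k = 0 ∨ ξ k = 1)
    (hbal : ∀ k, ξ (2 * k) + ξ (2 * k + 1) = 1) (j : ℤ) (N : ℕ) :
    |∑ n ∈ Finset.range (2 * N * (8 * l)), clock_phi l ξ (j + n)| ≤ N + 4 * (8 * l : ℕ) := by
  have hL : (1 : ℤ) ≤ l := by exact_mod_cast hl
  have h1 := Int.emod_add_mul_ediv j (16 * l)
  have h2 := Int.emod_nonneg j (show (16 * l : ℤ) ≠ 0 by omega)
  have h3 := Int.emod_lt_of_pos j (show (0 : ℤ) < 16 * l by omega)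
  obtain ⟨r, hr⟩ := Int.eq_ofNat_of_zero_le h2
  rw [hr] at h1 h3
  set k := j / (16 * l)
  have h4 := Finset.sum_range_add (fun n : ℕ => clock_phi l ξ (2 * k * (8 * l) + n)) r
    (2 * N * (8 * l))
  rw [add_comm r, Finset.sum_range_add, clock_double hl h01 hbal,
    Finset.sum_congr rfl fun n (_ : n ∈ Finset.range (2 * N * (8 * l))) => congrArg (clock_phi l ξ)
      (show 2 * k * (8 * l) + ((r + n : ℕ) : ℤ) = j + n by push_cast; linarith)] at h4
  have h5 : ∀ f : ℕ → ℤ, |∑ n ∈ Finset.range r, clock_phi l ξ (f n)| ≤ 16 * l := fun f => by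
    refine (Finset.abs_sum_le_sum_abs _ _).trans ((Finset.sum_le_card_nsmul _ _ 1
      fun n _ => clock_near hl h01 _).trans ?_)
    simp only [Finset.card_range, nsmul_eq_mul, mul_one]
    exact_mod_cast h3.le
  have h6 := abs_le.1 (h5 fun n => 2 * k * (8 * l) + ((2 * N * (8 * l) + n : ℕ) : ℤ))
  have h7 := abs_le.1 (h5 fun n => 2 * k * (8 * l) + n)
  have h8 : (0 : ℝ) ≤ N := by positivity
  rw [abs_le]
  push_cast at *
  constructor <;> linarith

theorem clock_cell_count {l : ℕ} (hl : 1 ≤ l) {ξ : ℤ → ℤ} (h01 : ∀ k, ξ k = 0 ∨ ξ k = 1)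
    (d s k : ℤ) : min |tick l ξ (k + s) - tick l ξ k - d| (2 * l) ≤
      (((Finset.Ico (k * (8 * l) - 2 * l) (k * (8 * l) + 6 * l)).filter
        fun m : ℤ => clk l ξ (m + d) - clk l ξ m ≠ s).card : ℤ) := by
  have ht : k * (8 * l) ≤ tick l ξ k ∧ tick l ξ k ≤ k * (8 * l) + 2 * l := by
    unfold tick
    rcases h01 k with h | h <;> rw [h] <;> omega
  have hI := fun m => lt_clk_iff hl h01 k m
  have hI' := fun m => lt_clk_iff hl h01 (k + s) m
  generalize tick l ξ k = t at *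
  generalize tick l ξ (k + s) = t' at *
  generalize k * (8 * l) = a at *
  rcases le_total 0 (t' - t - d) with h | h
  · rw [abs_of_nonneg h]
    refine le_trans ?_ (Int.ofNat_le.2 (Finset.card_le_card
      (s := Finset.Ico t (t + min (t' - t - d) (2 * l))) fun m hm => ?_))
    · rw [Int.card_Ico]; omega
    · rw [Finset.mem_Ico] at hm
      rw [Finset.mem_filter, Finset.mem_Ico]
      have h1 := hI m
      have h2 := hI' (m + d)
      omega
  · rw [abs_of_nonpos h]
    refine le_trans ?_ (Int.ofNat_le.2 (Finset.card_le_card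
      (s := Finset.Ico (t - min (-(t' - t - d)) (2 * l)) t) fun m hm => ?_))
    · rw [Int.card_Ico]; omega
    · rw [Finset.mem_Ico] at hm
      rw [Finset.mem_filter, Finset.mem_Ico]
      have h1 := hI m
      have h2 := hI' (m + d)
      omega

theorem clock_count {l : ℕ} (hl : 1 ≤ l) {ξ : ℤ → ℤ} (h01 : ∀ k, ξ k = 0 ∨ ξ k = 1)
    (N : ℕ) (j d s : ℤ) : ∃ k : ℤ,
    ∑ i ∈ Finset.range N, min |tick l ξ (k + i + s) - tick l ξ (k + i) - d| (2 * l) ≤
      (((Finset.range ((N + 1) * (8 * l))).filter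
        fun n : ℕ => clk l ξ (j + n + d) - clk l ξ (j + n) ≠ s).card : ℤ) := by
  classical
  have hL : (1 : ℤ) ≤ l := by exact_mod_cast hl
  have h1 := Int.emod_add_mul_ediv (j + 2 * l) (8 * l)
  have h2 := Int.emod_nonneg (j + 2 * l) (show (8 * l : ℤ) ≠ 0 by omega)
  have h3 := Int.emod_lt_of_pos (j + 2 * l) (show (0 : ℤ) < 8 * l by omega)
  obtain ⟨k, hk1, hk2⟩ : ∃ k : ℤ, j ≤ k * (8 * l) - 2 * l ∧ k * (8 * l) - 2 * l ≤ j + 8 * l :=
    ⟨(j + 2 * l) / (8 * l) + 1, by linarith, by linarith⟩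
  refine ⟨k, (Finset.sum_le_sum fun (i : ℕ) _ => clock_cell_count hl h01 d s (k + i)).trans ?_⟩
  rw [← Nat.cast_sum, ← Finset.card_biUnion, Int.ofNat_le]
  · refine Finset.card_le_card_of_injOn (fun m => (m - j).toNat) (fun m hm => ?_) ?_
    · obtain ⟨i, hi, hm⟩ := Finset.mem_biUnion.1 hm
      rw [Finset.mem_filter, Finset.mem_Ico] at hm
      have hi' : (i : ℤ) + 1 ≤ N := by exact_mod_cast Finset.mem_range.1 hi
      have h4 : (0 : ℤ) ≤ i * (8 * l) := by positivity
      have h5 : ((i : ℤ) + 1) * (8 * l) ≤ N * (8 * l) := mul_le_mul_of_nonneg_right hi' (by omega)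
      have h6 : (((m - j).toNat : ℕ) : ℤ) = m - j := Int.toNat_of_nonneg (by linarith [hm.1.1])
      rw [Finset.mem_coe, Finset.mem_filter, Finset.mem_range, h6, add_sub_cancel]
      refine ⟨?_, hm.2⟩
      rw [← Int.ofNat_lt, h6]
      push_cast
      linarith [hm.1.2]
    · intro m hm m' hm' h
      have key : ∀ m ∈ (Finset.range N).biUnion fun i : ℕ =>
          (Finset.Ico ((k + i) * (8 * l) - 2 * l) ((k + i) * (8 * l) + 6 * l)).filter
            fun m : ℤ => clk l ξ (m + d) - clk l ξ m ≠ s, j ≤ m := by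
        intro m hm
        obtain ⟨i, hi, hm⟩ := Finset.mem_biUnion.1 hm
        rw [Finset.mem_filter, Finset.mem_Ico] at hm
        have h4 : (0 : ℤ) ≤ i * (8 * l) := by positivity
        linarith [hm.1.1]
      have a1 := key m hm
      have a2 := key m' hm'
      simp only at h
      omega
  · intro i _ i' _ hii'
    refine Finset.disjoint_left.2 fun m hm hm' => ?_
    rw [Finset.mem_filter, Finset.mem_Ico] at hm hm'
    rcases lt_or_gt_of_ne hii' with h | h
    · have : ((i : ℤ) + 1) * (8 * l) ≤ i' * (8 * l) :=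
        mul_le_mul_of_nonneg_right (by exact_mod_cast h) (by omega)
      linarith [hm.1.2, hm'.1.1]
    · have : ((i' : ℤ) + 1) * (8 * l) ≤ i * (8 * l) :=
        mul_le_mul_of_nonneg_right (by exact_mod_cast h) (by omega)
      linarith [hm.1.1, hm'.1.2]

theorem clock_lower {l w D : ℕ} (hl : 1 ≤ l) (hw : 1 ≤ w) {ξ : ℤ → ℤ}
    (h01 : ∀ k, ξ k = 0 ∨ ξ k = 1)
    (hsep : ∀ s : ℤ, s ≠ 0 → |s| ≤ D → ∀ v k : ℤ,
      w ≤ ((Finset.range (20 * w + 1)).filter fun i : ℕ => ξ (k + i + s) - ξ (k + i) ≠ v).card)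
    (k d s : ℤ) (hd : |d| ≤ D) : (20 * w + 2) * min |d| (8 * l) ≤ 200 *
      ∑ i ∈ Finset.range (20 * w + 1),
        min |tick l ξ (k + i + s) - tick l ξ (k + i) - d| (2 * l) := by
  have hL : (1 : ℤ) ≤ l := by exact_mod_cast hl
  have hW : (1 : ℤ) ≤ w := by exact_mod_cast hw
  have e : ∀ i : ℤ, tick l ξ (i + s) - tick l ξ i - d =
      s * (8 * l) - d + (ξ (i + s) - ξ i) * (2 * l) := fun i => by unfold tick; ring
  simp only [e]
  have hd0 := abs_nonneg d
  by_cases hs : s = 0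
  · subst hs
    simp only [add_zero, sub_self, zero_mul, zero_sub, abs_neg, Finset.sum_const,
      Finset.card_range, nsmul_eq_mul]
    have h1 : min |d| (8 * l) ≤ 4 * min |d| (2 * l) := by omega
    have h2 : 0 ≤ min |d| (2 * l : ℤ) := by omega
    push_cast
    nlinarith
  have hm : min |d| (8 * l) ≤ 8 * l := min_le_right _ _
  by_cases hx : 4 * l ≤ |s * (8 * l) - d|
  · have h1 := Finset.card_nsmul_le_sum (Finset.range (20 * w + 1)) (fun i : ℕ =>
      min |s * (8 * l) - d + (ξ (k + i + s) - ξ (k + i)) * (2 * l)| (2 * l)) (2 * l) fun i _ => by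
        refine le_min ?_ le_rfl
        generalize s * (8 * l) - d = x at *
        rw [le_abs] at hx ⊢
        rcases h01 (k + i + s) with h | h <;> rcases h01 (k + i) with h' | h' <;> rw [h, h'] <;>
          omega
    simp only [Finset.card_range, nsmul_eq_mul] at h1
    push_cast at h1
    nlinarith
  · push Not at hx
    have hsD : |s| ≤ D := by
      have h1 : 1 ≤ |s| := Int.one_le_abs hs
      have h2 : |s * (8 * l)| ≤ |s * (8 * l) - d| + |d| := by
        simpa using abs_add_le (s * (8 * l) - d) d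
      rw [abs_mul, abs_of_nonneg (show (0 : ℤ) ≤ 8 * l by omega)] at h2
      nlinarith
    obtain ⟨v, hv⟩ : ∃ v : ℤ, ∀ v', v' ≠ v → (l : ℤ) ≤ |s * (8 * l) - d + v' * (2 * l)| := by
      by_cases h : ∃ v : ℤ, |s * (8 * l) - d + v * (2 * l)| < l
      · obtain ⟨v, hv⟩ := h
        refine ⟨v, fun v' hv' => ?_⟩
        by_contra h
        push Not at h
        rw [abs_lt] at h hv
        rcases lt_or_gt_of_ne hv' with h1 | h1
        · have : (v' + 1) * (2 * l) ≤ v * (2 * l) := mul_le_mul_of_nonneg_right h1 (by omega)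
          linarith [h.1, hv.2]
        · have : (v + 1) * (2 * l) ≤ v' * (2 * l) := mul_le_mul_of_nonneg_right h1 (by omega)
          linarith [h.2, hv.1]
      · push Not at h
        exact ⟨0, fun v' _ => h v'⟩
    have h1 : (w : ℤ) ≤ _ := Int.ofNat_le.2 (hsep s hs hsD v k)
    have h2 := Finset.card_nsmul_le_sum ((Finset.range (20 * w + 1)).filter
      fun i : ℕ => ξ (k + i + s) - ξ (k + i) ≠ v) (fun i : ℕ =>
      min |s * (8 * l) - d + (ξ (k + i + s) - ξ (k + i)) * (2 * l)| (2 * l)) l fun i hi =>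
        le_min (hv _ (Finset.mem_filter.1 hi).2) (by omega)
    have h3 := h2.trans (Finset.sum_le_sum_of_subset_of_nonneg (Finset.filter_subset _ _)
      fun i _ _ => le_min (abs_nonneg _) (by omega))
    rw [nsmul_eq_mul] at h3
    nlinarith

/-- `near`: `clk m - m/ℓ - 3/8 = 1[..] - r/ℓ - 3/8`.  `gap`: ticks are `≥ 6l` apart.
`avg`: the sum over an aligned double period `[2kℓ, 2(k+1)ℓ)` is exactly `1` (balance).
`sep`: with `δ_k = t_{k+s} - t_k - d`, every `m ∈ [t_k, t_k + δ_k)` has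
`clk (m+d) - clk m ≤ s - 1` and every `m ∈ [t_k + δ_k, t_k)` has `≥ s + 1`, so the cell
`[kℓ - 2l, kℓ + 6l)` contains at least `min |δ_k| (2l)` good `m`; the window contains `20w+1`
consecutive full cells.  `s = 0`: `|δ_k| = |d|`.  `|sℓ - d| ≥ 4l`: `|δ_k| ≥ 2l`.  Otherwise
`0 < |s| ≤ D`, at most one `v ∈ {-1,0,1}` has `|sℓ - d + 2lv| < l`, and `hsep` gives `w` cells
with `|δ_k| ≥ l`; `w l ≥ (20w+2)·8l/200`. -/
theorem clock_clk {l w D : ℕ} (hl : 1 ≤ l) (hw : 1 ≤ w) {ξ : ℤ → ℤ}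
    (h01 : ∀ k, ξ k = 0 ∨ ξ k = 1) (hbal : ∀ k, ξ (2 * k) + ξ (2 * k + 1) = 1)
    (hsep : ∀ s : ℤ, s ≠ 0 → |s| ≤ D → ∀ v k : ℤ,
      w ≤ ((Finset.range (20 * w + 1)).filter fun i : ℕ => ξ (k + i + s) - ξ (k + i) ≠ v).card) :
    Clock (8 * l) (20 * w + 2) D (clk l ξ) := by
  refine ⟨fun m m' h => ?_, clock_near hl h01, fun m b hb hb' => ?_, fun j => ?_,
    fun j d s hd => ?_⟩
  · by_contra h1
    push Not at h1
    exact lt_irrefl _ ((lt_clk_iff hl h01 _ _).2 (((lt_clk_iff hl h01 _ _).1 h1).trans h))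
  · by_contra h1
    push Not at h1
    have h2 := (lt_clk_iff hl h01 (clk l ξ (m - b)) (m - b)).not.1 (lt_irrefl _)
    have h3 := (lt_clk_iff hl h01 (clk l ξ (m - b) + 1) m).1 (by omega)
    generalize clk l ξ (m - b) = k at *
    unfold tick at h2 h3
    push_cast at hb'
    rcases h01 k with h | h <;> rcases h01 (k + 1) with h' | h' <;> rw [h] at h2 <;>
      rw [h'] at h3 <;> linarith
  · have h1 := clock_avg hl h01 hbal j (10 * w + 1)
    rw [show 2 * (10 * w + 1) = 20 * w + 2 by ring] at h1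
    simp only [clock_phi, Int.cast_add, Int.cast_natCast] at h1
    refine h1.trans ?_
    push_cast
    have : (0 : ℝ) ≤ w := by positivity
    linarith
  · obtain ⟨k, hk⟩ := clock_count hl h01 (20 * w + 1) j d s
    have h1 := (clock_lower hl hw h01 hsep k d s hd).trans
      (mul_le_mul_of_nonneg_left hk (by norm_num))
    have h2 : ((20 * w + 2 : ℝ)) * min |(d : ℝ)| (8 * l) ≤ 200 * (((Finset.range
        ((20 * w + 2) * (8 * l))).filter
        fun n : ℕ => clk l ξ (j + n + d) - clk l ξ (j + n) ≠ s).card : ℝ) := by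
      exact_mod_cast h1
    have hL : (0 : ℝ) < l := by exact_mod_cast hl
    have h3 : min |(d : ℝ)| (8 * l) = 8 * l * min (|(d : ℝ)| / (8 * l)) 1 := by
      rw [mul_min_of_nonneg _ _ (by positivity), mul_one, mul_div_cancel₀ _ (by positivity)]
    rw [h3] at h2
    push_cast
    linarith

end Crest.Agent.R113
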