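import Mathlib

/-!
# Row 113: existence of a shift-separating balanced code
See `R113/Plan.lean` for the whole proof of S0149 and `R113/Basic.lean` for the definitions.
-/

set_option autoImplicit false

open MeasureTheory Set Filter Topology
open scoped BigOperators

namespace Crest.Agent.R113

theorem code_count {α : Type*} [Fintype α] [DecidableEq α] (P : Finset α) {w : ℕ}
    (hP : P.card = 10 * w) (c : Bool) :
    8 ^ w * (Finset.univ.filter fun η : α → Bool => (P.filter fun x => η x = c).card < w).card ≤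
      2 ^ Fintype.card α := by
  set B := Finset.univ.filter fun η : α → Bool => (P.filter fun x => η x = c).card < w with hB
  set g : α → Bool → ℕ := fun x b => if x ∈ P ∧ b ≠ c then 2 else 1 with hg
  have h1 : ∀ η ∈ B, 2 ^ (9 * w) ≤ ∏ x, g x (η x) := by
    intro η hη
    have h2 := (Finset.mem_filter.1 hη).2
    have h3 := Finset.card_filter_add_card_filter_not (s := P) fun x => η x = c
    simp only [hg]
    rw [Finset.prod_ite, Finset.prod_const, Finset.prod_const_one, mul_one]
    refine Nat.pow_le_pow_right two_pos ?_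
    have h4 : (Finset.univ.filter fun x => x ∈ P ∧ η x ≠ c) = P.filter fun x => ¬ η x = c := by
      ext x; simp
    rw [h4]
    omega
  have h2 : ∑ η : α → Bool, ∏ x, g x (η x) = 3 ^ (10 * w) * 2 ^ Pᶜ.card := by
    rw [← Fintype.piFinset_univ, ← Finset.prod_univ_sum]
    have : ∀ x, ∑ b, g x b = if x ∈ P then 3 else 2 := by
      intro x
      by_cases hx : x ∈ P <;> cases c <;> simp [hg, hx]
    simp only [this]
    rw [Finset.prod_ite, Finset.prod_const, Finset.prod_const, ← hP]
    congr 3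
    · ext x; simp
    · ext x; simp
  have h3 : B.card * 2 ^ (9 * w) ≤ 3 ^ (10 * w) * 2 ^ Pᶜ.card := by
    rw [← h2, ← smul_eq_mul]
    exact (Finset.card_nsmul_le_sum B _ _ h1).trans
      (Finset.sum_le_sum_of_subset (Finset.subset_univ _))
  have h4 : 8 ^ w * 3 ^ (10 * w) ≤ 2 ^ (10 * w) * 2 ^ (9 * w) := by
    rw [pow_mul, pow_mul, pow_mul, ← mul_pow, ← mul_pow]
    exact Nat.pow_le_pow_left (by norm_num) w
  rw [← Finset.card_add_card_compl P, hP, pow_add]
  refine Nat.le_of_mul_le_mul_right ?_ (pow_pos two_pos (9 * w))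
  calc 8 ^ w * B.card * 2 ^ (9 * w) = 8 ^ w * (B.card * 2 ^ (9 * w)) := by ring
    _ ≤ 8 ^ w * (3 ^ (10 * w) * 2 ^ Pᶜ.card) := Nat.mul_le_mul_left _ h3
    _ = 8 ^ w * 3 ^ (10 * w) * 2 ^ Pᶜ.card := by ring
    _ ≤ 2 ^ (10 * w) * 2 ^ (9 * w) * 2 ^ Pᶜ.card := Nat.mul_le_mul_right _ h4
    _ = _ := by ring

theorem code_bad {N w s : ℕ} [NeZero N] (hs : 1 ≤ s) (hN : s + 10 * w < N) (k : ZMod N)
    (c : Bool) :
    8 ^ w * (Finset.univ.filter fun ζ : ZMod N → Bool => ((Finset.range (10 * w)).filter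
      fun i : ℕ => xor (ζ (k + i + s)) (ζ (k + i)) = c).card < w).card ≤ 2 ^ N := by
  have hinj : ∀ a b : ℕ, a < N → b < N → (a : ZMod N) = b → a = b := by
    intro a b ha hb h
    rwa [ZMod.natCast_eq_natCast_iff', Nat.mod_eq_of_lt ha, Nat.mod_eq_of_lt hb] at h
  set p : ℕ → ZMod N := fun i => k + i + s with hp
  have hpi : Set.InjOn p (Finset.range (10 * w)) := by
    intro a ha b hb h
    rw [Finset.mem_coe, Finset.mem_range] at ha hb
    exact hinj a b (by omega) (by omega) (add_left_cancel (add_right_cancel h))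
  set P := (Finset.range (10 * w)).image p with hP
  have hPc : P.card = 10 * w := by rw [hP, Finset.card_image_of_injOn hpi, Finset.card_range]
  have hc := code_count P hPc c
  rw [ZMod.card] at hc
  refine le_trans (Nat.mul_le_mul_left _ ?_) hc
  refine Finset.card_le_card_of_injOn
    (fun ζ x => if x ∈ P then xor (ζ x) (ζ (x - s)) else ζ x) (fun ζ hζ => ?_)
    fun ζ _ ζ' _ h => ?_
  · rw [Finset.mem_coe, Finset.mem_filter] at hζ ⊢
    refine ⟨Finset.mem_univ _, lt_of_le_of_lt ?_ hζ.2⟩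
    rw [hP, Finset.filter_image]
    refine Finset.card_image_le.trans (Finset.card_le_card fun i hi => ?_)
    rw [Finset.mem_filter] at hi ⊢
    refine ⟨hi.1, ?_⟩
    have h2 := hi.2
    simp only [Finset.mem_image_of_mem p hi.1, if_true] at h2
    simpa [hp] using h2
  · have h0 : ∀ x, x ∉ P → ζ x = ζ' x := fun x hx => by
      simpa [hx] using congrFun h x
    have h1 : ∀ i, i < 10 * w → ζ (p i) = ζ' (p i) := by
      intro i
      induction i using Nat.strong_induction_on with
      | _ i ih =>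
        intro hi
        have h2 := congrFun h (p i)
        have h3 : p i ∈ P := Finset.mem_image_of_mem p (Finset.mem_range.2 hi)
        simp only [h3, if_true] at h2
        have h4 : ζ (p i - s) = ζ' (p i - s) := by
          by_cases h5 : p i - s ∈ P
          · obtain ⟨j, hj, hj'⟩ := Finset.mem_image.1 h5
            rw [Finset.mem_range] at hj
            have h6 : j + s = i := by
              refine hinj _ _ (by omega) (by omega) ?_
              simp only [hp, add_sub_cancel_right] at hj'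
              push_cast
              exact add_left_cancel ((add_assoc _ _ _).symm.trans hj')
            rw [← hj']
            exact ih j (by omega) hj
          · exact h0 _ h5
        rw [h4] at h2
        exact Bool.xor_left_inj.1 h2
    funext x
    by_cases hx : x ∈ P
    · obtain ⟨j, hj, rfl⟩ := Finset.mem_image.1 hx
      exact h1 j (Finset.mem_range.1 hj)
    · exact h0 x hx

/-- Counting: let `J' = J + 10w + 1`.  Among `ζ : ZMod J' → Bool`, for fixed `k` and `1 ≤ s ≤ J`
the map `ζ ↦ (i ↦ ζ(k+i) xor ζ(k+s+i))_{i < 10w}` has all fibres of size `≤ 2^(J'-10w)` (`ζ` is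
determined by the xor word and its values outside `{k+s+i}`; the positions `k + i`,
`i < J'`, are distinct), and at most `2^w (3/2)^(10w) ≤ 2^(7w)` words have fewer than `w` ones
(same for zeros).  Union bound: `2 J' J 2^(J'-3w) < 2^J'`. -/
theorem exists_code0 (J w : ℕ) (h : 4 * (J + 10 * w + 1) ^ 2 < 8 ^ w) :
    ∃ ζ : ℤ → Bool, ∀ (k s : ℤ), s ≠ 0 → |s| ≤ J →
      w ≤ ((Finset.range (10 * w)).filter fun i : ℕ => ζ (k + i + s) ≠ ζ (k + i)).card ∧
      w ≤ ((Finset.range (10 * w)).filter fun i : ℕ => ζ (k + i + s) = ζ (k + i)).card := by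
  classical
  set N := J + 10 * w + 1 with hN
  have : NeZero N := ⟨by omega⟩
  set Bad : ZMod N × ℕ × Bool → Finset (ZMod N → Bool) := fun z =>
    Finset.univ.filter fun ζ : ZMod N → Bool => ((Finset.range (10 * w)).filter
      fun i : ℕ => xor (ζ (z.1 + i + z.2.1)) (ζ (z.1 + i)) = z.2.2).card < w with hBad
  set I : Finset (ZMod N × ℕ × Bool) := Finset.univ ×ˢ Finset.Icc 1 J ×ˢ Finset.univ with hI
  have hIc : I.card = N * (J * 2) := by simp [hI]
  have h1 : (I.biUnion Bad).card < (Finset.univ : Finset (ZMod N → Bool)).card := by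
    rw [Finset.card_univ, Fintype.card_fun, ZMod.card, Fintype.card_bool]
    refine lt_of_mul_lt_mul_left (a := 8 ^ w) ?_ (Nat.zero_le _)
    calc 8 ^ w * (I.biUnion Bad).card ≤ 8 ^ w * ∑ z ∈ I, (Bad z).card :=
          Nat.mul_le_mul_left _ Finset.card_biUnion_le
      _ = ∑ z ∈ I, 8 ^ w * (Bad z).card := Finset.mul_sum _ _ _
      _ ≤ I.card • 2 ^ N := by
          refine Finset.sum_le_card_nsmul _ _ _ fun z hz => ?_
          have hz' : 1 ≤ z.2.1 ∧ z.2.1 ≤ J := by simpa [hI] using hz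
          exact code_bad hz'.1 (by omega) z.1 z.2.2
      _ < 8 ^ w * 2 ^ N := by
          rw [smul_eq_mul, hIc]
          refine Nat.mul_lt_mul_of_pos_right ?_ (pow_pos two_pos _)
          have : J ≤ N := by omega
          nlinarith
  obtain ⟨ζ, -, hζ⟩ := Finset.exists_mem_notMem_of_card_lt_card h1
  have h2 : ∀ (k : ℤ) (s : ℕ), 1 ≤ s → s ≤ J → ∀ c : Bool, w ≤ ((Finset.range (10 * w)).filter
      fun i : ℕ => xor (ζ ((k + i + s : ℤ) : ZMod N)) (ζ ((k + i : ℤ) : ZMod N)) = c).card := by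
    intro k s hs hs' c
    by_contra hlt
    refine hζ (Finset.mem_biUnion.2 ⟨((k : ZMod N), s, c), by simp [hI, hs, hs'], ?_⟩)
    refine Finset.mem_filter.2 ⟨Finset.mem_univ _, ?_⟩
    push_cast at hlt
    exact not_le.1 hlt
  refine ⟨fun z => ζ (z : ZMod N), fun k s hs hsJ => ?_⟩
  obtain ⟨n, rfl | rfl⟩ := Int.eq_nat_or_neg s
  · have h3 : 1 ≤ n := by omega
    have h4 : n ≤ J := by simpa using hsJ
    exact ⟨(h2 k n h3 h4 true).trans_eq (by congr 1; ext i; simp),
      (h2 k n h3 h4 false).trans_eq (by congr 1; ext i; simp)⟩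
  · have h3 : 1 ≤ n := by omega
    have h4 : n ≤ J := by simpa using hsJ
    have e1 : ∀ i : ℕ, k - n + i + n = k + i := fun i => by ring
    have e2 : ∀ i : ℕ, k - n + i = k + i + -(n : ℤ) := fun i => by ring
    refine ⟨(h2 (k - n) n h3 h4 true).trans_eq ?_, (h2 (k - n) n h3 h4 false).trans_eq ?_⟩
    · congr 1
      refine Finset.filter_congr fun i _ => ?_
      rw [e1, e2, Bool.xor_comm]
      simp only [ne_eq, Bool.bne_eq_xor.symm, bne_iff_ne]
    · congr 1
      refine Finset.filter_congr fun i _ => ?_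
      rw [e1, e2, Bool.xor_comm]
      simp only [Bool.bne_eq_xor.symm, bne_eq_false_iff_eq]

/-- Manchester coding `ξ (2k) = ζ k`, `ξ (2k+1) = 1 - ζ k`.  A window of `20w+1` consecutive
positions contains `10w` full pairs `(2k, 2k+1)`.  `v = ±1`: one position of each pair works;
`v = 0`, `s = 2s'`: disagreements of `ζ` at shift `s'`; `s = 2s'+1`: agreements at shift `s'`
(trivial for `s' = 0`); other `v`: every position works. -/
theorem exists_code (J w : ℕ) (h : 4 * (J + 10 * w + 1) ^ 2 < 8 ^ w) :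
    ∃ ξ : ℤ → ℤ, (∀ k, ξ k = 0 ∨ ξ k = 1) ∧ (∀ k, ξ (2 * k) + ξ (2 * k + 1) = 1) ∧
      ∀ s : ℤ, s ≠ 0 → |s| ≤ J → ∀ v k : ℤ,
        w ≤ ((Finset.range (20 * w + 1)).filter fun i : ℕ => ξ (k + i + s) - ξ (k + i) ≠ v).card := by
  obtain ⟨ζ, hζ⟩ := exists_code0 J w h
  set ξ : ℤ → ℤ := fun n =>
    if n % 2 = 0 then (if ζ (n / 2) then 1 else 0) else 1 - if ζ (n / 2) then 1 else 0 with hξ
  have h0 : ∀ n, ξ (2 * n) = if ζ n then 1 else 0 := by
    intro n
    have e1 : 2 * n % 2 = 0 := by omega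
    have e2 : 2 * n / 2 = n := by omega
    simp only [hξ, e1, e2, if_true]
  have h1 : ∀ n, ξ (2 * n + 1) = 1 - if ζ n then 1 else 0 := by
    intro n
    have e1 : ¬ (2 * n + 1) % 2 = 0 := by omega
    have e2 : (2 * n + 1) / 2 = n := by omega
    simp only [hξ, e1, e2, if_false]
  refine ⟨ξ, fun k => ?_, fun k => by rw [h0, h1]; ring, fun s hs hsJ v k => ?_⟩
  · simp only [hξ]
    split_ifs <;> simp
  obtain ⟨k₀, r, hr, hk⟩ : ∃ (k₀ : ℤ) (r : ℕ), r ≤ 1 ∧ k + r = 2 * k₀ := by
    rcases Int.even_or_odd' k with ⟨m, rfl | rfl⟩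
    · exact ⟨m, 0, by omega, by simp⟩
    · exact ⟨m + 1, 1, le_rfl, by push_cast; ring⟩
  have key : ∀ A : Finset ℕ, A ⊆ Finset.range (10 * w) → (∀ j ∈ A,
      ξ (2 * (k₀ + j) + s) - ξ (2 * (k₀ + j)) ≠ ξ (2 * (k₀ + j) + 1 + s) - ξ (2 * (k₀ + j) + 1)) →
      A.card ≤ ((Finset.range (20 * w + 1)).filter
        fun i : ℕ => ξ (k + i + s) - ξ (k + i) ≠ v).card := by
    intro A hA hA'
    refine Finset.card_le_card_of_surjOn (fun i => (i - r) / 2) fun j hj => ?_
    have h2 := Finset.mem_range.1 (hA hj)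
    have h3 := hA' j hj
    by_cases h4 : ξ (2 * (k₀ + j) + s) - ξ (2 * (k₀ + j)) = v
    · refine ⟨r + 2 * j + 1, Finset.mem_coe.2 (Finset.mem_filter.2
        ⟨Finset.mem_range.2 (by omega), ?_⟩), by simp only; omega⟩
      have e : k + ((r + 2 * j + 1 : ℕ) : ℤ) = 2 * (k₀ + j) + 1 := by push_cast; linarith
      rw [e, ← h4]
      exact h3.symm
    · refine ⟨r + 2 * j, Finset.mem_coe.2 (Finset.mem_filter.2
        ⟨Finset.mem_range.2 (by omega), ?_⟩), by simp only; omega⟩
      have e : k + ((r + 2 * j : ℕ) : ℤ) = 2 * (k₀ + j) := by push_cast; linarith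
      rw [e]
      exact h4
  rw [abs_le] at hsJ
  rcases Int.even_or_odd' s with ⟨s', rfl | rfl⟩
  · refine (hζ k₀ s' (by omega) (abs_le.2 (by omega))).1.trans
      (key _ (Finset.filter_subset _ _) fun j hj => ?_)
    have h2 := (Finset.mem_filter.1 hj).2
    have e1 : 2 * (k₀ + j) + 2 * s' = 2 * (k₀ + j + s') := by ring
    have e2 : 2 * (k₀ + j) + 1 + 2 * s' = 2 * (k₀ + j + s') + 1 := by ring
    rw [e1, e2, h0, h0, h1, h1]
    revert h2
    cases ζ (k₀ + j + s') <;> cases ζ (k₀ + j) <;> simp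
  · have h3 : w ≤ ((Finset.range (10 * w)).filter
        fun i : ℕ => ζ (k₀ + i + s') = ζ (k₀ + i)).card := by
      by_cases hs' : s' = 0
      · simp [hs']
        omega
      · exact (hζ k₀ s' hs' (abs_le.2 (by omega))).2
    refine h3.trans (key _ (Finset.filter_subset _ _) fun j hj => ?_)
    have h2 := (Finset.mem_filter.1 hj).2
    have e1 : 2 * (k₀ + j) + (2 * s' + 1) = 2 * (k₀ + j + s') + 1 := by ring
    have e2 : 2 * (k₀ + j) + 1 + (2 * s' + 1) = 2 * (k₀ + j + s' + 1) := by ring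
    rw [e1, e2, h0, h0, h1, h1, h2]
    cases ζ (k₀ + j + s' + 1) <;> cases ζ (k₀ + j) <;> simp

end Crest.Agent.R113
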