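import Mathlib

/-!
# Row 113: numerical parameters
See `R113/Plan.lean` for the whole proof of S0149 and `R113/Basic.lean` for the definitions.
-/

set_option autoImplicit false

open MeasureTheory Set Filter Topology
open scoped BigOperators

namespace Crest.Agent.R113

/-- `l i = 2^(i²)`, `w i = 200 i² + 20`, `D i = 8 l (16 i)`, `W = 20 w + 2`,
`e i = 10/W + 10 (i+1)/2^i + 2 W/2^i`. -/
theorem exists_params : ∃ (l w D : ℕ → ℕ) (e : ℕ → ℝ),
    (∀ i, 1 ≤ l i) ∧ (∀ i, 1 ≤ w i) ∧ (∀ i, 4 * (D i + 10 * w i + 1) ^ 2 < 8 ^ w i) ∧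
    (∀ i, 2 * l i ≤ l (i + 1)) ∧ (∀ i, 8 * l (16 * i) ≤ D i) ∧ (∀ i, 2 * (i + 1) ≤ 8 * l i) ∧
    (∀ i, 0 < e i) ∧ Summable e ∧
    (∀ i, (10 : ℝ) / ((20 * w i + 2 : ℕ) : ℝ) + 10 * ((i + 1 : ℕ) : ℝ) / ((8 * l i : ℕ) : ℝ) ≤ e i) ∧
    (∀ i, ((20 * w i + 2 : ℕ) : ℝ) * l i ≤ e i * l (i + 1)) ∧
    (∀ i, 8 * ((20 * w i + 2 : ℕ) : ℝ) * l i ≤ e i ^ 2 * l (i + 1)) := by
  have hl : ∀ i : ℕ, 2 ^ ((i + 1) ^ 2) = 2 ^ (i ^ 2) * (2 * (2 ^ i) ^ 2) := by
    intro i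
    rw [← pow_mul, ← pow_succ', ← pow_add]
    congr 1
    ring
  have hi : ∀ i : ℕ, 2 ^ i ≤ 2 ^ (i ^ 2) := fun i =>
    Nat.pow_le_pow_right (by norm_num) (by nlinarith [Nat.zero_le i])
  have h1 : ∀ i : ℕ, 1 ≤ 2 ^ i := fun i => Nat.one_le_two_pow
  refine ⟨fun i => 2 ^ (i ^ 2), fun i => 200 * i ^ 2 + 20, fun i => 8 * 2 ^ ((16 * i) ^ 2),
    fun i => 10 / ((i : ℝ) + 1) ^ 2 + 10 * ((i : ℝ) + 1) / 2 ^ i +
      2 * (4000 * (i : ℝ) ^ 2 + 402) / 2 ^ i, fun i => h1 _, fun i => by beta_reduce; omega, fun i => ?_,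
    fun i => ?_, fun i => le_rfl, fun i => ?_, fun i => by positivity, ?_, fun i => ?_,
    fun i => ?_, fun i => ?_⟩
  all_goals beta_reduce
  · have e1 : (16 * i) ^ 2 = 256 * i ^ 2 := by ring
    have e2 : 256 * i ^ 2 < 2 ^ (256 * i ^ 2) := Nat.lt_two_pow_self
    have e3 : (2 ^ (256 * i ^ 2)) ^ 2 ≤ 8 ^ (200 * i ^ 2) := by
      rw [show (8 : ℕ) = 2 ^ 3 by norm_num, ← pow_mul, ← pow_mul]
      exact Nat.pow_le_pow_right (by norm_num) (by omega)
    have e4 := h1 (256 * i ^ 2)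
    rw [e1, pow_add]
    generalize 2 ^ (256 * i ^ 2) = a at *
    generalize 8 ^ (200 * i ^ 2) = b at *
    have e5 : 8 * a + 10 * (200 * i ^ 2 + 20) + 1 ≤ 512 * a := by omega
    have e6 : (8 * a + 10 * (200 * i ^ 2 + 20) + 1) ^ 2 ≤ (512 * a) ^ 2 :=
      Nat.pow_le_pow_left e5 2
    have e7 : 1 ≤ a ^ 2 := Nat.one_le_pow _ _ e4
    rw [mul_pow] at e6
    omega
  · rw [hl, mul_comm]
    exact Nat.mul_le_mul_left _ (by nlinarith [h1 i])
  · have := hi i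
    have := Nat.lt_two_pow_self (n := i)
    omega
  · have s0 : ∀ k : ℕ, Summable fun i : ℕ => (i : ℝ) ^ k * (1 / 2 : ℝ) ^ i := fun k =>
      summable_pow_mul_geometric_of_norm_lt_one k (by norm_num)
    have s1 : Summable fun i : ℕ => 1 / (((i + 1 : ℕ) : ℝ)) ^ 2 :=
      (summable_nat_add_iff (f := fun i : ℕ => 1 / ((i : ℕ) : ℝ) ^ 2) 1).2
        (Real.summable_one_div_nat_pow.2 (by norm_num))
    refine (((s1.mul_left 10).add (((s0 1).mul_left 10).add ((s0 0).mul_left 10))).add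
      (((s0 2).mul_left 8000).add ((s0 0).mul_left 804))).congr (fun i => ?_)
    push_cast
    rw [one_div_pow]
    ring
  · have a1 : (10 : ℝ) / ((20 * (200 * i ^ 2 + 20) + 2 : ℕ) : ℝ) ≤ 10 / ((i : ℝ) + 1) ^ 2 := by
      refine div_le_div_of_nonneg_left (by norm_num) (by positivity) ?_
      push_cast
      nlinarith [sq_nonneg ((i : ℝ) - 1)]
    have a2 : 10 * ((i + 1 : ℕ) : ℝ) / ((8 * 2 ^ (i ^ 2) : ℕ) : ℝ) ≤
        10 * ((i : ℝ) + 1) / 2 ^ i := by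
      rw [Nat.cast_add_one]
      refine div_le_div_of_nonneg_left (by positivity) (by positivity) ?_
      have : 2 ^ i ≤ 8 * 2 ^ (i ^ 2) := by have := hi i; omega
      exact_mod_cast this
    have a3 : (0 : ℝ) ≤ 2 * (4000 * (i : ℝ) ^ 2 + 402) / 2 ^ i := by positivity
    linarith
  · rw [hl]
    push_cast
    have a0 : (1 : ℝ) ≤ 2 ^ i := one_le_pow₀ (by norm_num)
    have a1 : (0 : ℝ) < 2 ^ (i ^ 2) := by positivity
    generalize (2 : ℝ) ^ (i ^ 2) = L at *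
    have a2 : (0 : ℝ) ≤ 10 / ((i : ℝ) + 1) ^ 2 + 10 * ((i : ℝ) + 1) / 2 ^ i := by positivity
    generalize 10 / ((i : ℝ) + 1) ^ 2 + 10 * ((i : ℝ) + 1) / 2 ^ i = u at *
    generalize (2 : ℝ) ^ i = b at *
    have a3 : 20 * (200 * (i : ℝ) ^ 2 + 20) + 2 = 4000 * (i : ℝ) ^ 2 + 402 := by ring
    rw [a3]
    have a4 : (1 : ℝ) ≤ 4000 * (i : ℝ) ^ 2 + 402 := by nlinarith [sq_nonneg (i : ℝ)]
    generalize 4000 * (i : ℝ) ^ 2 + 402 = W at *
    have a5 : (u + 2 * W / b) * (L * (2 * b ^ 2)) = u * (L * (2 * b ^ 2)) + W * L * (4 * b) := by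
      field_simp
      ring
    rw [a5]
    have a6 : 0 ≤ u * (L * (2 * b ^ 2)) := by positivity
    have a7 : 0 < W * L := by positivity
    nlinarith
  · rw [hl]
    push_cast
    have a0 : (0 : ℝ) < 2 ^ i := by positivity
    have a1 : (0 : ℝ) < 2 ^ (i ^ 2) := by positivity
    generalize (2 : ℝ) ^ (i ^ 2) = L at *
    have a2 : (0 : ℝ) ≤ 10 / ((i : ℝ) + 1) ^ 2 + 10 * ((i : ℝ) + 1) / 2 ^ i := by positivity
    generalize 10 / ((i : ℝ) + 1) ^ 2 + 10 * ((i : ℝ) + 1) / 2 ^ i = u at *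
    generalize (2 : ℝ) ^ i = b at *
    have a3 : 20 * (200 * (i : ℝ) ^ 2 + 20) + 2 = 4000 * (i : ℝ) ^ 2 + 402 := by ring
    rw [a3]
    have a4 : (1 : ℝ) ≤ 4000 * (i : ℝ) ^ 2 + 402 := by nlinarith [sq_nonneg (i : ℝ)]
    generalize 4000 * (i : ℝ) ^ 2 + 402 = W at *
    have a5 : (2 * W / b) ^ 2 * (L * (2 * b ^ 2)) = 8 * W * L * W := by
      field_simp
      ring
    have a6 : (2 * W / b) ^ 2 ≤ (u + 2 * W / b) ^ 2 :=
      pow_le_pow_left₀ (by positivity) (by linarith) 2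
    have a7 : 0 < 8 * W * L := by positivity
    calc 8 * W * L ≤ 8 * W * L * W := le_mul_of_one_le_right a7.le a4
      _ = _ := a5.symm
      _ ≤ _ := mul_le_mul_of_nonneg_right a6 (by positivity)

/-- costs: recursion on the partial sums -/
theorem exists_costs (A K B : ℕ → ℝ) (hK : ∀ i, 0 ≤ K i) :
    ∃ c : ℕ → ℝ, (∀ i, 2 ≤ c i) ∧ ∀ i, A i + K i * (B i + ∑ k ∈ Finset.range i, c k) ≤ c i := by
  have _ := hK
  let S : ℕ → ℝ := fun n => Nat.rec 0 (fun i s => s + max 2 (A i + K i * (B i + s))) n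
  let c : ℕ → ℝ := fun i => max 2 (A i + K i * (B i + S i))
  have hS : ∀ n, ∑ k ∈ Finset.range n, c k = S n := by
    intro n
    induction n with
    | zero => rfl
    | succ n ih => rw [Finset.sum_range_succ, ih]
  exact ⟨c, fun i => le_max_left _ _, fun i => by rw [hS]; exact le_max_right _ _⟩

/-- The weight: `F x = expNegInvGlue ‖x‖ * exp (-∑' k, c k * χ k x)`; the sum is locally finite
away from `0`, squeeze at `0`. -/
theorem continuous_weight {Z : Type*} [SeminormedAddCommGroup Z] (c : ℕ → ℝ) (hc : ∀ k, 0 ≤ c k)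
    (χ : ℕ → Z → ℝ) (hχ : ∀ k, Continuous (χ k)) (h0 : ∀ k x, 0 ≤ χ k x) (δ : ℕ → ℝ)
    (hδ : Tendsto δ atTop (𝓝 0)) (hs : ∀ k x, δ k ≤ ‖x‖ → χ k x = 0) :
    Continuous fun x => expNegInvGlue ‖x‖ * Real.exp (- ∑' k, c k * χ k x) := by
  rw [continuous_iff_continuousAt]
  intro x
  have hg : Continuous fun x : Z => expNegInvGlue ‖x‖ :=
    (expNegInvGlue.contDiff (n := 0)).continuous.comp continuous_norm
  rcases (norm_nonneg x).eq_or_lt with hx | hx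
  · have hz : expNegInvGlue ‖x‖ = 0 := expNegInvGlue.zero_of_nonpos hx.ge
    unfold ContinuousAt
    beta_reduce
    rw [hz, zero_mul]
    refine squeeze_zero (fun y => mul_nonneg (expNegInvGlue.nonneg _) (Real.exp_pos _).le)
      (fun y => mul_le_of_le_one_right (expNegInvGlue.nonneg _) ?_) (hz ▸ hg.tendsto x)
    rw [Real.exp_le_one_iff, neg_nonpos]
    exact tsum_nonneg (fun k => mul_nonneg (hc k) (h0 k y))
  · obtain ⟨N, hN⟩ := eventually_atTop.1 (hδ.eventually (gt_mem_nhds (half_pos hx)))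
    have hev : ∀ᶠ y in 𝓝 x, ‖x‖ / 2 < ‖y‖ :=
      continuous_norm.continuousAt.eventually (lt_mem_nhds (half_lt_self hx))
    have hc' : Continuous fun y =>
        expNegInvGlue ‖y‖ * Real.exp (- ∑ k ∈ Finset.range N, c k * χ k y) :=
      hg.mul (Real.continuous_exp.comp
        (continuous_finsetSum _ (fun k _ => continuous_const.mul (hχ k))).neg)
    refine hc'.continuousAt.congr ?_
    filter_upwards [hev] with y hy
    rw [tsum_eq_sum (s := Finset.range N)]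
    intro k hk
    rw [hs k y ((hN k (by simpa using hk)).le.trans hy.le), mul_zero]

end Crest.Agent.R113
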