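import Crest.Agent.R113.Level
import Crest.Agent.R113.Clock
import Crest.Agent.R113.Code
import Crest.Agent.R113.Params

/-!
# Row 113: construction of the weight and of the system of stages
See `R113/Plan.lean` for the whole proof of S0149 and `R113/Basic.lean` for the definitions.
-/

set_option autoImplicit false

open MeasureTheory Set Filter Topology
open scoped BigOperators

namespace Crest.Agent.R113

theorem build_iUnion_le (S : ℕ → Set X) (a : ℝ) (ha : 0 ≤ a)
    (hS : ∀ k, μX.real (S k) ≤ a / 2 / 2 ^ k) : μX.real (⋃ k, S k) ≤ a := by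
  have h1 : μX (⋃ k, S k) ≤ ENNReal.ofReal a := by
    refine (measure_iUnion_le S).trans ?_
    have h2 : ∑' k, μX (S k) ≤ ∑' k : ℕ, ENNReal.ofReal (a / 2 / 2 ^ k) :=
      ENNReal.tsum_le_tsum fun k => by
        rw [← ofReal_measureReal (μ := μX) (s := S k)]
        exact ENNReal.ofReal_le_ofReal (hS k)
    rw [← ENNReal.ofReal_tsum_of_nonneg (fun k => by positivity) (summable_geometric_two' a),
      tsum_geometric_two'] at h2
    exact h2
  exact ENNReal.toReal_le_of_le_ofReal ha h1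

theorem build_glue {r : ℝ} (hr : 0 < r) : expNegInvGlue r = Real.exp (-r⁻¹) := by
  simp [expNegInvGlue, not_le.2 hr]

/-- Parameters from `exists_params`, `ℓ i = 8 l i`, `W i = 20 w i + 2`, `Rr = i + 1`, arcs `δ` from
`exists_slow_arcs`, `B i = 4 W ℓ / e²`, costs `c` from `exists_costs` (`A = ℓ²/e²`, `K = Wℓ/e²`),
`Λ i = B i + ∑_{k<i} c k`, `ε i = min (1/(5ℓ)) (e² / (Wℓ exp (2c(W+4))))`, levels from
`exists_level` (`exists_code`, `clock_clk`).  `F x = expNegInvGlue ‖x‖ * exp (-∑' c k χ k x)`,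
`low i x = min ‖x‖⁻¹ (B i) + ∑_{k<i} c k χ k x`,
`Bad i = {‖x‖ < 1/B i} ∪ ⋃_{k>i} (Θ k ∪ R k)` of measure `≤ 2/B + ∑_{k>i} 2/ℓ k ≤ 2/B + 4/ℓ(i+1)`.
For `x ≠ 0` the series has finite support and `expNegInvGlue ‖x‖ = exp (-‖x‖⁻¹)`; `F 0 = 0` and
`0 ∈ Bad i`. -/
theorem exists_system {α : X} (hα : addOrderOf α = 0) :
    ∃ F : X → ℝ, Continuous F ∧ (∀ x, 0 ≤ F x ∧ F x ≤ 1) ∧ (∀ x, F x = 0 ↔ x = 0) ∧
      (∀ x, F x ≤ expNegInvGlue ‖x‖) ∧ Nonempty (Tower α F) := by
  obtain ⟨l, w, D, e, hl, hw, hcode, hl2, hD, hR, he, hsum, he1, he2, he3⟩ := exists_params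
  obtain ⟨δ, hδ, hret⟩ := exists_slow_arcs hα
  set ℓ : ℕ → ℕ := fun i => 8 * l i with hℓ
  set W : ℕ → ℕ := fun i => 20 * w i + 2 with hW
  have hℓ8 : ∀ i, 8 ≤ ℓ i := fun i => by have := hl i; simp only [hℓ]; omega
  have hW4 : ∀ i, 4 ≤ W i := fun i => by have := hw i; simp only [hW]; omega
  have hℓp : ∀ i, (0 : ℝ) < ℓ i := fun i => by
    have := hℓ8 i
    exact_mod_cast (by omega : 0 < ℓ i)
  have hWp : ∀ i, (0 : ℝ) < W i := fun i => by
    have := hW4 i
    exact_mod_cast (by omega : 0 < W i)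
  set B : ℕ → ℝ := fun i => 4 * (W i * ℓ i) / e i ^ 2 with hB
  have hBp : ∀ i, 0 < B i := fun i => by
    have := hℓp i
    have := hWp i
    have := he i
    simp only [hB]
    positivity
  obtain ⟨c, hc2, hc⟩ := exists_costs (fun i => (ℓ i : ℝ) ^ 2 / e i ^ 2)
    (fun i => (W i * ℓ i : ℝ) / e i ^ 2) B (fun i => by positivity)
  have hc0 : ∀ i, 0 ≤ c i := fun i => by linarith [hc2 i]
  set ε : ℕ → ℝ := fun i =>
    min (1 / (5 * ℓ i)) (e i ^ 2 / (W i * ℓ i * Real.exp (2 * c i * (W i + 4)))) with hε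
  have hεp : ∀ i, 0 < ε i := fun i => by
    have := hℓp i
    have := hWp i
    have := he i
    exact lt_min (by positivity) (by positivity)
  have hLex : ∀ i, Nonempty (Level α (ℓ i) (W i) (D i) (e i) (ε i) (δ i)) := by
    intro i
    obtain ⟨ξ, h01, hbal, hsep⟩ := exists_code (D i) (w i) (hcode i)
    exact exists_level hα (clock_clk (hl i) (hw i) h01 hbal hsep) (hℓ8 i)
      (by have := hW4 i; omega) (Nat.succ_le_succ (Nat.zero_le i)) (hR i) (hret i) (he1 i) (hεp i)
  let L : ∀ i, Level α (ℓ i) (W i) (D i) (e i) (ε i) (δ i) := fun i => (hLex i).some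
  set F : X → ℝ := fun x => expNegInvGlue ‖x‖ * Real.exp (- ∑' k, c k * (L k).χ x) with hF
  have hFc : Continuous F := continuous_weight c hc0 (fun k => (L k).χ) (fun k => (L k).χ_cont)
    (fun k => (L k).χ_nonneg) δ hδ (fun k => (L k).χ_supp)
  have hnn : ∀ k x, 0 ≤ c k * (L k).χ x := fun k x => mul_nonneg (hc0 k) ((L k).χ_nonneg x)
  have hF0 : ∀ x, 0 ≤ F x := fun x => mul_nonneg (expNegInvGlue.nonneg _) (Real.exp_pos _).le
  have hFle : ∀ x, F x ≤ expNegInvGlue ‖x‖ := fun x =>
    mul_le_of_le_one_right (expNegInvGlue.nonneg _)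
      (Real.exp_le_one_iff.2 (neg_nonpos.2 (tsum_nonneg fun k => hnn k x)))
  have hFz : F 0 = 0 := by simp [hF, expNegInvGlue]
  have hsm : ∀ x : X, x ≠ 0 → Summable fun k => c k * (L k).χ x := by
    intro x hx
    obtain ⟨n, hn⟩ := eventually_atTop.1 (hδ.eventually (gt_mem_nhds (norm_pos_iff.2 hx)))
    refine summable_of_ne_finset_zero (s := Finset.range n) fun k hk => ?_
    rw [(L k).χ_supp x (hn k (by simpa using hk)).le, mul_zero]
  have hFx : ∀ x : X, x ≠ 0 → F x = Real.exp (-‖x‖⁻¹ - ∑' k, c k * (L k).χ x) := by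
    intro x hx
    simp only [hF]
    rw [build_glue (norm_pos_iff.2 hx), ← Real.exp_add, sub_eq_add_neg]
  have hFn : ∀ (n : ℕ) (b : ℝ) (x : X),
      F x ≤ Real.exp (-min ‖x‖⁻¹ b - ∑ k ∈ Finset.range n, c k * (L k).χ x) := by
    intro n b x
    by_cases hx : x = 0
    · rw [hx, hFz]
      exact (Real.exp_pos _).le
    · rw [hFx x hx, Real.exp_le_exp]
      have h1 := (hsm x hx).sum_le_tsum (Finset.range n) fun k _ => hnn k x
      have h2 := min_le_left ‖x‖⁻¹ b
      linarith
  have hcut : ∀ k, μX.real ((L k).Θ ∪ (L k).R) ≤ 2 / ℓ k := fun k =>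
    (L k).cut_small (by have := hℓ8 k; omega) (min_le_left _ _)
  have hlpow : ∀ i k, 2 ^ k * l i ≤ l (i + k) := by
    intro i k
    induction k with
    | zero => simp
    | succ k ih =>
      have := hl2 (i + k)
      rw [pow_succ, ← add_assoc]
      nlinarith
  have hlmono : StrictMono l := strictMono_nat_of_lt_succ fun i => by
    have := hl2 i
    have := hl i
    omega
  let Bad : ℕ → Set X := fun i =>
    {x | ‖x‖ < 1 / B i} ∪ ⋃ k, ((L (i + 1 + k)).Θ ∪ (L (i + 1 + k)).R)
  have hBad : ∀ i, (W i * ℓ i : ℝ) * μX.real (Bad i) ≤ e i ^ 2 := by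
    intro i
    have h1 : μX.real {x : X | ‖x‖ < 1 / B i} ≤ 2 * (1 / B i) :=
      real_norm_lt_le (by have := hBp i; positivity)
    have h2 : μX.real (⋃ k, ((L (i + 1 + k)).Θ ∪ (L (i + 1 + k)).R)) ≤ 4 / ℓ (i + 1) := by
      refine build_iUnion_le _ _ (by positivity) fun k => (hcut _).trans ?_
      have h3 : (2 : ℝ) ^ k * ℓ (i + 1) ≤ ℓ (i + 1 + k) := by
        have := hlpow (i + 1) k
        have h4 : 2 ^ k * ℓ (i + 1) ≤ ℓ (i + 1 + k) := by
          simp only [hℓ]
          nlinarith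
        exact_mod_cast h4
      have := hℓp (i + 1)
      calc (2 : ℝ) / ℓ (i + 1 + k) ≤ 2 / (2 ^ k * ℓ (i + 1)) :=
            div_le_div_of_nonneg_left (by norm_num) (by positivity) h3
        _ = 4 / ℓ (i + 1) / 2 / 2 ^ k := by field_simp; norm_num
    have h3 : μX.real (Bad i) ≤ 2 * (1 / B i) + 4 / ℓ (i + 1) :=
      (measureReal_union_le _ _).trans (add_le_add h1 h2)
    have hp1 := hℓp i
    have hp2 := hWp i
    have hp3 := he i
    have hp4 := hℓp (i + 1)
    have h4 : (W i * ℓ i : ℝ) * (2 * (1 / B i)) = e i ^ 2 / 2 := by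
      simp only [hB]
      field_simp
      norm_num
    have h5 : (W i * ℓ i : ℝ) * (4 / ℓ (i + 1)) ≤ e i ^ 2 / 2 := by
      rw [← mul_div_assoc, div_le_iff₀ hp4]
      have h6 := he3 i
      have h7 : (ℓ i : ℝ) = 8 * l i := by simp [hℓ]
      have h8 : (ℓ (i + 1) : ℝ) = 8 * l (i + 1) := by simp [hℓ]
      have h9 : (W i : ℝ) = ((20 * w i + 2 : ℕ) : ℝ) := rfl
      rw [h7, h8, h9]
      linarith
    calc (W i * ℓ i : ℝ) * μX.real (Bad i)
        ≤ (W i * ℓ i : ℝ) * (2 * (1 / B i) + 4 / ℓ (i + 1)) :=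
          mul_le_mul_of_nonneg_left h3 (by positivity)
      _ ≤ e i ^ 2 := by rw [mul_add, h4]; linarith
  let st : ℕ → Stage α F := fun i =>
    { ℓ := ℓ i
      W := W i
      D := D i
      e := e i
      c := c i
      Λ := B i + ∑ k ∈ Finset.range i, c k
      ψ := (L i).ψ
      low := fun x => min ‖x‖⁻¹ (B i) + ∑ k ∈ Finset.range i, c k * (L k).χ x
      Θ := (L i).Θ
      R := (L i).R
      G := (L i).G
      Bad := Bad i
      ℓ_ge := hℓ8 i
      W_ge := hW4 i
      e_pos := he i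
      c_ge := hc2 i
      Λ_nonneg := add_nonneg (hBp i).le (Finset.sum_nonneg fun k _ => hc0 k)
      ψ_meas := (L i).ψ_meas
      low_meas := (measurable_norm.inv.min measurable_const).add
        (Finset.measurable_sum _ fun k _ => (L k).χ_cont.measurable.const_mul _)
      Θ_meas := (L i).Θ_meas
      R_meas := (L i).R_meas
      G_meas := (L i).G_meas
      Bad_meas := (measurableSet_lt measurable_norm measurable_const).union
        (MeasurableSet.iUnion fun k => (L _).Θ_meas.union (L _).R_meas)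
      ψ_bdd := (L i).ψ_bdd
      low_nonneg := fun x => add_nonneg (le_min (by positivity) (hBp i).le)
        (Finset.sum_nonneg fun k _ => hnn k x)
      low_le := fun x => add_le_add (min_le_right _ _)
        (Finset.sum_le_sum fun k _ => mul_le_of_le_one_right (hc0 k) ((L k).χ_le_one x))
      step := (L i).step
      cut_small := hcut i
      R_tiny := by
        have hp1 := hℓp i
        have hp2 := hWp i
        have h1 : μX.real (L i).R ≤ e i ^ 2 / (W i * ℓ i * Real.exp (2 * c i * (W i + 4))) :=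
          (L i).R_small.trans (min_le_right _ _)
        rw [le_div_iff₀ (by positivity)] at h1
        linarith
      Bad_small := hBad i
      avg_le := (L i).avg_le
      G_big := (L i).G_big
      sep := (L i).sep
      c_big := by
        have h1 := hc i
        have hp3 := he i
        have h2 := mul_le_mul_of_nonneg_left h1 (sq_nonneg (e i))
        refine le_trans (le_of_eq ?_) h2
        field_simp
      F_nonneg := hF0
      F_le_low := fun x => by
        refine (hFn i (B i) x).trans (le_of_eq ?_)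
        congr 1
        ring
      F_le := fun x hx => by
        refine (hFn (i + 1) (B i) x).trans (le_of_eq ?_)
        rw [Finset.sum_range_succ, (L i).χ_eq x hx]
        congr 1
        ring
      F_eq := fun x hx hx' => by
        have h1 : 1 / B i ≤ ‖x‖ := not_lt.1 fun h => hx' (Or.inl h)
        have hp := hBp i
        have h2 : 0 < ‖x‖ := lt_of_lt_of_le (by positivity) h1
        have h3 : ‖x‖⁻¹ ≤ B i := by
          rw [one_div] at h1
          exact inv_le_of_inv_le₀ hp h1
        have h4 : ∑' k, c k * (L k).χ x = ∑ k ∈ Finset.range (i + 1), c k * (L k).χ x := by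
          refine tsum_eq_sum fun k hk => ?_
          obtain ⟨j, rfl⟩ : ∃ j, k = i + 1 + j :=
            Nat.exists_eq_add_of_le (by simpa using hk)
          have h5 : x ∉ (L (i + 1 + j)).Θ ∪ (L (i + 1 + j)).R := fun h =>
            hx' (Or.inr (mem_iUnion.2 ⟨j, h⟩))
          rw [(L _).χ_eq x fun h => h5 (Or.inr h),
            indicator_of_notMem fun h => h5 (Or.inl h), mul_zero]
        rw [hFx x (norm_pos_iff.1 h2), h4, Finset.sum_range_succ, (L i).χ_eq x hx,
          min_eq_left h3]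
        congr 1
        ring }
  refine ⟨F, hFc, fun x => ⟨hF0 x, ?_⟩, fun x => ⟨fun h => ?_, fun h => h ▸ hFz⟩, hFle,
    ⟨{ st := st
       F_meas := hFc.measurable
       e_summable := hsum
       ℓ_mono := fun i j hij => ?_
       D_ge := hD
       sparse := fun j k hjk => ?_
       c_le := fun i j hij => ?_ }⟩⟩
  · refine (hFn 0 0 x).trans (Real.exp_le_one_iff.2 ?_)
    have : 0 ≤ min ‖x‖⁻¹ (0 : ℝ) := le_min (by positivity) le_rfl
    simp only [Finset.range_zero, Finset.sum_empty, sub_zero]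
    linarith
  · by_contra hx
    rw [hFx x hx] at h
    exact (Real.exp_pos _).ne' h
  · have := hlmono hij
    show 8 * l i < 8 * l j
    omega
  · show (W j * ℓ j : ℝ) ≤ e j * ℓ k
    have h6 := he2 j
    have h7 : (ℓ j : ℝ) = 8 * l j := by simp [hℓ]
    have h8 : (ℓ k : ℝ) = 8 * l k := by simp [hℓ]
    have h9 : (W j : ℝ) = ((20 * w j + 2 : ℕ) : ℝ) := rfl
    have h10 : (l (j + 1) : ℝ) ≤ l k := by exact_mod_cast hlmono.monotone hjk
    have h11 := mul_le_mul_of_nonneg_left h10 (he j).le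
    rw [h7, h8, h9]
    linarith
  · show c i ≤ B j + ∑ k ∈ Finset.range j, c k
    have h1 := Finset.single_le_sum (f := c) (fun k _ => hc0 k) (Finset.mem_range.2 hij)
    linarith [hBp j]

end Crest.Agent.R113
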