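import Crest.Agent.R113.Basic

/-!
# Row 113: mean ergodic theorem and slowly varying functions
See `R113/Plan.lean` for the whole proof of S0149 and `R113/Basic.lean` for the definitions.
-/

set_option autoImplicit false

open MeasureTheory Set Filter Topology
open scoped BigOperators

namespace Crest.Agent.R113

/-- a bounded measurable function as an element of `L²` -/
noncomputable def ergL {g : X → ℝ} (hg : BM g) : Lp ℝ 2 μX := (hg.memLp 2).toLp g

theorem ergL_congr {g h : X → ℝ} (hg : BM g) (hh : BM h) (e : g = h) : ergL hg = ergL hh := by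
  subst e; rfl

theorem ergL_ae {g : X → ℝ} (hg : BM g) : ergL hg =ᵐ[μX] g := MemLp.coeFn_toLp _

theorem ergL_integral_abs_le {g : X → ℝ} (hg : BM g) : ∫ x, |g x| ∂μX ≤ ‖ergL hg‖ := by
  have h1 := hg.abs.integral_mul_le (BM.const 1)
  have h2 : ‖ergL hg‖ ^ 2 = ∫ x, g x ^ 2 ∂μX := by
    rw [← real_inner_self_eq_norm_sq, L2.inner_def]
    refine integral_congr_ae ?_
    filter_upwards [ergL_ae hg] with x hx
    rw [hx, real_inner_self_eq_norm_sq, Real.norm_eq_abs, sq_abs]
  simp only [mul_one, sq_abs, one_pow, integral_const, probReal_univ, smul_eq_mul,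
    Real.sqrt_one] at h1
  rw [← h2, Real.sqrt_sq (norm_nonneg _)] at h1
  exact (le_abs_self _).trans h1

theorem ergL_sum {Z : X → ℝ} (hZ : BM Z) (α : X) (n : ℕ) :
    ∑ k ∈ Finset.range n, ergL (hZ.shift (k • α)) =
      ergL (BM.sum (Finset.range n) fun k _ => hZ.shift (k • α)) := by
  induction n with
  | zero =>
    rw [Finset.sum_range_zero, ergL_congr _ BM.zero (by funext x; simp)]
    exact (MemLp.toLp_zero _).symm
  | succ n ih =>
    rw [Finset.sum_range_succ, ih, ergL_congr (BM.sum (Finset.range (n + 1)) fun k _ =>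
      hZ.shift (k • α)) ((BM.sum (Finset.range n) fun k _ => hZ.shift (k • α)).add
        (hZ.shift (n • α))) (by funext x; simp [Finset.sum_range_succ])]
    exact (MemLp.toLp_add _ _).symm

theorem integral_avg {α : X} {g : X → ℝ} (hg : BM g) {m : ℕ} (hm : 1 ≤ m) :
    ∫ x, avg α m g x ∂μX = ∫ x, g x ∂μX := by
  have hm' : (m : ℝ) ≠ 0 := by exact_mod_cast (by omega : m ≠ 0)
  unfold avg
  rw [integral_div, integral_finsetSum _ fun k _ => (hg.shift _).integrable]
  simp only [integral_shift, Finset.sum_const, Finset.card_range, nsmul_eq_mul]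
  field_simp

theorem erg_integral_abs_le_cut {Cs : Set X} (hCs : MeasurableSet Cs) {g : X → ℝ} (hg : BM g)
    {a b : ℝ} (ha : 0 ≤ a) (h1 : ∀ x, x ∉ Cs → |g x| ≤ a) (h2 : ∀ x, |g x| ≤ b) :
    ∫ x, |g x| ∂μX ≤ a + b * μX.real Cs := by
  have h3 : ∀ x, |g x| ≤ a + b * Cs.indicator 1 x := by
    intro x
    by_cases hx : x ∈ Cs
    · rw [indicator_of_mem hx]; have := h2 x; simp only [Pi.one_apply]; linarith
    · rw [indicator_of_notMem hx]; have := h1 x hx; linarith
  refine (integral_mono hg.abs.integrable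
    ((BM.const a).add' ((BM.ind_one hCs).const_mul b)).integrable h3).trans (le_of_eq ?_)
  rw [integral_add (BM.const a).integrable ((BM.ind_one hCs).const_mul b).integrable,
    integral_const_mul, integral_indicator_one hCs]
  simp

/-- Mean ergodic theorem for the irrational rotation, in `L¹`.  Proof e.g.: von Neumann's theorem
`ContinuousLinearMap.tendsto_birkhoffAverage_orthogonalProjection` for the Koopman isometry on
`Lp ℝ 2 μX` + ergodicity (`AddCircle.ergodic_add_right`, `μX = volume` for `T = 1`), or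
approximate `Z` in `L²` by trigonometric polynomials. -/
theorem erg {α : X} (hα : addOrderOf α = 0) {Z : X → ℝ} (hZ : BM Z) (h0 : ∫ x, Z x ∂μX = 0)
    {β : ℝ} (hβ : 0 < β) : ∃ m : ℕ, 1 ≤ m ∧ ∫ x, |avg α m Z x| ∂μX ≤ β := by
  have hvol : (volume : Measure X) = μX := by
    rw [AddCircle.volume_eq_smul_haarAddCircle]; simp
  have herg : Ergodic (fun x : X => x + α) μX := by
    rw [← hvol]; exact AddCircle.ergodic_add_right.2 hα
  set U : Lp ℝ 2 μX →L[ℝ] Lp ℝ 2 μX :=
    (Lp.compMeasurePreservingₗᵢ ℝ (fun x : X => x + α)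
      herg.toMeasurePreserving).toContinuousLinearMap with hU
  have hUn : ‖U‖ ≤ 1 := LinearIsometry.norm_toContinuousLinearMap_le _
  have hUg : ∀ {g : X → ℝ} (hg : BM g), U (ergL hg) = ergL (hg.shift α) := fun hg => rfl
  have hit : ∀ k : ℕ, U^[k] (ergL hZ) = ergL (hZ.shift (k • α)) := by
    intro k
    induction k with
    | zero => exact ergL_congr _ _ (by funext x; simp)
    | succ k ih =>
      rw [Function.iterate_succ_apply', ih, hUg]
      refine ergL_congr _ _ ?_
      funext x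
      rw [succ_nsmul', add_assoc]
  have hav : ∀ n : ℕ, birkhoffAverage ℝ U id n (ergL hZ) = ergL (hZ.avg α n) := by
    intro n
    rw [birkhoffAverage, birkhoffSum]
    simp only [id, hit]
    rw [ergL_sum hZ]
    refine Lp.ext ?_
    filter_upwards [Lp.coeFn_smul ((n : ℝ)⁻¹)
      (ergL (BM.sum (Finset.range n) fun k _ => hZ.shift (k • α))),
      ergL_ae (BM.sum (Finset.range n) fun k _ => hZ.shift (k • α)), ergL_ae (hZ.avg α n)]
      with x h1 h2 h3
    rw [h1, h3, Pi.smul_apply, h2, avg, smul_eq_mul, div_eq_inv_mul]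
  have hT := U.tendsto_birkhoffAverage_orthogonalProjection hUn (ergL hZ)
  have hP : (U.eqLocus (1 : Lp ℝ 2 μX →L[ℝ] Lp ℝ 2 μX)).orthogonalProjectionOnto (ergL hZ) = 0 := by
    rw [Submodule.orthogonalProjectionOnto_eq_zero_iff, Submodule.mem_orthogonal]
    intro u hu
    have hu' : U u = u := hu
    have h1 : (u : X → ℝ) ∘ (fun x : X => x + α) =ᵐ[μX] u := by
      have := Lp.coeFn_compMeasurePreserving u herg.toMeasurePreserving
      refine this.symm.trans ?_
      have e : Lp.compMeasurePreserving (fun x : X => x + α) herg.toMeasurePreserving u = u := hu'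
      rw [e]
    obtain ⟨c, hc⟩ := herg.ae_eq_const_of_ae_eq_comp_ae (Lp.aestronglyMeasurable u) h1
    rw [L2.inner_def]
    have : ∫ x, inner ℝ (u x) (ergL hZ x) ∂μX = ∫ x, c * Z x ∂μX := by
      refine integral_congr_ae ?_
      filter_upwards [hc, ergL_ae hZ] with x h2 h3
      rw [h2, h3]
      simp [mul_comm]
    rw [this, integral_const_mul, h0, mul_zero]
  rw [hP] at hT
  simp only [hav, ZeroMemClass.coe_zero] at hT
  have h2 := (tendsto_zero_iff_norm_tendsto_zero.1 hT).eventually (ge_mem_nhds hβ)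
  obtain ⟨m, h3, h4⟩ := (h2.and (eventually_ge_atTop 1)).exists
  exact ⟨m, h4, (ergL_integral_abs_le _).trans h3⟩

/-- `∫ |ζ(x + kα) - ζ x| ≤ k s` (telescoping). -/
theorem integral_abs_shift_le {α : X} {ζ : X → ℝ} (hζ : BM ζ) {s : ℝ}
    (hs : ∫ x, |ζ (x + α) - ζ x| ∂μX ≤ s) (k : ℕ) :
    ∫ x, |ζ (x + k • α) - ζ x| ∂μX ≤ k * s := by
  induction k with
  | zero => simp
  | succ k ih =>
    have h1 : ∀ x, |ζ (x + (k + 1) • α) - ζ x| ≤
        |ζ (x + k • α + α) - ζ (x + k • α)| + |ζ (x + k • α) - ζ x| := by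
      intro x
      rw [succ_nsmul, ← add_assoc]
      exact abs_sub_le _ _ _
    have b1 : BM fun x => |ζ (x + k • α + α) - ζ (x + k • α)| :=
      (((hζ.shift α).sub' hζ).abs).shift (k • α)
    have b2 : BM fun x => |ζ (x + k • α) - ζ x| := ((hζ.shift _).sub' hζ).abs
    refine (integral_mono ((hζ.shift _).sub' hζ).abs.integrable (b1.add' b2).integrable h1).trans ?_
    rw [integral_add b1.integrable b2.integrable,
      integral_shift (fun x => |ζ (x + α) - ζ x|) (k • α)]
    push_cast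
    linarith

/-- A slowly varying function is almost orthogonal to a function with small Birkhoff average:
`∫ Z ζ = ∫ Z(x+kα) ζ(x+kα) = ∫ Z(x+kα) ζ(x) + O(A k s)`; average over `k < m`. -/
theorem slow {α : X} {Z ζ : X → ℝ} (hZ : BM Z) (hζ : BM ζ) {A C s β : ℝ}
    (hA : ∀ x, |Z x| ≤ A) (hC : ∀ x, |ζ x| ≤ C)
    (hs : ∫ x, |ζ (x + α) - ζ x| ∂μX ≤ s) {m : ℕ} (hm : 1 ≤ m)
    (hβ : ∫ x, |avg α m Z x| ∂μX ≤ β) :
    |∫ x, Z x * ζ x ∂μX| ≤ C * β + A * m * s := by
  have hm' : (0 : ℝ) < m := by exact_mod_cast hm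
  have hA0 : 0 ≤ A := (abs_nonneg _).trans (hA 0)
  have hC0 : 0 ≤ C := (abs_nonneg _).trans (hC 0)
  have hs0 : 0 ≤ s := (integral_nonneg fun x => abs_nonneg _).trans hs
  have h1 : ∀ k ∈ Finset.range m,
      |∫ x, Z x * ζ x ∂μX - ∫ x, Z (x + k • α) * ζ x ∂μX| ≤ A * m * s := by
    intro k hk
    have hk' : (k : ℝ) ≤ m := by exact_mod_cast (Finset.mem_range.1 hk).le
    rw [← integral_shift (fun x => Z x * ζ x) (k • α), ← integral_sub
      ((hZ.mul' hζ).shift _).integrable ((hZ.shift _).mul' hζ).integrable]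
    refine abs_integral_le_integral_abs.trans ?_
    have b2 : BM fun x => |ζ (x + k • α) - ζ x| := ((hζ.shift _).sub' hζ).abs
    refine (integral_mono (((hZ.mul' hζ).shift _).sub' ((hZ.shift _).mul' hζ)).abs.integrable
      (b2.const_mul A).integrable fun x => ?_).trans ?_
    · simp only
      rw [← mul_sub, abs_mul]
      exact mul_le_mul_of_nonneg_right (hA _) (abs_nonneg _)
    · rw [integral_const_mul, mul_assoc]
      exact mul_le_mul_of_nonneg_left ((integral_abs_shift_le hζ hs k).trans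
        (mul_le_mul_of_nonneg_right hk' hs0)) hA0
  have h2 : ∫ x, avg α m Z x * ζ x ∂μX =
      (∑ k ∈ Finset.range m, ∫ x, Z (x + k • α) * ζ x ∂μX) / m := by
    rw [← integral_finsetSum _ fun k _ => ((hZ.shift _).mul' hζ).integrable, ← integral_div]
    congr 1
    funext x
    rw [avg, ← Finset.sum_mul]
    ring
  have h3 : |∫ x, avg α m Z x * ζ x ∂μX| ≤ C * β := by
    refine abs_integral_le_integral_abs.trans ?_
    refine (integral_mono ((hZ.avg α m).mul' hζ).abs.integrable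
      ((hZ.avg α m).abs.const_mul C).integrable fun x => ?_).trans ?_
    · simp only
      rw [abs_mul, mul_comm]
      exact mul_le_mul_of_nonneg_right (hC _) (abs_nonneg _)
    · rw [integral_const_mul]
      exact mul_le_mul_of_nonneg_left hβ hC0
  have h4 : |∫ x, Z x * ζ x ∂μX - ∫ x, avg α m Z x * ζ x ∂μX| ≤ A * m * s := by
    have e : ∫ x, Z x * ζ x ∂μX - ∫ x, avg α m Z x * ζ x ∂μX =
        (∑ k ∈ Finset.range m, (∫ x, Z x * ζ x ∂μX - ∫ x, Z (x + k • α) * ζ x ∂μX)) / m := by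
      rw [h2, Finset.sum_sub_distrib, Finset.sum_const, Finset.card_range, nsmul_eq_mul]
      field_simp
    rw [e, abs_div, abs_of_pos hm', div_le_iff₀ hm']
    refine (Finset.abs_sum_le_sum_abs _ _).trans ((Finset.sum_le_sum h1).trans (le_of_eq ?_))
    rw [Finset.sum_const, Finset.card_range, nsmul_eq_mul]
    ring
  have h5 := abs_add_le (∫ x, Z x * ζ x ∂μX - ∫ x, avg α m Z x * ζ x ∂μX)
    (∫ x, avg α m Z x * ζ x ∂μX)
  rw [sub_add_cancel] at h5
  linarith

/-- off the cut set the increment is `1/ℓ`, on it at most `4`. -/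
theorem Stage.ψ_slow {α : X} {F : X → ℝ} (s : Stage α F) :
    ∫ x, |s.ψ (x + α) - s.ψ x| ∂μX ≤ 9 / s.ℓ := by
  have hℓ := s.ℓ_pos
  have h1 := erg_integral_abs_le_cut s.cut_meas ((s.ψ_bm.shift α).sub' s.ψ_bm) (a := 1 / s.ℓ)
    (b := 4) (by positivity) (fun x hx => by
      rw [s.step_cut hx, sub_sub_cancel_left, abs_neg, abs_of_nonneg (by positivity)])
    (fun x => (abs_sub _ _).trans (by linarith [s.ψ_bdd (x + α), s.ψ_bdd x]))
  have h2 : μX.real s.cut ≤ 2 / s.ℓ := s.cut_small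
  have e : (9 : ℝ) / s.ℓ = 1 / s.ℓ + 4 * (2 / s.ℓ) := by ring
  rw [e]
  linarith

theorem Adm.slow {α : X} {Cs : Set X} (hCs : MeasurableSet Cs) {C : ℝ} {κ : X → ℝ}
    (h : Adm α Cs C κ) : ∫ x, |κ (x + α) - κ x| ∂μX ≤ 2 * C * μX.real Cs := by
  have h1 := erg_integral_abs_le_cut hCs ((h.bm.shift α).sub' h.bm) (a := 0)
    (b := 2 * C) le_rfl (fun x hx => by rw [h.inv x hx]; simp)
    (fun x => (abs_sub _ _).trans (by linarith [h.bdd (x + α), h.bdd x]))
  simpa using h1

/-- `∫ ψ = ∫ avg ψ`. -/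
theorem Stage.abs_integral_ψ_le {α : X} {F : X → ℝ} (s : Stage α F) :
    |∫ x, s.ψ x ∂μX| ≤ s.e := by
  have h1 : 1 ≤ s.W * s.ℓ := by
    have := s.W_ge
    have := s.ℓ_ge
    exact Nat.mul_pos (by omega) (by omega)
  rw [← integral_avg (α := α) s.ψ_bm h1]
  exact abs_integral_le_integral_abs.trans s.avg_le

/-- At high levels the untilted diagonal `P 0 - t` is almost orthogonal to the clock hand and to
admissible multipliers (`erg` with `β/4`, then `slow` and `ℓ_i → ∞`). -/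
theorem Tower.slow {α : X} (hα : addOrderOf α = 0) {F : X → ℝ} (S : Tower α F) {t : ℝ}
    (T : TiltSys α F t) {β : ℝ} (hβ : 0 < β) :
    ∃ i₀ : ℕ, ∀ i, i₀ ≤ i → |∫ x, (T.P 0 x - t) * (S.st i).ψ x ∂μX| ≤ β ∧
      ∀ (C : ℝ) (κ : X → ℝ), Adm α (S.st i).cut C κ →
        |∫ x, (T.P 0 x - t) * κ x ∂μX| ≤ β * C := by
  have hZ : BM fun x => T.P 0 x - t := (T.P_bm 0).sub' (BM.const t)
  have h0 : ∫ x, (T.P 0 x - t) ∂μX = 0 := by
    rw [integral_sub (T.P_bm 0).integrable (BM.const t).integrable, T.P_int 0 BM.zero]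
    simp
  have hA : ∀ x, |T.P 0 x - t| ≤ 1 := fun x => abs_le.2
    ⟨by linarith [T.P_nonneg 0 x, T.t_mem.2], by linarith [T.P_le_one 0 x, T.t_mem.1]⟩
  obtain ⟨m, hm, hβ'⟩ := erg hα hZ h0 (β := β / 4) (by positivity)
  obtain ⟨i₀, hi₀⟩ := exists_nat_ge (18 * m / β)
  refine ⟨i₀, fun i hi => ?_⟩
  have hℓ := (S.st i).ℓ_pos
  have h1 : (i₀ : ℝ) ≤ (S.st i).ℓ := by exact_mod_cast hi.trans (S.ℓ_mono.id_le i)
  have h2 : 18 * (m : ℝ) ≤ β * (S.st i).ℓ := by
    rw [div_le_iff₀ hβ] at hi₀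
    nlinarith
  have h3 : (m : ℝ) * (9 / (S.st i).ℓ) ≤ β / 2 := by
    rw [← mul_div_assoc, div_le_iff₀ hℓ]
    linarith
  refine ⟨?_, fun C κ hκ => ?_⟩
  · have := R113.slow hZ (S.st i).ψ_bm hA (S.st i).ψ_bdd (S.st i).ψ_slow hm hβ'
    linarith
  · have hC : 0 ≤ C := (abs_nonneg _).trans (hκ.bdd 0)
    have h4 := R113.slow hZ hκ.bm hA hκ.bdd (hκ.slow (S.st i).cut_meas) hm hβ'
    have h5 : μX.real (S.st i).cut ≤ 2 / (S.st i).ℓ := (S.st i).cut_small
    have h6 : (m : ℝ) * μX.real (S.st i).cut ≤ β / 4 := by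
      have h7 : (m : ℝ) * μX.real (S.st i).cut ≤ m * (2 / (S.st i).ℓ) :=
        mul_le_mul_of_nonneg_left h5 (Nat.cast_nonneg _)
      have e : (m : ℝ) * (2 / (S.st i).ℓ) = 2 / 9 * (m * (9 / (S.st i).ℓ)) := by ring
      linarith
    have h8 := mul_le_mul_of_nonneg_left h6 hC
    have h9 := mul_nonneg hC hβ.le
    nlinarith

end Crest.Agent.R113
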