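import Crest.Agent.R113.Basic

/-!
# Row 113: segments
See `R113/Plan.lean` for the whole proof of S0149 and `R113/Basic.lean` for the definitions.
-/

set_option autoImplicit false

open MeasureTheory Set Filter Topology
open scoped BigOperators

namespace Crest.Agent.R113

/-- `x` and `x + nα` lie in the same segment -/
def same (α : X) (Cs : Set X) (n : ℕ) : Set X := {x | ∀ k < n, x + k • α ∉ Cs}

theorem measurableSet_same (α : X) {Cs : Set X} (hCs : MeasurableSet Cs) (n : ℕ) :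
    MeasurableSet (same α Cs n) := by
  have e : same α Cs n = {x | ∃ k ∈ Finset.range n, x + k • α ∈ Cs}ᶜ := by
    ext x; simp [same]
  rw [e]
  exact (measurableSet_meets _ _ hCs).compl

/-- a function with constant increments off `Cs`, along a segment -/
theorem same_sum {α : X} {Cs : Set X} {u v : X → ℝ} (h : ∀ x, x ∉ Cs → u (x + α) = u x + v x)
    {n : ℕ} {x : X} (hx : x ∈ same α Cs n) :
    u (x + n • α) = u x + ∑ k ∈ Finset.range n, v (x + k • α) := by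
  induction n with
  | zero => simp
  | succ n ih =>
    rw [Finset.sum_range_succ, succ_nsmul, ← add_assoc, h _ (hx n (Nat.lt_succ_self n)),
      ih fun k hk => hx k (Nat.lt_succ_of_lt hk), add_assoc]

/-- segments have at most `4ℓ + 1` points -/
theorem same_le {α : X} {Cs : Set X} {ψ : X → ℝ} (hψ : ∀ x, |ψ x| ≤ 2) {ℓ : ℕ} (hℓ : 0 < ℓ)
    (step : ∀ x, x ∉ Cs → ψ (x + α) = ψ x - 1 / ℓ) {n : ℕ} {x : X} (hx : x ∈ same α Cs n) :
    n ≤ 4 * ℓ := by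
  have h := same_sum (u := ψ) (v := fun _ => - (1 / ℓ : ℝ))
    (fun x hx => by rw [step x hx]; ring) hx
  simp only [Finset.sum_const, Finset.card_range, nsmul_eq_mul] at h
  have h1 := abs_le.mp (hψ x)
  have h2 := abs_le.mp (hψ (x + n • α))
  have hl : (0 : ℝ) < ℓ := by exact_mod_cast hℓ
  have h3 : (n : ℝ) / ℓ ≤ 4 := by
    have : (n : ℝ) * -(1 / ℓ) = - (n / ℓ) := by ring
    linarith
  rw [div_le_iff₀ hl] at h3
  exact_mod_cast h3

/-- indicator of `same` -/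
noncomputable def segI (α : X) (Cs : Set X) (n : ℕ) : X → ℝ := (same α Cs n).indicator 1

/-- sum over the earlier points of the segment -/
noncomputable def segBack (α : X) (Cs : Set X) (N : ℕ) (v : X → ℝ) (x : X) : ℝ :=
  ∑ k ∈ Finset.range N, segI α Cs (k + 1) (x - (k + 1) • α) * v (x - (k + 1) • α)

/-- sum over the later points of the segment -/
noncomputable def segFwd (α : X) (Cs : Set X) (N : ℕ) (v : X → ℝ) (x : X) : ℝ :=
  ∑ k ∈ Finset.range N, segI α Cs (k + 1) x * v (x + (k + 1) • α)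

section
variable {α : X} {Cs : Set X}

theorem segI_mem {n : ℕ} {x : X} (h : x ∈ same α Cs n) : segI α Cs n x = 1 := by
  simp [segI, h]

theorem segI_notMem {n : ℕ} {x : X} (h : x ∉ same α Cs n) : segI α Cs n x = 0 := by
  simp [segI, h]

theorem segI_nonneg (n : ℕ) (x : X) : 0 ≤ segI α Cs n x := by
  by_cases h : x ∈ same α Cs n
  · rw [segI_mem h]; exact zero_le_one
  · rw [segI_notMem h]

theorem segI_le_one (n : ℕ) (x : X) : segI α Cs n x ≤ 1 := by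
  by_cases h : x ∈ same α Cs n
  · rw [segI_mem h]
  · rw [segI_notMem h]; exact zero_le_one

theorem segI_congr {n n' : ℕ} {x x' : X} (h : x ∈ same α Cs n ↔ x' ∈ same α Cs n') :
    segI α Cs n x = segI α Cs n' x' := by
  by_cases h1 : x ∈ same α Cs n
  · rw [segI_mem h1, segI_mem (h.1 h1)]
  · rw [segI_notMem h1, segI_notMem (fun h2 => h1 (h.2 h2))]

theorem segI_zero (x : X) : segI α Cs 0 x = 1 := segI_mem (fun _ hk => absurd hk (by omega))

theorem segI_succ_end {n : ℕ} {x : X} (h : x + n • α ∉ Cs) :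
    segI α Cs (n + 1) x = segI α Cs n x :=
  segI_congr ⟨fun h1 k hk => h1 k (by omega), fun h1 k hk => by
    rcases Nat.lt_succ_iff_lt_or_eq.1 hk with hk | rfl
    exacts [h1 k hk, h]⟩

theorem segI_succ_start {n : ℕ} {x : X} (h : x ∉ Cs) :
    segI α Cs (n + 1) x = segI α Cs n (x + α) :=
  segI_congr ⟨fun h1 k hk => by
    have := h1 (k + 1) (by omega)
    rwa [succ_nsmul', ← add_assoc] at this, fun h1 k hk => by
    rcases k with _ | k
    · simpa using h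
    · rw [succ_nsmul', ← add_assoc]; exact h1 k (by omega)⟩

theorem segI_bm (hCs : MeasurableSet Cs) (n : ℕ) : BM (segI α Cs n) :=
  BM.ind_one (measurableSet_same α hCs n)

theorem segBack_bm (hCs : MeasurableSet Cs) (N : ℕ) {v : X → ℝ} (hv : BM v) :
    BM (segBack α Cs N v) :=
  BM.sum _ fun _ _ => ((segI_bm hCs _).shift_sub _).mul' (hv.shift_sub _)

theorem segFwd_bm (hCs : MeasurableSet Cs) (N : ℕ) {v : X → ℝ} (hv : BM v) :
    BM (segFwd α Cs N v) :=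
  BM.sum _ fun _ _ => (segI_bm hCs _).mul' (hv.shift _)

theorem segBack_step {N : ℕ} (hN : ∀ x, x ∉ same α Cs (N + 1)) (v : X → ℝ) {x : X} (hx : x ∉ Cs) :
    segBack α Cs N v (x + α) = segBack α Cs N v x + v x := by
  have e1 : ∀ k : ℕ, segI α Cs (k + 1) (x + α - (k + 1) • α) * v (x + α - (k + 1) • α) =
      segI α Cs k (x - k • α) * v (x - k • α) := by
    intro k
    have : x + α - (k + 1) • α = x - k • α := by rw [succ_nsmul]; abel
    rw [this, segI_succ_end (by rwa [sub_add_cancel])]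
  have e2 : segI α Cs N (x - N • α) = 0 := by
    rw [← segI_succ_end (by rwa [sub_add_cancel]), segI_notMem (hN _)]
  have e3 := Finset.sum_range_succ (fun k : ℕ => segI α Cs k (x - k • α) * v (x - k • α)) N
  rw [Finset.sum_range_succ', e2] at e3
  simp only [segBack, e1]
  simp only [zero_smul, sub_zero, segI_zero, one_mul, zero_mul, add_zero] at e3
  exact e3.symm

theorem segFwd_step {N : ℕ} (hN : ∀ x, x ∉ same α Cs (N + 1)) (v : X → ℝ) {x : X} (hx : x ∉ Cs) :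
    segFwd α Cs N v (x + α) = segFwd α Cs N v x - v (x + α) := by
  have e1 : ∀ k : ℕ, segI α Cs (k + 1) x * v (x + (k + 1) • α) =
      segI α Cs k (x + α) * v (x + α + k • α) := by
    intro k
    rw [segI_succ_start hx, succ_nsmul', add_assoc]
  have e2 : segI α Cs N (x + α) = 0 := by
    rw [← segI_succ_start hx, segI_notMem (hN _)]
  have e3 := Finset.sum_range_succ (fun k : ℕ => segI α Cs k (x + α) * v (x + α + k • α)) N
  rw [Finset.sum_range_succ', e2] at e3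
  simp only [zero_smul, add_zero, segI_zero, one_mul, zero_mul] at e3
  rw [segFwd, segFwd, eq_sub_iff_add_eq, e3]
  exact Finset.sum_congr rfl fun k _ => (e1 k).symm

theorem seg_dual (hCs : MeasurableSet Cs) (N : ℕ) {u v : X → ℝ} (hu : BM u) (hv : BM v) :
    ∫ x, u x * segFwd α Cs N v x ∂μX = ∫ x, segBack α Cs N u x * v x ∂μX := by
  simp only [segFwd, segBack, Finset.mul_sum, Finset.sum_mul]
  rw [integral_finsetSum _ fun k _ => (hu.mul' ((segI_bm hCs _).mul' (hv.shift _))).integrable,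
    integral_finsetSum _ fun k _ =>
      ((((segI_bm hCs _).shift_sub _).mul' (hu.shift_sub _)).mul' hv).integrable]
  refine Finset.sum_congr rfl fun k _ => ?_
  rw [← integral_shift_sub (fun x => u x * (segI α Cs (k + 1) x * v (x + (k + 1) • α)))
    ((k + 1) • α)]
  congr 1
  funext x
  rw [sub_add_cancel]; ring

theorem seg_count (c : ℕ → ℝ) (h1 : ∀ k, c k ≤ 1) {y : ℝ} (hy : 0 ≤ y)
    (h : ∀ k : ℕ, c k ≠ 0 → (k + 1 : ℝ) ≤ y) (N : ℕ) :
    ∑ k ∈ Finset.range N, c k ≤ N ∧ ∑ k ∈ Finset.range N, c k ≤ y := by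
  induction N with
  | zero => simpa using hy
  | succ N ih =>
    rw [Finset.sum_range_succ]
    have := h1 N
    push_cast
    refine ⟨by linarith [ih.1], ?_⟩
    by_cases h0 : c N = 0
    · rw [h0, add_zero]; exact ih.2
    · linarith [ih.1, h N h0]

theorem segBack_abs_le (N : ℕ) {v : X → ℝ} {Λ : ℝ} (hΛ : ∀ x, |v x| ≤ Λ) (x : X) :
    |segBack α Cs N v x| ≤ segBack α Cs N (fun _ => 1) x * Λ := by
  rw [segBack, segBack, Finset.sum_mul]
  refine (Finset.abs_sum_le_sum_abs _ _).trans (Finset.sum_le_sum fun k _ => ?_)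
  rw [abs_mul, abs_of_nonneg (segI_nonneg _ _), mul_one]
  exact mul_le_mul_of_nonneg_left (hΛ _) (segI_nonneg _ _)

theorem segFwd_abs_le (N : ℕ) {v : X → ℝ} {Λ : ℝ} (hΛ : ∀ x, |v x| ≤ Λ) (x : X) :
    |segFwd α Cs N v x| ≤ segFwd α Cs N (fun _ => 1) x * Λ := by
  rw [segFwd, segFwd, Finset.sum_mul]
  refine (Finset.abs_sum_le_sum_abs _ _).trans (Finset.sum_le_sum fun k _ => ?_)
  rw [abs_mul, abs_of_nonneg (segI_nonneg _ _), mul_one]
  exact mul_le_mul_of_nonneg_left (hΛ _) (segI_nonneg _ _)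

theorem segBack_one_nonneg (N : ℕ) (x : X) : 0 ≤ segBack α Cs N (fun _ => 1) x :=
  Finset.sum_nonneg fun _ _ => mul_nonneg (segI_nonneg _ _) zero_le_one

theorem segFwd_one_nonneg (N : ℕ) (x : X) : 0 ≤ segFwd α Cs N (fun _ => 1) x :=
  Finset.sum_nonneg fun _ _ => mul_nonneg (segI_nonneg _ _) zero_le_one

theorem seg_psi {ψ : X → ℝ} {ℓ : ℕ} (hℓ : 0 < ℓ)
    (step : ∀ x, x ∉ Cs → ψ (x + α) = ψ x - 1 / ℓ) {n : ℕ} {x : X} (hx : segI α Cs n x ≠ 0) :
    (n : ℝ) = ℓ * (ψ x - ψ (x + n • α)) := by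
  have hx' : x ∈ same α Cs n := by
    by_contra h; exact hx (segI_notMem h)
  have h := same_sum (u := ψ) (v := fun _ => - (1 / ℓ : ℝ))
    (fun x hx => by rw [step x hx]; ring) hx'
  simp only [Finset.sum_const, Finset.card_range, nsmul_eq_mul] at h
  have hl : (0 : ℝ) < ℓ := by exact_mod_cast hℓ
  rw [h]; field_simp; ring

theorem segBack_one_le {ψ : X → ℝ} (hψ : ∀ x, |ψ x| ≤ 2) {ℓ : ℕ} (hℓ : 0 < ℓ)
    (step : ∀ x, x ∉ Cs → ψ (x + α) = ψ x - 1 / ℓ) (N : ℕ) (x : X) :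
    segBack α Cs N (fun _ => 1) x ≤ ℓ * (2 - ψ x) := by
  have hl : (0 : ℝ) < ℓ := by exact_mod_cast hℓ
  refine (seg_count _ (fun k => by rw [mul_one]; exact segI_le_one _ _)
    (mul_nonneg hl.le (by linarith [(abs_le.1 (hψ x)).2])) (fun k hk => ?_) N).2
  have := seg_psi hℓ step (left_ne_zero_of_mul hk)
  rw [sub_add_cancel] at this
  push_cast at this
  rw [this]
  exact mul_le_mul_of_nonneg_left (by linarith [(abs_le.1 (hψ (x - (k + 1) • α))).2]) hl.le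

theorem segFwd_one_le {ψ : X → ℝ} (hψ : ∀ x, |ψ x| ≤ 2) {ℓ : ℕ} (hℓ : 0 < ℓ)
    (step : ∀ x, x ∉ Cs → ψ (x + α) = ψ x - 1 / ℓ) (N : ℕ) (x : X) :
    segFwd α Cs N (fun _ => 1) x ≤ ℓ * (ψ x + 2) := by
  have hl : (0 : ℝ) < ℓ := by exact_mod_cast hℓ
  refine (seg_count _ (fun k => by rw [mul_one]; exact segI_le_one _ _)
    (mul_nonneg hl.le (by linarith [(abs_le.1 (hψ x)).1])) (fun k hk => ?_) N).2
  have := seg_psi hℓ step (left_ne_zero_of_mul hk)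
  push_cast at this
  rw [this]
  exact mul_le_mul_of_nonneg_left (by linarith [(abs_le.1 (hψ (x + (k + 1) • α))).1]) hl.le

theorem seg_real_same (hCs : MeasurableSet Cs) (n : ℕ) :
    1 - n * μX.real Cs ≤ ∫ x, segI α Cs n x ∂μX := by
  have e : same α Cs n = {x | ∃ k ∈ Finset.range n, x + k • α ∈ Cs}ᶜ := by
    ext x; simp [same]
  have h1 := real_meets_le (Finset.range n) (fun k : ℕ => k • α) Cs
  rw [segI, integral_indicator_one (measurableSet_same α hCs n), e,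
    probReal_compl_eq_one_sub (measurableSet_meets _ _ hCs)]
  rw [Finset.card_range] at h1
  linarith

theorem seg_int_rem (hCs : MeasurableSet Cs) {ℓ : ℕ} (hℓ : 0 < ℓ) (hμ : μX.real Cs ≤ 2 / ℓ) :
    (ℓ : ℝ) / 8 ≤ ∫ x, segFwd α Cs (4 * ℓ) (fun _ => 1) x ∂μX + 1 := by
  have hl : (0 : ℝ) < ℓ := by exact_mod_cast hℓ
  simp only [segFwd, mul_one]
  rw [integral_finsetSum _ fun k _ => (segI_bm hCs _).integrable]
  have h1 : ∑ k ∈ Finset.range (ℓ / 4), ∫ x, segI α Cs (k + 1) x ∂μX ≤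
      ∑ k ∈ Finset.range (4 * ℓ), ∫ x, segI α Cs (k + 1) x ∂μX :=
    Finset.sum_le_sum_of_subset_of_nonneg (Finset.range_subset_range.2 (by omega))
      fun k _ _ => integral_nonneg fun x => segI_nonneg _ _
  have h2 : ∑ k ∈ Finset.range (ℓ / 4), (1 / 2 : ℝ) ≤
      ∑ k ∈ Finset.range (ℓ / 4), ∫ x, segI α Cs (k + 1) x ∂μX := by
    refine Finset.sum_le_sum fun k hk => le_trans ?_ (seg_real_same hCs (k + 1))
    have hk' : 4 * (k + 1) ≤ ℓ := by have := Finset.mem_range.1 hk; omega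
    have hk'' : 4 * ((k + 1 : ℕ) : ℝ) ≤ ℓ := by exact_mod_cast hk'
    have h3 : ((k + 1 : ℕ) : ℝ) * μX.real Cs ≤ ((k + 1 : ℕ) : ℝ) * (2 / ℓ) :=
      mul_le_mul_of_nonneg_left hμ (Nat.cast_nonneg _)
    have h4 : ((k + 1 : ℕ) : ℝ) * (2 / ℓ) ≤ 1 / 2 := by
      rw [← mul_div_assoc, div_le_iff₀ hl]; linarith
    linarith
  rw [Finset.sum_const, Finset.card_range, nsmul_eq_mul] at h2
  have h5 : ℓ ≤ 4 * (ℓ / 4) + 4 := by omega
  have h6 : (ℓ : ℝ) ≤ 4 * ((ℓ / 4 : ℕ) : ℝ) + 4 := by exact_mod_cast h5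
  linarith

theorem seg_adm {Z : X → ℝ} {ρ : ℝ}
    (hρ : ∀ ζ : X → ℝ, Adm α Cs 1 ζ → |∫ x, Z x * ζ x ∂μX| ≤ ρ) {C : ℝ} (hC : 0 < C)
    {ζ : X → ℝ} (h : Adm α Cs C ζ) : ∫ x, Z x * ζ x ∂μX ≤ C * ρ := by
  have h1 := hρ (fun x => ζ x / C) ⟨h.meas.div_const C, fun x => by
    rw [abs_div, abs_of_pos hC, div_le_one hC]; exact h.bdd x, fun x hx => by
    simp only [h.inv x hx]⟩
  simp only [← mul_div_assoc] at h1
  rw [integral_div] at h1
  have h2 := (le_abs_self _).trans h1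
  rwa [div_le_iff₀' hC] at h2

end

/-- Cumulative sum of `v` from the start of the segment:
`G x = ∑_{n ∈ Icc 1 (4ℓ)} 1_{same n}(x - nα) v (x - nα)`; the term `n = 4ℓ` vanishes when
`x ∉ Cs` by `same_le`. -/
theorem exists_cumul {α : X} {Cs : Set X} (hCs : MeasurableSet Cs) {ψ : X → ℝ}
    (hψ : ∀ x, |ψ x| ≤ 2) {ℓ : ℕ} (hℓ : 0 < ℓ)
    (step : ∀ x, x ∉ Cs → ψ (x + α) = ψ x - 1 / ℓ) {v : X → ℝ} (hv : Measurable v) {Λ : ℝ}
    (hΛ : ∀ x, |v x| ≤ Λ) :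
    ∃ G : X → ℝ, Measurable G ∧ (∀ x, |G x| ≤ 4 * ℓ * Λ) ∧
      ∀ x, x ∉ Cs → G (x + α) = G x + v x := by
  have hN : ∀ x, x ∉ same α Cs (4 * ℓ + 1) := fun x hx => by
    have := same_le hψ hℓ step hx; omega
  refine ⟨segBack α Cs (4 * ℓ) v, (segBack_bm hCs _ ⟨hv, Λ, hΛ⟩).meas, fun x => ?_,
    fun x hx => segBack_step hN v hx⟩
  refine (segBack_abs_le _ hΛ x).trans (mul_le_mul_of_nonneg_right ?_
    ((abs_nonneg _).trans (hΛ x)))
  have hl : (0 : ℝ) < ℓ := by exact_mod_cast hℓ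
  have := segBack_one_le hψ hℓ step (4 * ℓ) x
  nlinarith [(abs_le.1 (hψ x)).1]

/-- **Segment lemma.**  Let `Z = Q - t`, `S n = same α Cs n`, sums over `n ∈ Icc 1 (4ℓ)`,
`rem x = ∑ 1_{S n} x`, `pos x = ∑ 1_{S n}(x - nα)`, `len = pos + rem + 1 ≤ 4ℓ + 1` (`same_le`),
`Σ x = Z x + ∑ 1_{S n} x Z (x+nα) + ∑ 1_{S n}(x-nα) Z(x-nα)`.  For `x ∉ Cs`:
`pos (x+α) = pos x + 1`, `rem (x+α) = rem x - 1`, `Σ (x+α) = Σ x`.
* `∑_n ∫_{S n} (Z(x+nα) - Z x)² = ∫ len Z² - ∫ Z Σ ≥ m² ℓ/8 - 2(4ℓ+1) δ₁ - (4ℓ+1) ρ`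
  (`Z² ≥ m² - 2Q(1-Q)`, `∫ len ≥ ∑_{n ≤ ℓ/4} (1 - 2n/ℓ) ≥ ℓ/8`, `Σ/(4ℓ+1)` is admissible);
* `(b-a)² ≤ (b-a) + 2a(1-b)` on `[0,1]`, `∑_n ∫_{S n} (Z(x+nα) - Z x) = ∫ Z (pos - rem)
  = ∫ Z ζ - 2ℓ ∫ Z ψ ≤ 8ℓρ + 2ℓa` with `ζ = pos - rem + 2ℓψ`, `ζ/(8ℓ)` admissible. -/
theorem seg {α : X} {Q : X → ℝ} (hQ : Measurable Q) (hQ0 : ∀ x, 0 ≤ Q x) (hQ1 : ∀ x, Q x ≤ 1)
    {t : ℝ} (ht0 : 0 ≤ t) (ht1 : t ≤ 1) {Cs : Set X} (hCs : MeasurableSet Cs) {ψ : X → ℝ}
    (hψm : Measurable ψ) (hψ : ∀ x, |ψ x| ≤ 2) {ℓ : ℕ} (hℓ : 8 ≤ ℓ)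
    (step : ∀ x, x ∉ Cs → ψ (x + α) = ψ x - 1 / ℓ) (hμ : μX.real Cs ≤ 2 / ℓ)
    {ρ a δ₁ δ₂ : ℝ}
    (hρ : ∀ ζ : X → ℝ, Adm α Cs 1 ζ → |∫ x, (Q x - t) * ζ x ∂μX| ≤ ρ)
    (ha : - ∫ x, (Q x - t) * ψ x ∂μX ≤ a)
    (h1 : ∫ x, Q x * (1 - Q x) ∂μX ≤ δ₁)
    (h2 : ∀ n : ℕ, 1 ≤ n → n ≤ 4 * ℓ →
      ∫ x in same α Cs n, Q x * (1 - Q (x + n • α)) ∂μX ≤ δ₂) :
    min t (1 - t) ^ 2 / 8 ≤ 10 * δ₁ + 13 * ρ + 2 * a + 8 * δ₂ := by
  have hℓ0 : 0 < ℓ := by omega
  have hl : (8 : ℝ) ≤ ℓ := by exact_mod_cast hℓ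
  have hN : ∀ x, x ∉ same α Cs (4 * ℓ + 1) := fun x hx => by
    have := same_le hψ hℓ0 step hx; omega
  have hQb : BM Q := ⟨hQ, 1, fun x => abs_le.2 ⟨by linarith [hQ0 x], hQ1 x⟩⟩
  have hψb : BM ψ := ⟨hψm, 2, hψ⟩
  have hone : BM (fun _ : X => (1 : ℝ)) := BM.const 1
  obtain ⟨Z, hZ⟩ : ∃ Z : X → ℝ, ∀ x, Z x = Q x - t := ⟨_, fun _ => rfl⟩
  simp only [← hZ] at hρ ha
  have hZb : BM Z := by rw [show Z = fun x => Q x - t from funext hZ]; exact hQb.sub' (BM.const t)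
  have hZ1 : ∀ x, |Z x| ≤ 1 := fun x => by
    rw [hZ]; exact abs_le.2 ⟨by linarith [hQ0 x], by linarith [hQ1 x]⟩
  have hZ2 : BM (fun x => Z x ^ 2) := hZb.pow 2
  have hρ0 : 0 ≤ ρ := (abs_nonneg _).trans
    (hρ (fun _ => 0) ⟨measurable_const, fun _ => by simp, fun _ _ => rfl⟩)
  have hQQ : ∀ x, 0 ≤ Q x * (1 - Q x) := fun x => mul_nonneg (hQ0 x) (by linarith [hQ1 x])
  have hδ0 : 0 ≤ δ₁ := (integral_nonneg hQQ).trans h1
  set pos := segBack α Cs (4 * ℓ) (fun _ => 1) with hpos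
  set rem := segFwd α Cs (4 * ℓ) (fun _ => 1) with hrem
  have hposb : BM pos := segBack_bm hCs _ hone
  have hremb : BM rem := segFwd_bm hCs _ hone
  have hp0 : ∀ x, 0 ≤ pos x := segBack_one_nonneg _
  have hr0 : ∀ x, 0 ≤ rem x := segFwd_one_nonneg _
  have hp1 : ∀ x, pos x ≤ ℓ * (2 - ψ x) := segBack_one_le hψ hℓ0 step _
  have hr1 : ∀ x, rem x ≤ ℓ * (ψ x + 2) := segFwd_one_le hψ hℓ0 step _
  have hFZ : BM (segFwd α Cs (4 * ℓ) Z) := segFwd_bm hCs _ hZb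
  have hBZ : BM (segBack α Cs (4 * ℓ) Z) := segBack_bm hCs _ hZb
  have hFZ2 : BM (segFwd α Cs (4 * ℓ) fun x => Z x ^ 2) := segFwd_bm hCs _ hZ2
  -- dualities
  have d1 := seg_dual (α := α) hCs (4 * ℓ) hone hZ2
  have d2 := seg_dual (α := α) hCs (4 * ℓ) hZb hZb
  have d3 := seg_dual (α := α) hCs (4 * ℓ) hone hZb
  simp only [one_mul, ← hpos] at d1 d3
  -- (i)
  have i1 := seg_adm hρ (C := 4 * ℓ + 1) (by linarith)
    (ζ := fun x => Z x + segFwd α Cs (4 * ℓ) Z x + segBack α Cs (4 * ℓ) Z x)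
    ⟨((hZb.add' hFZ).add' hBZ).meas, fun x => by
      have a1 := abs_le.1 (segFwd_abs_le (α := α) (Cs := Cs) (4 * ℓ) hZ1 x)
      have a2 := abs_le.1 (segBack_abs_le (α := α) (Cs := Cs) (4 * ℓ) hZ1 x)
      have a3 := abs_le.1 (hZ1 x)
      rw [← hrem] at a1
      rw [← hpos] at a2
      have a4 := hp1 x
      have a5 := hr1 x
      exact abs_le.2 ⟨by linarith, by linarith⟩,
    fun x hx => by rw [segFwd_step hN Z hx, segBack_step hN Z hx]; ring⟩
  have i1' : ∫ x, Z x * (Z x + segFwd α Cs (4 * ℓ) Z x + segBack α Cs (4 * ℓ) Z x) ∂μX =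
      ∫ x, Z x ^ 2 ∂μX + ∫ x, Z x * segFwd α Cs (4 * ℓ) Z x ∂μX +
        ∫ x, segBack α Cs (4 * ℓ) Z x * Z x ∂μX := by
    rw [← integral_add hZ2.integrable (hZb.mul' hFZ).integrable,
      ← integral_add (hZ2.add' (hZb.mul' hFZ)).integrable (hBZ.mul' hZb).integrable]
    congr 1; funext x; ring
  -- (iii)
  have i3 := seg_adm hρ (C := 8 * ℓ) (by linarith)
    (ζ := fun x => pos x - rem x + 2 * ℓ * ψ x)
    ⟨((hposb.sub' hremb).add' (hψb.const_mul _)).meas, fun x => by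
      have a3 := abs_le.1 (hψ x)
      have a4 := hp1 x
      have a5 := hr1 x
      have a6 := hp0 x
      have a7 := hr0 x
      exact abs_le.2 ⟨by nlinarith, by nlinarith⟩,
    fun x hx => by
      rw [hpos, hrem, segFwd_step hN _ hx, segBack_step hN _ hx, step x hx]
      field_simp; ring⟩
  have i3' : ∫ x, Z x * (pos x - rem x + 2 * ℓ * ψ x) ∂μX =
      ∫ x, pos x * Z x ∂μX - ∫ x, Z x * rem x ∂μX + 2 * ℓ * ∫ x, Z x * ψ x ∂μX := by
    rw [← integral_const_mul, ← integral_sub (hposb.mul' hZb).integrable (hZb.mul' hremb).integrable,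
      ← integral_add ((hposb.mul' hZb).sub' (hZb.mul' hremb)).integrable
        ((hZb.mul' hψb).const_mul _).integrable]
    congr 1; funext x; ring
  -- (ii)
  have hQQb : BM (fun x => Q x * (1 - Q x)) := hQb.mul' (hone.sub' hQb)
  have hm0 : 0 ≤ min t (1 - t) := le_min ht0 (by linarith)
  have i2 : min t (1 - t) ^ 2 * (∫ x, rem x ∂μX + 1) - 2 * (4 * ℓ + 1) * ∫ x, Q x * (1 - Q x) ∂μX ≤
      ∫ x, pos x * Z x ^ 2 ∂μX + ∫ x, Z x ^ 2 * rem x ∂μX + ∫ x, Z x ^ 2 ∂μX := by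
    have e : ∫ x, rem x ∂μX + 1 = ∫ x, rem x + 1 ∂μX := by
      rw [integral_add hremb.integrable hone.integrable]; simp
    rw [e, ← integral_const_mul, ← integral_const_mul,
      ← integral_sub ((hremb.add' hone).const_mul _).integrable (hQQb.const_mul _).integrable,
      ← integral_add (hposb.mul' hZ2).integrable (hZ2.mul' hremb).integrable,
      ← integral_add ((hposb.mul' hZ2).add' (hZ2.mul' hremb)).integrable hZ2.integrable]
    refine integral_mono (((hremb.add' hone).const_mul _).sub' (hQQb.const_mul _)).integrable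
      (((hposb.mul' hZ2).add' (hZ2.mul' hremb)).add' hZ2).integrable fun x => ?_
    have a1 : min t (1 - t) ^ 2 ≤ t ^ 2 := pow_le_pow_left₀ hm0 (min_le_left _ _) 2
    have a2 : min t (1 - t) ^ 2 ≤ (1 - t) ^ 2 := pow_le_pow_left₀ hm0 (min_le_right _ _) 2
    have a3 : min t (1 - t) ^ 2 - 2 * (Q x * (1 - Q x)) ≤ Z x ^ 2 := by
      rw [hZ]
      nlinarith [hQQ x, mul_nonneg (hQ0 x) (sub_nonneg.2 a2),
        mul_nonneg (sub_nonneg.2 (hQ1 x)) (sub_nonneg.2 a1)]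
    have a4 : rem x + 1 ≤ 4 * ℓ + 1 := by linarith [hp1 x, hr1 x, hp0 x]
    have a5 := mul_le_mul_of_nonneg_right a3 (show 0 ≤ rem x + 1 by linarith [hr0 x])
    have a6 := mul_le_mul_of_nonneg_left a4 (hQQ x)
    have a7 := mul_nonneg (hp0 x) (sq_nonneg (Z x))
    simp only
    nlinarith
  have i2' := seg_int_rem (α := α) hCs hℓ0 hμ
  rw [← hrem] at i2'
  -- the main inequality
  have hT : ∀ k : ℕ, BM (fun x => segI α Cs (k + 1) x * (Q x * (1 - Q (x + (k + 1) • α)))) :=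
    fun k => (segI_bm hCs _).mul' (hQb.mul' (hone.sub' (hQb.shift _)))
  have i4 : ∫ x, segFwd α Cs (4 * ℓ) (fun x => Z x ^ 2) x ∂μX -
      2 * ∫ x, Z x * segFwd α Cs (4 * ℓ) Z x ∂μX + ∫ x, Z x ^ 2 * rem x ∂μX ≤
      ∫ x, segFwd α Cs (4 * ℓ) Z x ∂μX - ∫ x, Z x * rem x ∂μX + 2 * ∫ x, ∑ k ∈ Finset.range (4 * ℓ),
        segI α Cs (k + 1) x * (Q x * (1 - Q (x + (k + 1) • α))) ∂μX := by
    rw [← integral_const_mul, ← integral_const_mul,
      ← integral_sub hFZ2.integrable ((hZb.mul' hFZ).const_mul _).integrable,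
      ← integral_add (hFZ2.sub' ((hZb.mul' hFZ).const_mul _)).integrable (hZ2.mul' hremb).integrable,
      ← integral_sub hFZ.integrable (hZb.mul' hremb).integrable,
      ← integral_add (hFZ.sub' (hZb.mul' hremb)).integrable
        ((BM.sum _ fun k _ => hT k).const_mul _).integrable]
    refine integral_mono ((hFZ2.sub' ((hZb.mul' hFZ).const_mul _)).add' (hZ2.mul' hremb)).integrable
      ((hFZ.sub' (hZb.mul' hremb)).add' ((BM.sum _ fun k _ => hT k).const_mul _)).integrable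
      fun x => ?_
    simp only [hrem, segFwd, Finset.mul_sum, ← Finset.sum_sub_distrib, ← Finset.sum_add_distrib]
    refine Finset.sum_le_sum fun k _ => ?_
    have a1 := mul_nonneg (segI_nonneg (α := α) (Cs := Cs) (k + 1) x)
      (add_nonneg (hQQ x) (hQQ (x + (k + 1) • α)))
    rw [hZ, hZ]
    nlinarith
  have i5 : ∫ x, ∑ k ∈ Finset.range (4 * ℓ),
      segI α Cs (k + 1) x * (Q x * (1 - Q (x + (k + 1) • α))) ∂μX ≤ 4 * ℓ * δ₂ := by
    rw [integral_finsetSum _ fun k _ => (hT k).integrable]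
    refine (Finset.sum_le_card_nsmul _ _ δ₂ fun k hk => ?_).trans (by simp)
    refine le_trans (le_of_eq ?_) (h2 (k + 1) (by omega) (Finset.mem_range.1 hk))
    rw [← integral_indicator (measurableSet_same α hCs _)]
    congr 1; funext x
    by_cases hx : x ∈ same α Cs (k + 1)
    · rw [segI_mem hx, indicator_of_mem hx, one_mul]
    · rw [segI_notMem hx, indicator_of_notMem hx, zero_mul]
  have j1 := mul_le_mul_of_nonneg_left i2' (sq_nonneg (min t (1 - t)))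
  have j2 := mul_le_mul_of_nonneg_left h1 (show (0 : ℝ) ≤ 2 * (4 * ℓ + 1) by linarith)
  have j3 := mul_le_mul_of_nonneg_left ha (show (0 : ℝ) ≤ 2 * ℓ by linarith)
  have j4 := mul_le_mul_of_nonneg_right hl hρ0
  have j5 := mul_le_mul_of_nonneg_right hl hδ0
  refine le_of_mul_le_mul_left ?_ (show (0 : ℝ) < ℓ by linarith)
  rw [i1'] at i1
  rw [i3'] at i3
  nlinarith

end Crest.Agent.R113
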