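import Crest.Agent.R113.VI
import Crest.Agent.R113.Seg

/-!
# Row 113: finish, part 1 (choice of the tilt; off-diagonal mass inside segments; invariance error)
See `R113/Plan.lean` for the whole proof of S0149 and `R113/Basic.lean` for the definitions.
-/

set_option autoImplicit false

open MeasureTheory Set Filter Topology
open scoped BigOperators

namespace Crest.Agent.R113

variable {α : X} {F : X → ℝ} {t : ℝ}

/-- the tilt `g = -Γ ψ - G + κ` -/
noncomputable def Stage.tilt (s : Stage α F) (Γ : ℝ) (G κ : X → ℝ) : X → ℝ :=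
  fun x => - Γ * s.ψ x - G x + κ x

theorem Stage.tilt_bm (s : Stage α F) (Γ : ℝ) {G κ : X → ℝ} (hG : BM G) (hκ : BM κ) :
    BM (s.tilt Γ G κ) :=
  ((s.ψ_bm.const_mul _).sub' hG).add' hκ

/-- Pigeonhole over `Γ_k = Γ₀ + kℓ`, `k ≤ N = ⌊Γ₀/ℓ⌋₊`, `Γ₀ = e c` (`N ≥ ℓ/(2e)` by `c_big`).
`κ_k` from `T.exists_vi` for `g₀ = -Γ_k ψ - G` (`g₀ + κ = s.tilt Γ_k G κ`), `C = Γ₀`, `ε = e`.
With `Q_k = T.P (tilt Γ_k G κ_k)`, `u_k = -ℓψ + κ_{k+1} - κ_k` one has
`tilt_k + u_k = tilt_{k+1}` and `∫ (Q_k - Q_{k+1}) u_k ≤ ℓ (∫ Q_{k+1} ψ - ∫ Q_k ψ) + 2e`;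
sum over `k < N` (`|∫ Q ψ| ≤ 2`): some term is `≤ 4ℓ/N + 2e ≤ 10 e`. -/
theorem Stage.exists_good_tilt (T : TiltSys α F t) (s : Stage α F) (he : s.e ≤ 1)
    {G : X → ℝ} (hG : BM G) :
    ∃ (Γ : ℝ) (κ κ' : X → ℝ), s.e * s.c ≤ Γ ∧ Γ ≤ 2 * (s.e * s.c) ∧
      Adm α s.cut (s.e * s.c) κ ∧ Adm α s.cut (s.e * s.c) κ' ∧
      (∀ κ'' : X → ℝ, Adm α s.cut (s.e * s.c) κ'' →
        ∫ x, (T.P (s.tilt Γ G κ) x - t) * (κ'' x - κ x) ∂μX ≤ s.e) ∧
      ∫ x, (T.P (s.tilt Γ G κ) x
          - T.P (s.tilt Γ G κ + fun y => - s.ℓ * s.ψ y + κ' y - κ y) x)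
          * (- s.ℓ * s.ψ x + κ' x - κ x) ∂μX ≤ 10 * s.e := by
  have hℓ := s.ℓ_pos
  have he0 := s.e_pos
  have hc : 0 < s.c := by linarith [s.c_ge]
  have hΓ0 : 0 < s.e * s.c := mul_pos he0 hc
  have hℓ8 : (8 : ℝ) ≤ s.ℓ := by exact_mod_cast s.ℓ_ge
  have hbig : (s.ℓ : ℝ) ^ 2 ≤ s.e ^ 2 * s.c := by
    have h1 := s.c_big
    have h2 : (0 : ℝ) ≤ s.W * s.ℓ * s.Λ := by have := s.Λ_nonneg; positivity
    linarith
  set N : ℕ := ⌊s.e * s.c / s.ℓ⌋₊ with hN
  have hN1 : (N : ℝ) * s.ℓ ≤ s.e * s.c := by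
    rw [← le_div_iff₀ hℓ]
    exact Nat.floor_le (by positivity)
  have hN2 : s.e * s.c < (N + 1) * s.ℓ := by
    rw [← div_lt_iff₀ hℓ]
    exact Nat.lt_floor_add_one _
  have hN3 : (s.ℓ : ℝ) < s.e * (N + 1) := by
    refine lt_of_mul_lt_mul_right ?_ hℓ.le
    nlinarith
  have hN4 : (s.ℓ : ℝ) ≤ 2 * s.e * N := by nlinarith
  have hNpos : 0 < N := by
    rcases Nat.eq_zero_or_pos N with h | h
    · rw [h] at hN4
      simp only [Nat.cast_zero, mul_zero] at hN4
      linarith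
    · exact h
  have hex : ∀ k : ℕ, ∃ κ : X → ℝ, Adm α s.cut (s.e * s.c) κ ∧
      ∀ κ' : X → ℝ, Adm α s.cut (s.e * s.c) κ' →
        ∫ x, (T.P (s.tilt (s.e * s.c + k * s.ℓ) G κ) x - t) * (κ' x - κ x) ∂μX ≤ s.e := fun k =>
    T.exists_vi (g₀ := fun x => -(s.e * s.c + k * s.ℓ) * s.ψ x - G x)
      ((s.ψ_bm.const_mul _).sub' hG) s.cut hΓ0.le he0
  choose κ hκ hvi using hex
  let Q : ℕ → X → ℝ := fun k => T.P (s.tilt (s.e * s.c + k * s.ℓ) G (κ k))
  have hQ : ∀ k, BM (Q k) := fun k => T.P_bm _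
  let a : ℕ → ℝ := fun k => ∫ x, Q k x * s.ψ x ∂μX
  have ha : ∀ k, |a k| ≤ 2 := fun k => BM.abs_integral_le fun x => by
    rw [abs_mul, abs_of_nonneg (T.P_nonneg _ x)]
    have h1 := T.P_le_one (s.tilt (s.e * s.c + k * s.ℓ) G (κ k)) x
    have h2 := T.P_nonneg (s.tilt (s.e * s.c + k * s.ℓ) G (κ k)) x
    have h3 := s.ψ_bdd x
    have h4 := abs_nonneg (s.ψ x)
    nlinarith
  obtain ⟨k, hk, hk'⟩ := Finset.exists_le_of_sum_le (s := Finset.range N)
    (f := fun k => s.ℓ * (a (k + 1) - a k)) (g := fun _ => 8 * s.e)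
    ⟨0, Finset.mem_range.2 hNpos⟩ (by
      rw [← Finset.mul_sum, Finset.sum_range_sub, Finset.sum_const, Finset.card_range,
        nsmul_eq_mul]
      have h1 := abs_le.1 (ha N)
      have h2 := abs_le.1 (ha 0)
      nlinarith)
  have hkN : (k : ℝ) ≤ N := by exact_mod_cast (Finset.mem_range.1 hk).le
  refine ⟨s.e * s.c + k * s.ℓ, κ k, κ (k + 1), by
    have : (0 : ℝ) ≤ k * s.ℓ := by positivity
    linarith, by nlinarith, hκ k, hκ (k + 1), hvi k, ?_⟩
  have heq : (s.tilt (s.e * s.c + k * s.ℓ) G (κ k) +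
      fun y => - s.ℓ * s.ψ y + κ (k + 1) y - κ k y) =
      s.tilt (s.e * s.c + (k + 1 : ℕ) * s.ℓ) G (κ (k + 1)) := by
    funext y
    simp only [Stage.tilt, Pi.add_apply]
    push_cast
    ring
  rw [heq]
  have h1 := hvi k _ (hκ (k + 1))
  have h2 := hvi (k + 1) _ (hκ k)
  have hb1 : BM fun x => (Q k x - t) * (κ (k + 1) x - κ k x) :=
    ((hQ k).sub' (BM.const t)).mul' ((hκ (k + 1)).bm.sub' (hκ k).bm)
  have hb2 : BM fun x => (Q (k + 1) x - t) * (κ k x - κ (k + 1) x) :=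
    ((hQ (k + 1)).sub' (BM.const t)).mul' ((hκ k).bm.sub' (hκ (k + 1)).bm)
  have hb3 : ∀ j, BM fun x => Q j x * s.ψ x := fun j => (hQ j).mul' s.ψ_bm
  have h3 : ∫ x, (Q k x - Q (k + 1) x) * (- s.ℓ * s.ψ x + κ (k + 1) x - κ k x) ∂μX =
      s.ℓ * (a (k + 1) - a k) + ∫ x, (Q k x - t) * (κ (k + 1) x - κ k x) ∂μX +
        ∫ x, (Q (k + 1) x - t) * (κ k x - κ (k + 1) x) ∂μX := by
    simp only [a]
    rw [← integral_sub (hb3 _).integrable (hb3 _).integrable, ← integral_const_mul,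
      ← integral_add (((hb3 _).sub' (hb3 _)).const_mul _).integrable hb1.integrable,
      ← integral_add ((((hb3 _).sub' (hb3 _)).const_mul _).add' hb1).integrable hb2.integrable]
    congr 1
    funext x
    ring
  have h4 : s.ℓ * (a (k + 1) - a k) ≤ 8 * s.e := hk'
  exact h3.trans_le (by linarith)

/-- Short displacements.  `u (y + α) = u y + 1` off the cut.  `M = ⌊ηℓ⌋₊`,
`Near = {x | ∃ k ∈ Finset.Ico (-M : ℤ) M, x + k • α ∈ cut}` has measure `≤ 2M·2/ℓ ≤ 4η`
(`real_meets_le`, `cut_small`, `T.m_fst`); for `x ∉ Near`, `0 < |d| ≤ M`: `u (x+dα) - u x = d`,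
so `T.comm` with `w` the indicator of these `(x,d)` and `B = 1` bounds their mass by `4 I`. -/
theorem Stage.short_mass (T : TiltSys α F t) (s : Stage α F) {g u : X → ℝ} (hg : BM g)
    (hu : BM u) (hstep : ∀ x, x ∉ s.cut → u (x + α) = u x + 1) {I : ℝ}
    (hI : ∫ x, (T.P g x - T.P (g + u) x) * u x ∂μX ≤ I) {η : ℝ} (hη : 0 ≤ η) :
    (T.m g).real {z | z.2 ≠ 0 ∧ |(z.2 : ℝ)| ≤ η * s.ℓ} ≤ 4 * I + 4 * η := by
  have hℓ := s.ℓ_pos
  set M : ℕ := ⌊η * s.ℓ⌋₊ with hM
  have hM1 : (M : ℝ) ≤ η * s.ℓ := Nat.floor_le (by positivity)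
  let Near : Set X := {x | ∃ k ∈ Finset.Ico (-M : ℤ) M, x + k • α ∈ s.cut}
  have hNm : MeasurableSet Near := measurableSet_meets _ (fun k : ℤ => k • α) s.cut_meas
  have hNμ : μX.real Near ≤ 4 * η := by
    refine (real_meets_le _ (fun k : ℤ => k • α) s.cut).trans ?_
    have h1 : ((Finset.Ico (-M : ℤ) M).card : ℝ) = 2 * M := by
      rw [Int.card_Ico, show ((M : ℤ) - -M).toNat = 2 * M by omega]
      push_cast
      ring
    have h2 : μX.real s.cut ≤ 2 / s.ℓ := s.cut_small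
    rw [h1]
    calc 2 * (M : ℝ) * μX.real s.cut ≤ 2 * (η * s.ℓ) * (2 / s.ℓ) := by gcongr
      _ = 4 * η := by field_simp; ring
  let Z : Set (X × ℤ) := Nearᶜ ×ˢ {d : ℤ | d ≠ 0 ∧ |(d : ℝ)| ≤ η * s.ℓ}
  have hZm : MeasurableSet Z := hNm.compl.prod (MeasurableSet.of_discrete)
  have hZ : (T.m g).real Z ≤ 4 * I := by
    have h1 := T.comm g u hg hu (Z.indicator 1) 1 (measurable_one.indicator hZm)
      (fun z => by by_cases hz : z ∈ Z <;> simp [hz]) (fun z => by
        by_cases hz : z ∈ Z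
        · obtain ⟨x, d⟩ := z
          obtain ⟨hx, hd0, hd⟩ := hz
          have hx' : ∀ k : ℤ, -(M : ℤ) ≤ k → k < M → x + k • α ∉ s.cut := fun k h1 h2 h3 =>
            hx ⟨k, Finset.mem_Ico.2 ⟨h1, h2⟩, h3⟩
          have hdM : d.natAbs ≤ M := Nat.le_floor (by
            rw [← Int.cast_natCast, Int.natCast_natAbs, Int.cast_abs]; exact hd)
          have key : u (x + d • α) - u x = d := by
            rcases le_total 0 d with h | h
            · obtain ⟨n, rfl⟩ := Int.eq_ofNat_of_zero_le h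
              have h2 := same_sum (v := fun _ => (1 : ℝ)) hstep (n := n) (x := x) fun k hk => by
                have := hx' k (by omega) (by omega)
                rwa [natCast_zsmul] at this
              rw [natCast_zsmul, h2]
              simp
            · obtain ⟨n, rfl⟩ := Int.exists_eq_neg_ofNat h
              have h2 := same_sum (v := fun _ => (1 : ℝ)) hstep (n := n)
                (x := x + (-(n : ℤ)) • α) fun k hk => by
                  have := hx' (-(n : ℤ) + k) (by omega) (by omega)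
                  rwa [add_smul, natCast_zsmul, ← add_assoc] at this
              rw [show x + (-(n : ℤ)) • α + n • α = x by
                rw [neg_smul, natCast_zsmul, neg_add_cancel_right]] at h2
              rw [h2]
              simp
          rw [indicator_of_mem (show (x, d) ∈ Z from ⟨hx, hd0, hd⟩)]
          show |(1 : ℝ)| ≤ |u (x + d • α) - u x|
          rw [key, abs_one, ← Int.cast_abs]
          exact_mod_cast Int.one_le_abs hd0
        · rw [indicator_of_notMem hz, abs_zero]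
          exact abs_nonneg _)
    have h2 : (fun z => (Z.indicator (1 : X × ℤ → ℝ) z) ^ 2) = Z.indicator 1 := by
      funext z
      by_cases hz : z ∈ Z <;> simp [hz]
    rw [h2, integral_indicator_one hZm] at h1
    linarith
  have hsub : {z : X × ℤ | z.2 ≠ 0 ∧ |(z.2 : ℝ)| ≤ η * s.ℓ} ⊆ Z ∪ Near ×ˢ univ := fun z hz => by
    by_cases h : z.1 ∈ Near
    · exact Or.inr ⟨h, trivial⟩
    · exact Or.inl ⟨h, hz⟩
  have h3 := T.m_fst g hg Near hNm
  have h4 := (measureReal_mono (μ := T.m g) hsub).trans (measureReal_union_le _ _)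
  linarith

/-- The invariance error.  Let `w x = exp (Γ n/ℓ + g x - g (x+nα)) f_n x`; the exponent is
`≤ 8 e c + 12 e c ≤ c/2` (`n ≤ 4ℓ`).  If the window `x + kα, k < n` meets `R`:
`|w - 1_S| ≤ exp (c (W+4))` (`f_n ≤ 1`), total contribution `≤ e²` (`R_tiny`, `n ≤ Wℓ`).
If it avoids `R` and `x ∈ same n`: the exponent equals `∑_{k<n} low (x+kα)` (`same_sum`), so
`0 ≤ w ≤ 1` (`F_le_low`), `w = 1` off `Bad` windows (`F_eq`): contribution `≤ e²`.
If it avoids `R` and `x ∉ same n` it meets `Θ \ R`, `f_n ≤ exp (-c)` (`F_le`), so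
`w² ≤ exp (-c) ≤ 1/c ≤ e²` (`c_big`). -/
theorem Stage.inv_err (hF : Measurable F) (s : Stage α F) (he : s.e ≤ 1 / 40) {Γ : ℝ}
    (hΓ0 : 0 ≤ Γ) (hΓ : Γ ≤ 2 * (s.e * s.c)) {G κ : X → ℝ} (hGm : Measurable G)
    (hG : ∀ x, |G x| ≤ s.e * s.c) (hGs : ∀ x, x ∉ s.cut → G (x + α) = G x + s.low x)
    (hκ : Adm α s.cut (s.e * s.c) κ) {n : ℕ} (hn : n ≤ 4 * s.ℓ) :
    ∫ x, (Real.exp (Γ * n / s.ℓ + s.tilt Γ G κ x - s.tilt Γ G κ (x + n • α)) * fn α F n x
      - (same α s.cut n).indicator 1 x) ^ 2 ∂μX ≤ 4 * s.e ^ 2 := by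
  have hℓ := s.ℓ_pos
  have he0 := s.e_pos
  have hc : 0 < s.c := by linarith [s.c_ge]
  have hℓ8 : (8 : ℝ) ≤ s.ℓ := by exact_mod_cast s.ℓ_ge
  have hW : (4 : ℝ) ≤ s.W := by exact_mod_cast s.W_ge
  have hbig : 1 ≤ s.e ^ 2 * s.c := by
    have h1 := s.c_big
    have h2 : (0 : ℝ) ≤ s.W * s.ℓ * s.Λ := by have := s.Λ_nonneg; positivity
    nlinarith
  have hn' : (n : ℝ) ≤ 4 * s.ℓ := by exact_mod_cast hn
  have hnW : (n : ℝ) ≤ s.W * s.ℓ := by nlinarith
  have hF1 : ∀ x, F x ≤ 1 := fun x =>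
    (s.F_le_low x).trans (Real.exp_le_one_iff.2 (by linarith [s.low_nonneg x]))
  have hf0 : ∀ x, 0 ≤ fn α F n x := fun x => Finset.prod_nonneg fun k _ => s.F_nonneg _
  have hf1 : ∀ x, fn α F n x ≤ 1 := fun x =>
    Finset.prod_le_one (fun k _ => s.F_nonneg _) fun k _ => hF1 _
  have hg : ∀ x, |s.tilt Γ G κ x| ≤ 6 * (s.e * s.c) := fun x => by
    have h1 := abs_le.1 (s.ψ_bdd x)
    have h2 := abs_le.1 (hG x)
    have h3 := abs_le.1 (hκ.bdd x)
    rw [abs_le]
    simp only [Stage.tilt]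
    constructor <;> nlinarith
  have hE : ∀ x, Γ * n / s.ℓ + s.tilt Γ G κ x - s.tilt Γ G κ (x + n • α) ≤ s.c / 2 := fun x => by
    have h1 := abs_le.1 (hg x)
    have h2 := abs_le.1 (hg (x + n • α))
    have h3 : Γ * n / s.ℓ ≤ 4 * Γ := by
      rw [div_le_iff₀ hℓ]
      nlinarith
    nlinarith
  let A : Set X := {x | ∃ k ∈ Finset.range n, x + k • α ∈ s.R}
  let B : Set X := {x | ∃ k ∈ Finset.range n, x + k • α ∈ s.Bad}
  have hAm : MeasurableSet A := measurableSet_meets _ (fun k : ℕ => k • α) s.R_meas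
  have hBm : MeasurableSet B := measurableSet_meets _ (fun k : ℕ => k • α) s.Bad_meas
  set K := Real.exp (2 * s.c * (s.W + 4)) with hK
  have hK0 : 0 < K := Real.exp_pos _
  have hpt : ∀ x, (Real.exp (Γ * n / s.ℓ + s.tilt Γ G κ x - s.tilt Γ G κ (x + n • α)) * fn α F n x
      - (same α s.cut n).indicator 1 x) ^ 2 ≤
      K * A.indicator 1 x + B.indicator 1 x + s.e ^ 2 := by
    intro x
    set w := Real.exp (Γ * n / s.ℓ + s.tilt Γ G κ x - s.tilt Γ G κ (x + n • α)) * fn α F n x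
      with hw
    have hw0 : 0 ≤ w := mul_nonneg (Real.exp_pos _).le (hf0 x)
    have hA0 : 0 ≤ K * A.indicator (1 : X → ℝ) x :=
      mul_nonneg hK0.le (indicator_nonneg (fun _ _ => zero_le_one) x)
    have hB0 : 0 ≤ B.indicator (1 : X → ℝ) x := indicator_nonneg (fun _ _ => zero_le_one) x
    have he2 : 0 ≤ s.e ^ 2 := sq_nonneg _
    by_cases hS : x ∈ same α s.cut n
    · rw [indicator_of_mem hS, Pi.one_apply]
      have h1 := same_sum (u := s.ψ) (v := fun _ => -(1 / s.ℓ : ℝ))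
        (fun y hy => by rw [s.step_cut hy]; ring) hS
      have h2 := same_sum hGs hS
      have h3 := same_sum (u := κ) (v := fun _ => 0) (fun y hy => by rw [hκ.inv y hy, add_zero]) hS
      have h4 : Γ * n / s.ℓ + s.tilt Γ G κ x - s.tilt Γ G κ (x + n • α) =
          ∑ k ∈ Finset.range n, s.low (x + k • α) := by
        simp only [Stage.tilt, h1, h2, h3, Finset.sum_const, Finset.card_range, nsmul_eq_mul]
        ring
      have h5 : w = ∏ k ∈ Finset.range n, (Real.exp (s.low (x + k • α)) * F (x + k • α)) := by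
        rw [hw, h4, Real.exp_sum, fn, Finset.prod_mul_distrib]
      by_cases hB : x ∈ B
      · have h6 : w ≤ 1 := by
          rw [h5]
          refine Finset.prod_le_one (fun k _ => mul_nonneg (Real.exp_pos _).le (s.F_nonneg _))
            fun k _ => ?_
          calc _ ≤ Real.exp (s.low (x + k • α)) * Real.exp (-s.low (x + k • α)) :=
                mul_le_mul_of_nonneg_left (s.F_le_low _) (Real.exp_pos _).le
            _ = 1 := by rw [← Real.exp_add, add_neg_cancel, Real.exp_zero]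
        rw [indicator_of_mem hB, Pi.one_apply]
        nlinarith
      · have h6 : w = 1 := by
          rw [h5]
          refine Finset.prod_eq_one fun k hk => ?_
          have h7 := hS k (Finset.mem_range.1 hk)
          rw [s.F_eq _ (fun h => h7 (Or.inr h)) (fun h => hB ⟨k, hk, h⟩),
            indicator_of_notMem (fun h => h7 (Or.inl h)), ← Real.exp_add]
          simp
        rw [h6, sub_self]
        nlinarith
    · rw [indicator_of_notMem hS, sub_zero]
      by_cases hA : x ∈ A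
      · rw [indicator_of_mem hA, Pi.one_apply, mul_one]
        have h1 : w ≤ Real.exp (s.c / 2) :=
          (mul_le_of_le_one_right (Real.exp_pos _).le (hf1 x)).trans (Real.exp_le_exp.2 (hE x))
        have h2 : w ^ 2 ≤ K := by
          calc w ^ 2 ≤ Real.exp (s.c / 2) ^ 2 := by gcongr
            _ = Real.exp s.c := by rw [sq, ← Real.exp_add, add_halves]
            _ ≤ K := Real.exp_le_exp.2 (by nlinarith)
        linarith
      · obtain ⟨k, hk, hkc⟩ : ∃ k < n, x + k • α ∈ s.cut := by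
          by_contra h
          exact hS fun k hk hkc => h ⟨k, hk, hkc⟩
        have hk' := Finset.mem_range.2 hk
        have hR : x + k • α ∉ s.R := fun h => hA ⟨k, hk', h⟩
        have hΘ : x + k • α ∈ s.Θ := hkc.resolve_right hR
        have h1 : F (x + k • α) ≤ Real.exp (-s.c) := by
          refine (s.F_le _ hR).trans (Real.exp_le_exp.2 ?_)
          rw [indicator_of_mem hΘ, Pi.one_apply]
          linarith [s.low_nonneg (x + k • α)]
        have h2 : fn α F n x ≤ Real.exp (-s.c) := by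
          rw [fn, ← Finset.mul_prod_erase _ _ hk']
          exact (mul_le_of_le_one_right (s.F_nonneg _)
            (Finset.prod_le_one (fun k _ => s.F_nonneg _) fun k _ => hF1 _)).trans h1
        have h3 : w ≤ Real.exp (s.c / 2) * Real.exp (-s.c) :=
          mul_le_mul (Real.exp_le_exp.2 (hE x)) h2 (hf0 x) (Real.exp_pos _).le
        have h4 : w ^ 2 ≤ Real.exp (-s.c) := by
          calc w ^ 2 ≤ (Real.exp (s.c / 2) * Real.exp (-s.c)) ^ 2 := by gcongr
            _ = Real.exp (-s.c) := by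
              rw [sq, ← Real.exp_add, ← Real.exp_add]
              congr 1
              ring
        have h5 : Real.exp (-s.c) ≤ s.e ^ 2 := by
          rw [Real.exp_neg, inv_le_iff_one_le_mul₀ (Real.exp_pos _)]
          have := Real.add_one_le_exp s.c
          nlinarith
        linarith
  have hbA : BM fun x => K * A.indicator (1 : X → ℝ) x := (BM.ind_one hAm).const_mul K
  have hbB : BM (B.indicator (1 : X → ℝ)) := BM.ind_one hBm
  refine (integral_mono_of_nonneg (Eventually.of_forall fun x => sq_nonneg _)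
    ((hbA.add' hbB).add' (BM.const _)).integrable (Eventually.of_forall hpt)).trans ?_
  rw [integral_add (hbA.add' hbB).integrable (BM.const _).integrable,
    integral_add hbA.integrable hbB.integrable, integral_const_mul, integral_indicator_one hAm,
    integral_indicator_one hBm, integral_const]
  have h1 := real_meets_le (Finset.range n) (fun k : ℕ => k • α) s.R
  have h2 := real_meets_le (Finset.range n) (fun k : ℕ => k • α) s.Bad
  rw [Finset.card_range] at h1 h2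
  have h3 := s.R_tiny
  have h4 := s.Bad_small
  have h5 : μX.real A ≤ s.W * s.ℓ * μX.real s.R :=
    h1.trans (mul_le_mul_of_nonneg_right hnW measureReal_nonneg)
  have h6 : μX.real B ≤ s.W * s.ℓ * μX.real s.Bad :=
    h2.trans (mul_le_mul_of_nonneg_right hnW measureReal_nonneg)
  have h7 := mul_le_mul_of_nonneg_left h5 hK0.le
  simp only [probReal_univ, smul_eq_mul, one_mul]
  nlinarith [sq_nonneg s.e]

end Crest.Agent.R113
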