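import Crest.Agent.R113.Basic

/-!
# Row 113: the basic test inequality (★)
See `R113/Plan.lean` for the whole proof of S0149 and `R113/Basic.lean` for the definitions.
-/

set_option autoImplicit false

open MeasureTheory Set Filter Topology
open scoped BigOperators

namespace Crest.Agent.R113

variable {α : X} {F : X → ℝ} {t : ℝ}

/-- `N̂_n = ψ ∘ σ^n - ψ` -/
noncomputable def Stage.N (s : Stage α F) (n : ℕ) (x : X) : ℝ := s.ψ (x + n • α) - s.ψ x

theorem Stage.test_N_bm (s : Stage α F) (n : ℕ) : BM (s.N n) := (s.ψ_bm.shift _).sub' s.ψ_bm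

theorem Stage.test_N_bdd (s : Stage α F) (n : ℕ) (x : X) : |s.N n x| ≤ 4 :=
  (abs_sub _ _).trans (by linarith [s.ψ_bdd (x + n • α), s.ψ_bdd x])

theorem Stage.test_N_eq (s : Stage α F) (n : ℕ) (x : X)
    (hx : ∀ k ∈ Finset.range n, x + k • α ∉ s.R) :
    s.N n x + n / s.ℓ = ∑ k ∈ Finset.range n, s.Θ.indicator 1 (x + k • α) := by
  induction n with
  | zero => simp [Stage.N]
  | succ n ih =>
    have h1 := ih fun k hk => hx k (Finset.mem_range.2 (by have := Finset.mem_range.1 hk; omega))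
    have h2 := s.step _ (hx n (Finset.self_mem_range_succ n))
    rw [Finset.sum_range_succ, ← h1]
    simp only [Stage.N, succ_nsmul, ← add_assoc]
    push_cast
    rw [add_div]
    linarith

/-- With `D = f_n exp (c N̂_n + l_n + c n / ℓ)`, `l_n = ∑_{k<n} low ∘ σ^k`:
if the window `x, …, x + (n-1)α` avoids `R` then `N̂_n + n/ℓ` = number of ticks in the window
(`step`), so `0 ≤ D ≤ 1` (`F_le`) and `D = 1` if it also avoids `Bad` (`F_eq`); always
`0 ≤ D ≤ exp (c (W+4))` (`F_le_low`).  Use `real_meets_le`, `R_tiny`, `Bad_small`. -/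
theorem Stage.cov_err (hF : Measurable F) (s : Stage α F) {n : ℕ} (hn : n ≤ s.W * s.ℓ) :
    ∫ x, (1 - fn α F n x * Real.exp ((s.c * s.N n x + ∑ k ∈ Finset.range n, s.low (x + k • α))
      + s.c * n / s.ℓ)) ^ 2 ∂μX ≤ 2 * s.e ^ 2 := by
  classical
  set A : Set X := {x | ∃ k ∈ Finset.range n, x + k • α ∈ s.R} with hA
  set B : Set X := {x | ∃ k ∈ Finset.range n, x + k • α ∈ s.Bad} with hB
  have hAm : MeasurableSet A := measurableSet_meets _ _ s.R_meas
  have hBm : MeasurableSet B := measurableSet_meets _ _ s.Bad_meas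
  have hc : 0 < s.c := by linarith [s.c_ge]
  have hn' : (n : ℝ) ≤ s.W * s.ℓ := by exact_mod_cast hn
  set E : ℝ := Real.exp (2 * s.c * (s.W + 4)) with hE
  have hpt : ∀ x, (1 - fn α F n x * Real.exp ((s.c * s.N n x +
      ∑ k ∈ Finset.range n, s.low (x + k • α)) + s.c * n / s.ℓ)) ^ 2
      ≤ E * A.indicator 1 x + B.indicator 1 x := by
    intro x
    have hf0 : 0 ≤ fn α F n x := Finset.prod_nonneg fun k _ => s.F_nonneg _
    set D := fn α F n x * Real.exp ((s.c * s.N n x +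
      ∑ k ∈ Finset.range n, s.low (x + k • α)) + s.c * n / s.ℓ) with hD
    have hD0 : 0 ≤ D := mul_nonneg hf0 (Real.exp_pos _).le
    have hB0 : 0 ≤ B.indicator (1 : X → ℝ) x := indicator_nonneg (fun _ _ => zero_le_one) x
    by_cases hxA : x ∈ A
    · have h1 : fn α F n x ≤ Real.exp (-∑ k ∈ Finset.range n, s.low (x + k • α)) := by
        rw [← Finset.sum_neg_distrib, Real.exp_sum]
        exact Finset.prod_le_prod (fun k _ => s.F_nonneg _) fun k _ => s.F_le_low _
      have h2 : D ≤ Real.exp (s.c * (s.W + 4)) := by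
        refine (mul_le_mul_of_nonneg_right h1 (Real.exp_pos _).le).trans ?_
        rw [← Real.exp_add]
        refine Real.exp_le_exp.2 ?_
        have h3 : (n : ℝ) / s.ℓ ≤ s.W := by rw [div_le_iff₀ s.ℓ_pos]; exact hn'
        have h4 := (le_abs_self _).trans (s.test_N_bdd n x)
        rw [mul_div_assoc]
        nlinarith
      have h5 : 1 ≤ Real.exp (s.c * (s.W + 4)) := Real.one_le_exp (by positivity)
      have h6 : E = Real.exp (s.c * (s.W + 4)) ^ 2 := by
        rw [hE, ← Real.exp_nat_mul]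
        congr 1
        push_cast
        ring
      rw [indicator_of_mem hxA, Pi.one_apply, mul_one, h6]
      have : (1 - D) ^ 2 ≤ Real.exp (s.c * (s.W + 4)) ^ 2 :=
        sq_le_sq' (by linarith) (by linarith)
      linarith
    · have hR : ∀ k ∈ Finset.range n, x + k • α ∉ s.R := fun k hk h => hxA ⟨k, hk, h⟩
      have h1 := s.test_N_eq n x hR
      have h2 : (∏ k ∈ Finset.range n,
          Real.exp (-s.c * s.Θ.indicator 1 (x + k • α) - s.low (x + k • α))) *
          Real.exp ((s.c * s.N n x + ∑ k ∈ Finset.range n, s.low (x + k • α)) +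
            s.c * n / s.ℓ) = 1 := by
        rw [← Real.exp_sum, ← Real.exp_add, Finset.sum_sub_distrib, ← Finset.mul_sum, ← h1,
          Real.exp_eq_one_iff]
        ring
      rw [indicator_of_notMem hxA, mul_zero, zero_add]
      by_cases hxB : x ∈ B
      · have h3 : D ≤ 1 := by
          rw [← h2]
          exact mul_le_mul_of_nonneg_right (Finset.prod_le_prod (fun k _ => s.F_nonneg _)
            fun k hk => s.F_le _ (hR k hk)) (Real.exp_pos _).le
        rw [indicator_of_mem hxB, Pi.one_apply]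
        nlinarith
      · have h3 : D = 1 := by
          rw [← h2, hD]
          congr 1
          exact Finset.prod_congr rfl fun k hk => s.F_eq _ (hR k hk) fun h => hxB ⟨k, hk, h⟩
        rw [h3]
        simpa using hB0
  have hi1 : Integrable (fun x => E * A.indicator (1 : X → ℝ) x) μX :=
    ((BM.ind_one hAm).const_mul E).integrable
  have hi2 : Integrable (B.indicator (1 : X → ℝ)) μX := (BM.ind_one hBm).integrable
  refine (integral_mono_of_nonneg (Eventually.of_forall fun x => sq_nonneg _) (hi1.add hi2)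
    (Eventually.of_forall hpt)).trans ?_
  rw [integral_add' hi1 hi2, integral_const_mul, integral_indicator_one hAm,
    integral_indicator_one hBm]
  have h1 : μX.real A ≤ n * μX.real s.R := by
    simpa only [Finset.card_range] using real_meets_le (Finset.range n) (fun k => k • α) s.R
  have h2 : μX.real B ≤ n * μX.real s.Bad := by
    simpa only [Finset.card_range] using real_meets_le (Finset.range n) (fun k => k • α) s.Bad
  have h3 : μX.real A ≤ s.W * s.ℓ * μX.real s.R :=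
    h1.trans (mul_le_mul_of_nonneg_right hn' measureReal_nonneg)
  have h4 : μX.real B ≤ s.W * s.ℓ * μX.real s.Bad :=
    h2.trans (mul_le_mul_of_nonneg_right hn' measureReal_nonneg)
  have h5 := mul_le_mul_of_nonneg_left h3 (Real.exp_pos (2 * s.c * (s.W + 4))).le
  have h6 := s.R_tiny
  have h7 := s.Bad_small
  rw [← hE] at h5 h6
  linarith

/-- One value of `n`.  `T.mono` between `a = g + N̂` and `b = c N̂ + l` gives
`-∫ P a N̂ ≤ -∫ P b N̂ + (W ℓ Λ + γ)/(c-1)`, `(WℓΛ + γ)/(c-1) ≤ 2e + 2γ/c`; `T.cov b` and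
`cov_err` give `‖P b - P 0 ∘ σ^n‖₂ ≤ 2e`, so (Cauchy–Schwarz `BM.integral_mul_le`, `|N̂| ≤ 4`)
`-∫ P b N̂ ≤ -∫ P 0 (x+nα) N̂ + 8e`, and `∫ P 0 (x+nα) N̂ = ∫ P 0 ψ - ∫ P 0 (x) ψ (x - nα)`. -/
theorem Stage.test_one (T : TiltSys α F t) (hF : Measurable F) (s : Stage α F) (he : s.e ≤ 1)
    {g : X → ℝ} (hg : BM g) {γ : ℝ} (hγ : ∀ x, |g x| ≤ γ) {n : ℕ} (hn : n ≤ s.W * s.ℓ) :
    ∫ x, (T.P g x - T.P (g + s.N n) x) * s.N n x ∂μX
      ≤ (∫ x, T.P g x * s.ψ (x + n • α) ∂μX - ∫ x, T.P g x * s.ψ x ∂μX)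
        - (∫ x, T.P 0 x * s.ψ x ∂μX - ∫ x, T.P 0 x * s.ψ (x - n • α) ∂μX)
        + 10 * s.e + 2 * γ / s.c := by
  have hN := s.test_N_bm n
  set b : X → ℝ := fun x => s.c * s.N n x + ∑ k ∈ Finset.range n, s.low (x + k • α) with hb
  have hl : BM fun x => ∑ k ∈ Finset.range n, s.low (x + k • α) :=
    BM.sum _ fun k _ => s.low_bm.shift _
  have hbm : BM b := (hN.const_mul _).add' hl
  have hc := s.c_ge
  have he0 := s.e_pos
  have hγ0 : 0 ≤ γ := (abs_nonneg _).trans (hγ 0)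
  have hn' : (n : ℝ) ≤ s.W * s.ℓ := by exact_mod_cast hn
  have hPa := T.P_bm (g + s.N n)
  have hPb := T.P_bm b
  have hPg := T.P_bm g
  have hP0 := T.P_bm 0
  -- monotonicity
  have h1 := T.mono (hg.add hN) hbm
  have e1 : ∫ x, (T.P (g + s.N n) x - T.P b x) * (b x - (g + s.N n) x) ∂μX =
      (s.c - 1) * (∫ x, T.P (g + s.N n) x * s.N n x ∂μX - ∫ x, T.P b x * s.N n x ∂μX) +
      ∫ x, (T.P (g + s.N n) x - T.P b x) *
        (∑ k ∈ Finset.range n, s.low (x + k • α) - g x) ∂μX := by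
    rw [← integral_sub (hPa.mul' hN).integrable (hPb.mul' hN).integrable, ← integral_const_mul,
      ← integral_add (((hPa.mul' hN).sub' (hPb.mul' hN)).const_mul _).integrable
        ((hPa.sub' hPb).mul' (hl.sub' hg)).integrable]
    refine integral_congr_ae (Eventually.of_forall fun x => ?_)
    simp only [hb, Pi.add_apply]
    ring
  have h2 : |∫ x, (T.P (g + s.N n) x - T.P b x) *
      (∑ k ∈ Finset.range n, s.low (x + k • α) - g x) ∂μX| ≤ s.W * s.ℓ * s.Λ + γ := by
    refine BM.abs_integral_le fun x => ?_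
    have h3 : |T.P (g + s.N n) x - T.P b x| ≤ 1 := by
      rw [abs_le]
      constructor <;> linarith [T.P_nonneg (g + s.N n) x, T.P_le_one (g + s.N n) x,
        T.P_nonneg b x, T.P_le_one b x]
    have h4 : |∑ k ∈ Finset.range n, s.low (x + k • α)| ≤ s.W * s.ℓ * s.Λ := by
      rw [abs_of_nonneg (Finset.sum_nonneg fun k _ => s.low_nonneg _)]
      refine (Finset.sum_le_card_nsmul _ _ s.Λ fun k _ => s.low_le _).trans ?_
      rw [Finset.card_range, nsmul_eq_mul]
      exact mul_le_mul_of_nonneg_right hn' s.Λ_nonneg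
    rw [abs_mul]
    exact (mul_le_of_le_one_left (abs_nonneg _) h3).trans
      ((abs_sub _ _).trans (add_le_add h4 (hγ x)))
  have h3 : ∫ x, T.P b x * s.N n x ∂μX - ∫ x, T.P (g + s.N n) x * s.N n x ∂μX
      ≤ 2 * s.e + 2 * γ / s.c := by
    have h4 := (le_abs_self _).trans h2
    rw [e1] at h1
    set Δ := ∫ x, T.P b x * s.N n x ∂μX - ∫ x, T.P (g + s.N n) x * s.N n x ∂μX with hΔ
    have h5 : (s.c - 1) * Δ ≤ s.W * s.ℓ * s.Λ + γ := by rw [hΔ]; linarith
    have h6 : s.W * s.ℓ * s.Λ ≤ s.e * s.c := by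
      have := s.c_big
      have h7 : s.e ^ 2 * s.c ≤ s.e * s.c :=
        mul_le_mul_of_nonneg_right (by nlinarith) (by linarith)
      nlinarith [sq_nonneg (s.ℓ : ℝ)]
    by_cases hΔ0 : Δ ≤ 0
    · have : 0 ≤ 2 * γ / s.c := by positivity
      linarith
    · have h8 : s.c * Δ ≤ 2 * ((s.c - 1) * Δ) := by nlinarith [not_le.1 hΔ0]
      have h9 : Δ ≤ (2 * s.e * s.c + 2 * γ) / s.c := by
        rw [le_div_iff₀ (by linarith)]
        linarith
      rwa [add_div, mul_div_cancel_right₀ _ (by linarith : s.c ≠ 0)] at h9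
  -- covariance
  have h4 := (T.cov b hbm n (s.c * n / s.ℓ)).trans
    (mul_le_mul_of_nonneg_left (s.cov_err hF hn) (by norm_num))
  have h5 := BM.integral_mul_le (hPb.sub' (hP0.shift (n • α))) hN
  have h6 : √(∫ x, (T.P b x - T.P 0 (x + n • α)) ^ 2 ∂μX) ≤ 2 * s.e :=
    Real.sqrt_le_iff.2 ⟨by linarith, by linarith⟩
  have h7 : √(∫ x, s.N n x ^ 2 ∂μX) ≤ 4 := by
    refine Real.sqrt_le_iff.2 ⟨by norm_num, (le_abs_self _).trans (BM.abs_integral_le fun x => ?_)⟩
    rw [abs_pow]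
    exact pow_le_pow_left₀ (abs_nonneg _) (s.test_N_bdd n x) 2
  have h8 := h5.trans (mul_le_mul h6 h7 (Real.sqrt_nonneg _) (by linarith))
  have e2 : ∫ x, (T.P b x - T.P 0 (x + n • α)) * s.N n x ∂μX =
      ∫ x, T.P b x * s.N n x ∂μX - ∫ x, T.P 0 (x + n • α) * s.N n x ∂μX := by
    rw [← integral_sub (hPb.mul' hN).integrable ((hP0.shift _).mul' hN).integrable]
    exact integral_congr_ae (Eventually.of_forall fun x => by ring)
  have e3 : ∫ x, T.P 0 (x + n • α) * s.N n x ∂μX =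
      ∫ x, T.P 0 x * s.ψ x ∂μX - ∫ x, T.P 0 x * s.ψ (x - n • α) ∂μX := by
    rw [← integral_sub (hP0.mul' s.ψ_bm).integrable (hP0.mul' (s.ψ_bm.shift_sub _)).integrable,
      ← integral_shift (fun x => T.P 0 x * s.ψ x - T.P 0 x * s.ψ (x - n • α)) (n • α)]
    refine integral_congr_ae (Eventually.of_forall fun x => ?_)
    simp only [Stage.N, add_sub_cancel_right]
    ring
  have e4 : ∫ x, T.P g x * s.N n x ∂μX =
      ∫ x, T.P g x * s.ψ (x + n • α) ∂μX - ∫ x, T.P g x * s.ψ x ∂μX := by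
    rw [← integral_sub (hPg.mul' (s.ψ_bm.shift _)).integrable (hPg.mul' s.ψ_bm).integrable]
    refine integral_congr_ae (Eventually.of_forall fun x => ?_)
    simp only [Stage.N]
    ring
  have e5 : ∫ x, (T.P g x - T.P (g + s.N n) x) * s.N n x ∂μX =
      ∫ x, T.P g x * s.N n x ∂μX - ∫ x, T.P (g + s.N n) x * s.N n x ∂μX := by
    rw [← integral_sub (hPg.mul' hN).integrable (hPa.mul' hN).integrable]
    exact integral_congr_ae (Eventually.of_forall fun x => by ring)
  rw [e2, e3] at h8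
  have h9 := neg_le_of_abs_le h8
  rw [e5, e4]
  linarith

theorem Stage.test_avg (T : TiltSys α F t) (s : Stage α F) (g : X → ℝ) (a : X) :
    ∑ n ∈ Finset.range (s.W * s.ℓ), ∫ x, T.P g x * s.ψ (x + a + n • α) ∂μX
      ≤ (s.W * s.ℓ : ℕ) * s.e := by
  have hM : (0 : ℝ) < (s.W * s.ℓ : ℕ) := by
    have := s.ℓ_ge
    have := s.W_ge
    exact_mod_cast (by positivity : 0 < s.W * s.ℓ)
  have hav : BM fun x => avg α (s.W * s.ℓ) s.ψ (x + a) := (s.ψ_bm.avg α _).shift a
  have e1 : ∑ n ∈ Finset.range (s.W * s.ℓ), ∫ x, T.P g x * s.ψ (x + a + n • α) ∂μX =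
      (s.W * s.ℓ : ℕ) * ∫ x, T.P g x * avg α (s.W * s.ℓ) s.ψ (x + a) ∂μX := by
    rw [← integral_finsetSum _ fun n _ =>
      ((T.P_bm g).mul' ((s.ψ_bm.shift (n • α)).shift a)).integrable, ← integral_const_mul]
    refine integral_congr_ae (Eventually.of_forall fun x => ?_)
    simp only [avg, ← Finset.mul_sum]
    field_simp
  rw [e1]
  refine mul_le_mul_of_nonneg_left ?_ hM.le
  refine le_trans ?_ s.avg_le
  rw [← integral_shift (fun x => |avg α (s.W * s.ℓ) s.ψ x|) a]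
  refine integral_mono ((T.P_bm g).mul' hav).integrable hav.abs.integrable fun x => ?_
  refine (le_abs_self _).trans ?_
  rw [abs_mul, abs_of_nonneg (T.P_nonneg g x)]
  exact mul_le_of_le_one_left (abs_nonneg _) (T.P_le_one g x)

/-- **(★)**  Average `test_one` over `n < W ℓ` (the two shifted terms are `≤ e` by `avg_le`;
`∑_{n<N} ψ(x - nα) = ∑_{k<N} ψ(x - (N-1)α + kα)`), bound each left side from below by `T.comm`
with `w (x,d) = N̂_n (x + dα) - N̂_n x`, `B = 8`, and use `sep` on `G ×ˢ Z`, `G_big`, `T.m_fst`,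
`T.m_le_one`. -/
theorem Stage.test (T : TiltSys α F t) (hF : Measurable F) (s : Stage α F) (he : s.e ≤ 1)
    {g : X → ℝ} (hg : BM g) {γ : ℝ} (hγ : ∀ x, |g x| ≤ γ) {η : ℝ} (hη0 : 0 ≤ η) (hη1 : η ≤ 1)
    (Z : Set ℤ) (hZ : ∀ d ∈ Z, η * s.ℓ ≤ |(d : ℝ)| ∧ |d| ≤ s.D) :
    η / 200 * (T.m g).real {z | z.2 ∈ Z}
      ≤ 81 * (- ∫ x, T.P g x * s.ψ x ∂μX - ∫ x, T.P 0 x * s.ψ x ∂μX)
        + 1000 * s.e + 162 * γ / s.c := by
  classical
  have hM0 : 0 < s.W * s.ℓ := by
    have := s.ℓ_ge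
    have := s.W_ge
    positivity
  have hM : (0 : ℝ) < (s.W * s.ℓ : ℕ) := by exact_mod_cast hM0
  have he0 := s.e_pos
  let w : ℕ → X × ℤ → ℝ := fun n z => s.N n (z.1 + z.2 • α) - s.N n z.1
  have hwm : ∀ n, Measurable (w n) := fun n =>
    ((s.test_N_bm n).meas.comp (measurable_fst.add
      ((measurable_of_countable fun d : ℤ => d • α).comp measurable_snd))).sub
      ((s.test_N_bm n).meas.comp measurable_fst)
  have hwb : ∀ n z, |w n z| ≤ 8 := fun n z =>
    (abs_sub _ _).trans (by linarith [s.test_N_bdd n (z.1 + z.2 • α), s.test_N_bdd n z.1])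
  have hwi : ∀ n, Integrable (fun z => w n z ^ 2) (T.m g) := fun n =>
    Integrable.of_bound ((hwm n).pow_const 2).aestronglyMeasurable (8 ^ 2)
      (Eventually.of_forall fun z => by
        rw [Real.norm_eq_abs, abs_pow]
        exact pow_le_pow_left₀ (abs_nonneg _) (hwb n z) 2)
  -- upper bound
  have h1 : ∀ n ∈ Finset.range (s.W * s.ℓ), ∫ z, w n z ^ 2 ∂(T.m g) ≤
      81 * (∫ x, T.P g x * s.ψ (x + n • α) ∂μX + ∫ x, T.P 0 x * s.ψ (x - n • α) ∂μX +
        (- ∫ x, T.P g x * s.ψ x ∂μX - ∫ x, T.P 0 x * s.ψ x ∂μX + 10 * s.e + 2 * γ / s.c)) := by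
    intro n hn
    have h2 := T.comm g (s.N n) hg (s.test_N_bm n) (w n) 8 (hwm n) (hwb n) fun z => le_rfl
    have h3 := s.test_one T hF he hg hγ (Finset.mem_range.1 hn).le
    linarith
  have h2 := Finset.sum_le_sum h1
  rw [← Finset.mul_sum, Finset.sum_add_distrib, Finset.sum_add_distrib, Finset.sum_const,
    Finset.card_range, nsmul_eq_mul, ← integral_finsetSum _ fun n _ => hwi n] at h2
  have h3 := s.test_avg T g 0
  simp only [add_zero] at h3
  have h4 := s.test_avg T 0 (-((s.W * s.ℓ - 1) • α))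
  have e1 : ∑ n ∈ Finset.range (s.W * s.ℓ),
      ∫ x, T.P 0 x * s.ψ (x + -((s.W * s.ℓ - 1) • α) + n • α) ∂μX =
      ∑ n ∈ Finset.range (s.W * s.ℓ), ∫ x, T.P 0 x * s.ψ (x - n • α) ∂μX := by
    rw [← Finset.sum_range_reflect]
    refine Finset.sum_congr rfl fun n hn => ?_
    have hn' := Finset.mem_range.1 hn
    have e2 : (s.W * s.ℓ - 1) • α = (s.W * s.ℓ - 1 - n) • α + n • α := by
      rw [← add_nsmul]
      congr 1
      omega
    refine integral_congr_ae (Eventually.of_forall fun x => ?_)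
    beta_reduce
    congr 2
    rw [e2]
    abel
  rw [e1] at h4
  -- lower bound
  have hZm : MeasurableSet Z := Z.to_countable.measurableSet
  have hS : MeasurableSet (s.G ×ˢ Z) := s.G_meas.prod hZm
  have h5 : ((s.W * s.ℓ : ℕ) * (η / 200 - s.e)) * (T.m g).real (s.G ×ˢ Z) ≤
      ∫ z, ∑ n ∈ Finset.range (s.W * s.ℓ), w n z ^ 2 ∂(T.m g) := by
    rw [← integral_indicator_one hS, ← integral_const_mul]
    refine integral_mono (((integrable_const (1 : ℝ)).indicator hS).const_mul _)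
      (integrable_finsetSum _ fun n _ => hwi n) fun z => ?_
    by_cases hz : z ∈ s.G ×ˢ Z
    · simp only [indicator_of_mem hz, Pi.one_apply, mul_one]
      have h6 := s.sep z.1 hz.1 z.2 (hZ _ hz.2).2
      have h7 : η ≤ min (|(z.2 : ℝ)| / s.ℓ) 1 :=
        le_min (by rw [le_div_iff₀ s.ℓ_pos]; exact (hZ _ hz.2).1) hη1
      rw [le_div_iff₀ hM] at h6
      refine le_trans ?_ h6
      rw [mul_comm]
      exact mul_le_mul_of_nonneg_right (by linarith) hM.le
    · simp only [indicator_of_notMem hz, mul_zero]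
      exact Finset.sum_nonneg fun n _ => sq_nonneg _
  have h6 : (η / 200 - s.e) * (T.m g).real (s.G ×ˢ Z) ≤
      81 * (- ∫ x, T.P g x * s.ψ x ∂μX - ∫ x, T.P 0 x * s.ψ x ∂μX + 12 * s.e + 2 * γ / s.c) := by
    refine le_of_mul_le_mul_left ?_ hM
    linarith
  have h7 : (T.m g).real {z | z.2 ∈ Z} ≤ (T.m g).real (s.G ×ˢ Z) + s.e := by
    have h8 : {z : X × ℤ | z.2 ∈ Z} ⊆ s.G ×ˢ Z ∪ s.Gᶜ ×ˢ univ := fun z hz => by
      by_cases h : z.1 ∈ s.G
      · exact Or.inl ⟨h, hz⟩
      · exact Or.inr ⟨h, trivial⟩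
    have h9 := (T.m_fst g hg _ s.G_meas.compl).trans s.G_big
    linarith [measureReal_mono (μ := T.m g) h8,
      measureReal_union_le (μ := T.m g) (s.G ×ˢ Z) (s.Gᶜ ×ˢ univ)]
  have h8 := T.m_le_one hg (s.G ×ˢ Z)
  have h9 := mul_le_mul_of_nonneg_left h7 (by positivity : 0 ≤ η / 200)
  have h10 := mul_le_mul_of_nonneg_left h8 he0.le
  have h11 := mul_le_mul_of_nonneg_right hη1 he0.le
  have e3 : 162 * γ / s.c = 81 * (2 * γ / s.c) := by ring
  rw [e3]
  linarith

end Crest.Agent.R113
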