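import Crest.Agent.R113.Fin1
import Crest.Agent.R113.Test
import Crest.Agent.R113.Erg

/-!
# Row 113: finish, part 2
See `R113/Plan.lean` for the whole proof of S0149 and `R113/Basic.lean` for the definitions.
-/

set_option autoImplicit false

open MeasureTheory Set Filter Topology
open scoped BigOperators

namespace Crest.Agent.R113

variable {α : X} {F : X → ℝ} {t : ℝ}

theorem Stage.fin2_one_le (s : Stage α F) (he : s.e ≤ 1) : 1 ≤ s.e * s.c := by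
  have h1 := s.c_big
  have h2 : (8 : ℝ) ≤ s.ℓ := by exact_mod_cast s.ℓ_ge
  have h3 : 0 ≤ (s.W : ℝ) * s.ℓ * s.Λ := by have := s.Λ_nonneg; positivity
  have h4 : 0 < s.e * s.c := mul_pos s.e_pos (by linarith [s.c_ge])
  nlinarith

theorem Stage.fin2_tilt_le (s : Stage α F) (he : s.e ≤ 1) {Γ : ℝ} (hΓ0 : s.e * s.c ≤ Γ)
    (hΓ : Γ ≤ 2 * (s.e * s.c)) {G κ : X → ℝ} (hG : ∀ x, |G x| ≤ s.e * (s.e * s.c))
    (hκ : Adm α s.cut (s.e * s.c) κ) (x : X) : |s.tilt Γ G κ x| ≤ 6 * (s.e * s.c) := by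
  have h0 := s.fin2_one_le he
  have h1 : |-Γ * s.ψ x| ≤ Γ * 2 := by
    rw [abs_mul, abs_neg, abs_of_nonneg (by linarith)]
    exact mul_le_mul_of_nonneg_left (s.ψ_bdd x) (by linarith)
  have h2 : |G x| ≤ s.e * s.c := (hG x).trans (by nlinarith)
  have h3 := hκ.bdd x
  rw [abs_le] at h1 h2 h3 ⊢
  unfold Stage.tilt
  constructor <;> linarith [h1.1, h1.2, h2.1, h2.2, h3.1, h3.2]

theorem fin2_sub_mul (T : TiltSys α F t) (g : X → ℝ) {ψ : X → ℝ} (hψ : BM ψ) :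
    ∫ x, T.P g x * ψ x ∂μX = ∫ x, (T.P g x - t) * ψ x ∂μX + t * ∫ x, ψ x ∂μX := by
  rw [← integral_const_mul, ← integral_add (((T.P_bm g).sub' (BM.const t)).mul' hψ).integrable
    (hψ.const_mul t).integrable]
  exact integral_congr_ae (Eventually.of_forall fun x => by ring)

theorem Stage.fin2_test (T : TiltSys α F t) (hF : Measurable F) (s : Stage α F) (he : s.e ≤ 1)
    {β : ℝ} (hβ : |∫ x, (T.P 0 x - t) * s.ψ x ∂μX| ≤ β)
    {g : X → ℝ} (hg : BM g) (hγ : ∀ x, |g x| ≤ 6 * (s.e * s.c)) {η : ℝ} (hη0 : 0 ≤ η)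
    (hη1 : η ≤ 1) (Z : Set ℤ) (hZ : ∀ d ∈ Z, η * s.ℓ ≤ |(d : ℝ)| ∧ |d| ≤ s.D) :
    η / 200 * (T.m g).real {z | z.2 ∈ Z}
      ≤ 81 * (- ∫ x, (T.P g x - t) * s.ψ x ∂μX + β) + 2134 * s.e := by
  have h1 := s.test T hF he hg hγ hη0 hη1 Z hZ
  rw [fin2_sub_mul T g s.ψ_bm, fin2_sub_mul T 0 s.ψ_bm] at h1
  have hc : s.c ≠ 0 := by linarith [s.c_ge]
  have h2 : 162 * (6 * (s.e * s.c)) / s.c = 972 * s.e := by field_simp; ring
  have h3 : |t * ∫ x, s.ψ x ∂μX| ≤ s.e := by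
    rw [abs_mul, abs_of_nonneg T.t_mem.1]
    have := s.abs_integral_ψ_le
    nlinarith [T.t_mem.1, T.t_mem.2, abs_nonneg (∫ x, s.ψ x ∂μX)]
  rw [h2] at h1
  linarith [(abs_le.1 h3).1, (abs_le.1 hβ).1]

/-- `T.mono 0 g`: `0 ≤ ∫ (P 0 - Q) g`, i.e. with `Z = Q - t`, `Z₀ = P 0 - t`:
`-Γ ∫ Zψ + ∫ Zκ ≤ -Γ ∫ Z₀ψ + ∫ Z₀κ + ∫ (Q - P 0) G ≤ Γβ + βΓ₀ + eΓ₀` (`Γ₀ = e c ≥ 1`).
The variational inequality with `κ'' = 0` gives `∫ Zκ ≥ -e`, hence the first claim.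
`Stage.test` with `Z = ∅`, `η = 0`, `γ = 6 e c` and `abs_integral_ψ_le` give
`-∫ Zψ ≥ -(β + 27 e)`, so `∫ Zκ ≤ Γ₀ (5β + 55 e)`; the variational inequality with
`κ'' = ± Γ₀ ζ` gives the second claim. -/
theorem Stage.alpha_rho (T : TiltSys α F t) (hF : Measurable F) (s : Stage α F) (he : s.e ≤ 1)
    {β : ℝ} (hβ : |∫ x, (T.P 0 x - t) * s.ψ x ∂μX| ≤ β)
    (hβ' : ∀ (C : ℝ) (κ : X → ℝ), Adm α s.cut C κ → |∫ x, (T.P 0 x - t) * κ x ∂μX| ≤ β * C)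
    {Γ : ℝ} (hΓ0 : s.e * s.c ≤ Γ) (hΓ : Γ ≤ 2 * (s.e * s.c)) {G κ : X → ℝ} (hGm : Measurable G)
    (hG : ∀ x, |G x| ≤ s.e * (s.e * s.c)) (hκ : Adm α s.cut (s.e * s.c) κ)
    (hvi : ∀ κ'' : X → ℝ, Adm α s.cut (s.e * s.c) κ'' →
        ∫ x, (T.P (s.tilt Γ G κ) x - t) * (κ'' x - κ x) ∂μX ≤ s.e) :
    - ∫ x, (T.P (s.tilt Γ G κ) x - t) * s.ψ x ∂μX ≤ 2 * β + 2 * s.e ∧
      ∀ ζ : X → ℝ, Adm α s.cut 1 ζ →
        |∫ x, (T.P (s.tilt Γ G κ) x - t) * ζ x ∂μX| ≤ 5 * β + 56 * s.e := by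
  have h0 := s.fin2_one_le he
  have he0 := s.e_pos
  have hβ0 : 0 ≤ β := (abs_nonneg _).trans hβ
  have hGb : BM G := ⟨hGm, _, hG⟩
  have hg := s.tilt_bm Γ hGb hκ.bm
  set g := s.tilt Γ G κ with hgdef
  have hZ : BM fun x => T.P g x - t := (T.P_bm g).sub' (BM.const t)
  have hZ0 : BM fun x => T.P 0 x - t := (T.P_bm 0).sub' (BM.const t)
  have hD : BM fun x => T.P g x - T.P 0 x := (T.P_bm g).sub' (T.P_bm 0)
  have hmono := T.mono BM.zero hg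
  have hexp : ∫ x, (T.P 0 x - T.P g x) * (g x - (0 : X → ℝ) x) ∂μX =
      Γ * ∫ x, (T.P g x - t) * s.ψ x ∂μX - Γ * ∫ x, (T.P 0 x - t) * s.ψ x ∂μX
        + ∫ x, (T.P g x - T.P 0 x) * G x ∂μX + ∫ x, (T.P 0 x - t) * κ x ∂μX
        - ∫ x, (T.P g x - t) * κ x ∂μX := by
    have b1 := (hZ.mul' s.ψ_bm).const_mul Γ
    have b2 := (hZ0.mul' s.ψ_bm).const_mul Γ
    have b3 := hD.mul' hGb
    have b4 := hZ0.mul' hκ.bm
    have b5 := hZ.mul' hκ.bm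
    rw [← integral_const_mul, ← integral_const_mul, ← integral_sub b1.integrable b2.integrable,
      ← integral_add (b1.sub' b2).integrable b3.integrable,
      ← integral_add ((b1.sub' b2).add' b3).integrable b4.integrable,
      ← integral_sub (((b1.sub' b2).add' b3).add' b4).integrable b5.integrable]
    refine integral_congr_ae (Eventually.of_forall fun x => ?_)
    simp only [hgdef, Stage.tilt, Pi.zero_apply]
    ring
  have hGint : |∫ x, (T.P g x - T.P 0 x) * G x ∂μX| ≤ s.e * (s.e * s.c) := by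
    refine BM.abs_integral_le fun x => ?_
    rw [abs_mul]
    have h1 : |T.P g x - T.P 0 x| ≤ 1 := abs_le.2
      ⟨by linarith [T.P_nonneg g x, T.P_le_one 0 x], by linarith [T.P_le_one g x, T.P_nonneg 0 x]⟩
    calc |T.P g x - T.P 0 x| * |G x| ≤ 1 * (s.e * (s.e * s.c)) :=
          mul_le_mul h1 (hG x) (abs_nonneg _) zero_le_one
      _ = _ := one_mul _
  have hK0 := hβ' _ κ hκ
  have hvi' : ∀ (r : ℝ) (ζ : X → ℝ), |r| ≤ s.e * s.c → Adm α s.cut 1 ζ →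
      r * ∫ x, (T.P g x - t) * ζ x ∂μX - ∫ x, (T.P g x - t) * κ x ∂μX ≤ s.e := by
    intro r ζ hr hζ
    have hadm : Adm α s.cut (s.e * s.c) (fun x => r * ζ x) := by
      refine ⟨hζ.meas.const_mul r, fun x => ?_, fun x hx => by rw [hζ.inv x hx]⟩
      rw [abs_mul]
      calc |r| * |ζ x| ≤ s.e * s.c * 1 := mul_le_mul hr (hζ.bdd x) (abs_nonneg _) (by linarith)
        _ = _ := mul_one _
    refine le_of_eq_of_le ?_ (hvi _ hadm)
    rw [← integral_const_mul, ← integral_sub ((hZ.mul' hζ.bm).const_mul r).integrable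
      (hZ.mul' hκ.bm).integrable]
    exact integral_congr_ae (Eventually.of_forall fun x => by ring)
  have hK : - ∫ x, (T.P g x - t) * κ x ∂μX ≤ s.e := by
    have := hvi' 0 (fun _ => 0) (by simp; linarith) ⟨measurable_const, by simp, fun _ _ => rfl⟩
    linarith
  have htest := s.fin2_test T hF he hβ hg (s.fin2_tilt_le he hΓ0 hΓ hG hκ) le_rfl zero_le_one ∅
    (by simp)
  rw [hexp] at hmono
  set A := ∫ x, (T.P g x - t) * s.ψ x ∂μX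
  set A0 := ∫ x, (T.P 0 x - t) * s.ψ x ∂μX
  set K := ∫ x, (T.P g x - t) * κ x ∂μX
  set Γ0 := s.e * s.c
  have hΓpos : 0 < Γ := by linarith
  have hA0 : -(Γ * A0) ≤ Γ * β := by nlinarith [(abs_le.1 hβ).1]
  have hmain : K - Γ * A ≤ Γ * β + β * Γ0 + s.e * Γ0 := by
    linarith [(abs_le.1 hGint).2, (abs_le.1 hK0).2]
  refine ⟨?_, fun ζ hζ => ?_⟩
  · refine le_of_mul_le_mul_left ?_ hΓpos
    nlinarith [mul_le_mul_of_nonneg_left hΓ0 hβ0, mul_le_mul_of_nonneg_left hΓ0 he0.le,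
      mul_le_mul_of_nonneg_left (h0.trans hΓ0) he0.le]
  · have hA : A ≤ β + 27 * s.e := by
      simp only [zero_div, zero_mul] at htest
      linarith
    have hKle : K ≤ Γ0 * (5 * β + 55 * s.e) := by
      have h1 : Γ * A ≤ Γ * (β + 27 * s.e) := mul_le_mul_of_nonneg_left hA hΓpos.le
      have h2 : Γ * (2 * β + 27 * s.e) ≤ 2 * Γ0 * (2 * β + 27 * s.e) :=
        mul_le_mul_of_nonneg_right hΓ (by linarith)
      nlinarith
    have hΓ0pos : 0 < Γ0 := by linarith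
    have h1 := hvi' Γ0 ζ (abs_of_pos hΓ0pos).le hζ
    have h2 := hvi' (-Γ0) ζ (by rw [abs_neg, abs_of_pos hΓ0pos]) hζ
    have h3 : s.e ≤ Γ0 * s.e := by nlinarith
    rw [abs_le]
    constructor
    · refine le_of_mul_le_mul_left ?_ hΓ0pos
      linarith
    · refine le_of_mul_le_mul_left ?_ hΓ0pos
      linarith

/-- One stage.  `G` from `exists_cumul` with `v = low` (`|G| ≤ 4ℓΛ ≤ WℓΛ ≤ e² c`), `Γ, κ, κ'` from
`exists_good_tilt`, `g = tilt Γ G κ`, `|g| ≤ 6 e c`, `δ = m g {d ≠ 0}` is bounded by `short_mass`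
(`I = 10 e`), `test` with `Z = {ηℓ ≤ |d| ≤ D}` (`alpha_rho`, `abs_integral_ψ_le`) and `htail`.
Then `seg` with `δ₁ = δ` (`T.diag`), `δ₂ = 2e + 2√δ` (`T.inv`, `inv_err`). -/
theorem Stage.finish (T : TiltSys α F t) (hF : Measurable F) (s : Stage α F) (he : s.e ≤ 1 / 40)
    {η β τ : ℝ} (hη0 : 0 < η) (hη1 : η ≤ 1)
    (hβ : |∫ x, (T.P 0 x - t) * s.ψ x ∂μX| ≤ β)
    (hβ' : ∀ (C : ℝ) (κ : X → ℝ), Adm α s.cut C κ → |∫ x, (T.P 0 x - t) * κ x ∂μX| ≤ β * C)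
    (htail : ∀ g : X → ℝ, BM g → (∀ x, |g x| ≤ 6 * s.c) →
      (T.m g).real {z | (s.D : ℤ) < |z.2|} ≤ τ) :
    ∃ δ : ℝ, 0 ≤ δ ∧ δ ≤ 40 * s.e + 4 * η + 200 / η * (243 * β + 2300 * s.e) + τ ∧
      min t (1 - t) ^ 2 / 8 ≤ 10 * δ + 16 * √δ + 100 * β + 1000 * s.e := by
  have he1 : s.e ≤ 1 := by linarith
  have he0 := s.e_pos
  have h0 := s.fin2_one_le he1
  have hβ0 : 0 ≤ β := (abs_nonneg _).trans hβ
  have hℓ : 0 < s.ℓ := by have := s.ℓ_ge; omega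
  have hℓ' := s.ℓ_pos
  obtain ⟨G, hGm, hG4, hGs⟩ := exists_cumul s.cut_meas s.ψ_bdd hℓ (fun x hx => s.step_cut hx)
    s.low_meas (Λ := s.Λ) (fun x => by rw [abs_of_nonneg (s.low_nonneg x)]; exact s.low_le x)
  have hG : ∀ x, |G x| ≤ s.e * (s.e * s.c) := by
    intro x
    refine (hG4 x).trans ?_
    have h1 := s.c_big
    have h2 : (4 : ℝ) ≤ s.W := by exact_mod_cast s.W_ge
    have h3 : 4 * (s.ℓ * s.Λ) ≤ s.W * (s.ℓ * s.Λ) :=
      mul_le_mul_of_nonneg_right h2 (mul_nonneg hℓ'.le s.Λ_nonneg)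
    nlinarith [sq_nonneg (s.ℓ : ℝ)]
  have hGb : BM G := ⟨hGm, _, hG⟩
  obtain ⟨Γ, κ, κ', hΓ0, hΓ, hκ, hκ', hvi, hI⟩ := s.exists_good_tilt T he1 hGb
  obtain ⟨ha, hρ⟩ := s.alpha_rho T hF he1 hβ hβ' hΓ0 hΓ hGm hG hκ hvi
  have hg := s.tilt_bm Γ hGb hκ.bm
  have hγ := s.fin2_tilt_le he1 hΓ0 hΓ hG hκ
  have hu : BM fun y => -(s.ℓ : ℝ) * s.ψ y + κ' y - κ y :=
    ((s.ψ_bm.const_mul _).add' hκ'.bm).sub' hκ.bm
  have hshort := s.short_mass T hg hu (fun x hx => by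
    rw [s.step_cut hx, hκ.inv x hx, hκ'.inv x hx]
    field_simp
    ring) hI hη0.le
  have hmid := s.fin2_test T hF he1 hβ hg hγ hη0.le hη1
    {d | η * s.ℓ ≤ |(d : ℝ)| ∧ |d| ≤ s.D} (fun d hd => hd)
  have hlong := htail _ hg (fun x => (hγ x).trans (by nlinarith [s.c_ge]))
  refine ⟨(T.m (s.tilt Γ G κ)).real {z | z.2 ≠ 0}, measureReal_nonneg, ?_, ?_⟩
  · have hsub : {z : X × ℤ | z.2 ≠ 0} ⊆ ({z | z.2 ≠ 0 ∧ |(z.2 : ℝ)| ≤ η * s.ℓ} ∪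
        {z | z.2 ∈ {d : ℤ | η * s.ℓ ≤ |(d : ℝ)| ∧ |d| ≤ s.D}}) ∪ {z | (s.D : ℤ) < |z.2|} := by
      intro z hz
      by_cases h1 : |(z.2 : ℝ)| ≤ η * s.ℓ
      · exact Or.inl (Or.inl ⟨hz, h1⟩)
      · by_cases h2 : |z.2| ≤ s.D
        · exact Or.inl (Or.inr ⟨(not_le.1 h1).le, h2⟩)
        · exact Or.inr (not_le.1 h2)
    have h1 := (measureReal_mono (μ := T.m (s.tilt Γ G κ)) hsub).trans
      ((measureReal_union_le _ _).trans (add_le_add_left (measureReal_union_le _ _) _))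
    have h2 : (T.m (s.tilt Γ G κ)).real
        {z | z.2 ∈ {d : ℤ | η * s.ℓ ≤ |(d : ℝ)| ∧ |d| ≤ s.D}} ≤
          200 / η * (243 * β + 2300 * s.e) := by
      rw [div_mul_eq_mul_div, le_div_iff₀ hη0]
      linarith
    linarith
  · have h1 := seg (T.P_meas (s.tilt Γ G κ)) (T.P_nonneg _) (T.P_le_one _) T.t_mem.1 T.t_mem.2
      s.cut_meas s.ψ_meas s.ψ_bdd s.ℓ_ge (fun x hx => s.step_cut hx) s.cut_small hρ ha
      (T.diag _ hg) (δ₂ := 2 * s.e + 2 * √((T.m (s.tilt Γ G κ)).real {z | z.2 ≠ 0}))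
      (fun n _ hn => by
        refine (T.inv _ hg n (Γ * n / s.ℓ) _ (measurableSet_same α s.cut_meas n)).trans ?_
        have h2 := s.inv_err hF he (by linarith) hΓ hGm
          (fun x => (hG x).trans (by nlinarith)) hGs hκ hn
        have h3 := Real.sqrt_le_sqrt h2
        rw [show 4 * s.e ^ 2 = (2 * s.e) ^ 2 by ring, Real.sqrt_sq (by linarith)] at h3
        linarith)
    linarith

end Crest.Agent.R113
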