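import Mathlib
import Crest.Prelude.Def_TwoAdicShift

/-! Row 113: a quasinilpotent operator without non-trivial hyperinvariant subspace, from the
fibred weighted shift. -/

set_option autoImplicit false

open Filter Topology MeasureTheory Crest.AnalysisR.TwoAdic

attribute [local instance] Crest.AnalysisR.TwoAdic.borelTwoAdic
  Crest.AnalysisR.TwoAdic.borelSpace_twoAdic

namespace Crest.Agent.R113

/-- An infinite-dimensional separable Hilbert space is isomorphic to `ℓ²(ℕ)`. -/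
theorem hyp_equiv (H : Type*) [NormedAddCommGroup H] [InnerProductSpace ℂ H] [CompleteSpace H]
    [TopologicalSpace.SeparableSpace H] (hH : ¬ FiniteDimensional ℂ H) :
    Nonempty (H ≃ₗᵢ[ℂ] lp (fun _ : ℕ => ℂ) 2) := by
  obtain ⟨w, b, -⟩ := exists_hilbertBasis ℂ H
  have hc : Countable w := by
    refine Pairwise.countable_of_isOpen_disjoint (s := fun i : w => Metric.ball (b i) (1 / 2))
      (fun i j hij => Metric.ball_disjoint_ball ?_) (fun _ => Metric.isOpen_ball)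
      (fun _ => ⟨_, Metric.mem_ball_self (by norm_num)⟩)
    have h1 := norm_sub_sq (𝕜 := ℂ) (b i) (b j)
    rw [b.orthonormal.1, b.orthonormal.1, b.orthonormal.2 hij] at h1
    rw [dist_eq_norm]
    simp only [map_zero, mul_zero, sub_zero] at h1
    nlinarith [norm_nonneg (b i - b j)]
  have hi : Infinite w := by
    by_contra hf
    have : Finite w := not_infinite_iff_finite.1 hf
    have := Fintype.ofFinite w
    exact hH (Module.Finite.of_basis b.toOrthonormalBasis.toBasis)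
  obtain ⟨e⟩ : Nonempty (ℕ ≃ w) := nonempty_equiv_of_countable
  refine ⟨(HilbertBasis.mk (b.orthonormal.comp e e.injective) ?_).repr⟩
  rw [e.surjective.range_comp, b.dense_span]

instance hyp_sep : TopologicalSpace.SeparableSpace seqHilbert := by
  let b : HilbertBasis ℤ ℂ seqHilbert := default
  have h1 := (((Set.countable_range b).isSeparable).span (R := ℂ)).closure
  rw [← Submodule.topologicalClosure_coe, b.dense_span] at h1
  exact TopologicalSpace.isSeparable_univ_iff.1 h1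

instance hyp_prob : IsProbabilityMeasure haarTwoAdic :=
  ⟨by simpa [haarTwoAdic] using
    (Measure.addHaarMeasure_self (K₀ := (⊤ : TopologicalSpace.PositiveCompacts ℤ_[2])))⟩

instance hyp_sep_fibre : TopologicalSpace.SeparableSpace fibreSpace := by
  have : Fact ((2 : ENNReal) ≠ ⊤) := ⟨by simp⟩
  infer_instance

theorem hyp_inf : ¬ FiniteDimensional ℂ fibreSpace := by
  intro h
  have hinj : Function.Injective (Lp.constₗ 2 haarTwoAdic ℂ : seqHilbert →ₗ[ℂ] fibreSpace) := by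
    rw [injective_iff_map_eq_zero]
    intro c hc
    have h1 := Lp.norm_const' 2 haarTwoAdic c (by simp) (by simp)
    have h2 : Lp.const 2 haarTwoAdic c = 0 := hc
    rw [h2] at h1
    simpa using h1.symm
  have := FiniteDimensional.of_injective _ hinj
  let b : HilbertBasis ℤ ℂ seqHilbert := default
  exact (Set.infinite_univ (α := ℤ)) (Set.finite_univ_iff.2 b.orthonormal.linearIndependent.finite)

/-- Multiplication by a bounded measurable function. -/
theorem hyp_mult {g : ℤ_[2] → ℂ} (hg : Measurable g) {C : ℝ} (hC : ∀ x, ‖g x‖ ≤ C) :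
    ∃ M : fibreSpace →L[ℂ] fibreSpace, ∀ f : fibreSpace, ∀ᵐ x ∂haarTwoAdic,
      (M f : ℤ_[2] → seqHilbert) x = g x • (f : ℤ_[2] → seqHilbert) x := by
  have hb : ∀ (f : fibreSpace) x, ‖g x • (f : ℤ_[2] → seqHilbert) x‖ ≤
      C * ‖(f : ℤ_[2] → seqHilbert) x‖ := fun f x => by
    rw [norm_smul]
    exact mul_le_mul_of_nonneg_right (hC x) (norm_nonneg _)
  have hm : ∀ f : fibreSpace,
      MemLp (fun x => g x • (f : ℤ_[2] → seqHilbert) x) 2 haarTwoAdic := fun f =>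
    MemLp.of_le_mul (Lp.memLp f) (hg.aestronglyMeasurable.smul (Lp.aestronglyMeasurable f))
      (Eventually.of_forall (hb f))
  let M₀ : fibreSpace →ₗ[ℂ] fibreSpace :=
    { toFun := fun f => (hm f).toLp _
      map_add' := fun f f' => by
        refine Lp.ext ?_
        filter_upwards [(hm (f + f')).coeFn_toLp, (hm f).coeFn_toLp, (hm f').coeFn_toLp,
          Lp.coeFn_add f f', Lp.coeFn_add ((hm f).toLp _) ((hm f').toLp _)] with x h1 h2 h3 h4 h5
        rw [h1, h5, Pi.add_apply, h2, h3, h4, Pi.add_apply, smul_add]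
      map_smul' := fun c f => by
        refine Lp.ext ?_
        filter_upwards [(hm (c • f)).coeFn_toLp, (hm f).coeFn_toLp, Lp.coeFn_smul c f,
          Lp.coeFn_smul c ((hm f).toLp _)] with x h1 h2 h3 h4
        rw [h1, RingHom.id_apply, h4, Pi.smul_apply, h2, h3, Pi.smul_apply, smul_comm] }
  refine ⟨M₀.mkContinuous C fun f => ?_, fun f => (hm f).coeFn_toLp⟩
  refine Lp.norm_le_mul_norm_of_ae_le_mul ?_
  filter_upwards [(hm f).coeFn_toLp] with x hx
  exact hx ▸ hb f x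

theorem hyp_tendsto {a : ℕ → ℝ} (h0 : ∀ n, 0 ≤ a n)
    (h : ∀ n : ℕ, 1 ≤ n → a n ≤ Real.exp (-10 * (((n + 1) ^ 2 / 4 : ℕ) : ℝ))) :
    Tendsto (fun n : ℕ => a n ^ (1 / (n : ℝ))) atTop (𝓝 0) := by
  have h1 : Tendsto (fun n : ℕ => Real.exp (-(n : ℝ))) atTop (𝓝 0) :=
    Real.tendsto_exp_neg_atTop_nhds_zero.comp tendsto_natCast_atTop_atTop
  refine squeeze_zero' (Eventually.of_forall fun n => Real.rpow_nonneg (h0 n) _) ?_ h1
  filter_upwards [eventually_ge_atTop 1] with n hn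
  have hn' : (0 : ℝ) < n := by exact_mod_cast hn
  refine (Real.rpow_le_rpow (h0 n) (h n hn) (by positivity)).trans ?_
  rw [← Real.exp_mul, Real.exp_le_exp, mul_one_div, div_le_iff₀ hn']
  have h2 : n * n ≤ 10 * ((n + 1) ^ 2 / 4) := by
    have h3 : (n + 1) ^ 2 = n * n + 2 * n + 1 := by ring
    rw [h3]
    omega
  have h4 : (n : ℝ) * n ≤ 10 * (((n + 1) ^ 2 / 4 : ℕ) : ℝ) := by exact_mod_cast h2
  linarith

/-- Transport along a Hilbert space isomorphism. -/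
theorem hyp_transport {H K : Type*} [NormedAddCommGroup H] [InnerProductSpace ℂ H]
    [NormedAddCommGroup K] [InnerProductSpace ℂ K] (e : H ≃ₗᵢ[ℂ] K) (S : K →L[ℂ] K) (h0 : S ≠ 0)
    (h1 : Tendsto (fun n : ℕ => ‖S ^ n‖ ^ (1 / (n : ℝ))) atTop (𝓝 0))
    (h2 : ∀ V : Submodule ℂ K, IsClosed (V : Set K) →
      (∀ A : K →L[ℂ] K, A * S = S * A → ∀ v ∈ V, A v ∈ V) → V = ⊥ ∨ V = ⊤) :
    ∃ T : H →L[ℂ] H, T ≠ 0 ∧
      Tendsto (fun n : ℕ => ‖T ^ n‖ ^ (1 / (n : ℝ))) atTop (𝓝 0) ∧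
      ∀ V : Submodule ℂ H, IsClosed (V : Set H) →
        (∀ A : H →L[ℂ] H, A * T = T * A → ∀ v ∈ V, A v ∈ V) → V = ⊥ ∨ V = ⊤ := by
  let φ : (K →L[ℂ] K) → (H →L[ℂ] H) := fun A =>
    (e.symm : K →L[ℂ] H) ∘L (A ∘L (e : H →L[ℂ] K))
  have hφ : ∀ A v, φ A v = e.symm (A (e v)) := fun _ _ => rfl
  have hmul : ∀ A B, φ (A * B) = φ A * φ B := fun A B => by
    ext v
    simp [hφ]
  have hpow : ∀ n : ℕ, φ S ^ n = φ (S ^ n) := fun n => by
    induction n with
    | zero => ext v; simp [hφ]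
    | succ n ih => rw [pow_succ, pow_succ, hmul, ih]
  have hnorm : ∀ A, ‖φ A‖ = ‖A‖ := fun A => by
    simp only [φ]
    rw [ContinuousLinearMap.opNorm_linearIsometryEquiv_comp,
      ContinuousLinearMap.opNorm_comp_linearIsometryEquiv]
  refine ⟨φ S, fun h => h0 (norm_eq_zero.1 (by rw [← hnorm, h, norm_zero])), ?_, fun V hV hA => ?_⟩
  · simpa only [hpow, hnorm] using h1
  · have h3 := h2 (V.comap (e.symm.toLinearEquiv : K →ₗ[ℂ] H)) (hV.preimage e.symm.continuous)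
      fun A hAS v hv => by
        have := hA (φ A) (by rw [← hmul, ← hmul, hAS]) (e.symm v) hv
        simpa [hφ] using this
    rcases h3 with h3 | h3
    · left
      rw [eq_bot_iff]
      intro v hv
      have : e v ∈ V.comap (e.symm.toLinearEquiv : K →ₗ[ℂ] H) := by simpa using hv
      rw [h3] at this
      simpa using this
    · right
      rw [eq_top_iff]
      intro v _
      have : e v ∈ V.comap (e.symm.toLinearEquiv : K →ₗ[ℂ] H) := by rw [h3]; trivial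
      simpa using this

theorem s0148_of
    (h : ∃ (β b : ℤ → ℤ_[2] → ℝ) (Sfib Vfib : ℤ_[2] → (seqHilbert →L[ℂ] seqHilbert))
      (S V : fibreSpace →L[ℂ] fibreSpace),
      (∀ j, Measurable (β j)) ∧ (∀ j x, 0 < β j x) ∧
      (∀ x j, Sfib x (basisVec j) = (β j x : ℂ) • basisVec (j + 1)) ∧
      (∀ f : fibreSpace, ∀ᵐ x ∂haarTwoAdic, (S f : ℤ_[2] → seqHilbert) x = Sfib x ((f : ℤ_[2] → seqHilbert) x)) ∧
      (∀ x, ∀ W : Submodule ℂ seqHilbert, IsClosed (W : Set seqHilbert) →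
        ((∀ v ∈ W, Sfib x v ∈ W) ↔ (W = ⊥ ∨ W = ⊤ ∨ ∃ h : ℤ, W = tailSpace h))) ∧
      S ≠ 0 ∧ ‖S‖ = Real.exp (-10) ∧
      (∀ n : ℕ, 1 ≤ n → ‖S ^ n‖ ≤ Real.exp (-10 * (((n + 1) ^ 2 / 4 : ℕ) : ℝ))) ∧
      ‖V‖ ≤ 1 ∧ V * S = S * V ∧
      (∀ j, Measurable (b j)) ∧ (∀ j x, 0 ≤ b j x ∧ b j x ≤ 1) ∧
      (∀ x j, Vfib x (basisVec j) = (b j x : ℂ) • basisVec (j - 1)) ∧
      (∀ f : fibreSpace, ∀ᵐ x ∂haarTwoAdic,
        (V f : ℤ_[2] → seqHilbert) (x + 1) = Vfib x ((f : ℤ_[2] → seqHilbert) x)) ∧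
      (∃ N : Set ℤ_[2], haarTwoAdic N = 0 ∧ ∀ x, x ∉ N →
        (∀ j, 0 < b j x) ∧
        (∀ h : ℤ, closure (Vfib x '' (tailSpace h : Set seqHilbert)) = (tailSpace (h - 1) : Set seqHilbert)) ∧
        closure (Set.range (Vfib x)) = Set.univ) ∧
      (∀ W : Submodule ℂ fibreSpace, IsClosed (W : Set fibreSpace) →
        (∀ f ∈ W, S f ∈ W) → (∀ f ∈ W, V f ∈ W) →
        (∀ g : ℤ_[2] → ℂ, Measurable g → (∃ C : ℝ, ∀ x, ‖g x‖ ≤ C) →
          ∀ f ∈ W, ∀ f' : fibreSpace,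
            (∀ᵐ x ∂haarTwoAdic, (f' : ℤ_[2] → seqHilbert) x = g x • (f : ℤ_[2] → seqHilbert) x) → f' ∈ W) →
        W = ⊥ ∨ W = ⊤))
    (H : Type*) [NormedAddCommGroup H] [InnerProductSpace ℂ H] [CompleteSpace H]
    [TopologicalSpace.SeparableSpace H] (hH : ¬ FiniteDimensional ℂ H) :
    ∃ T : H →L[ℂ] H, T ≠ 0 ∧
      Tendsto (fun n : ℕ => ‖T ^ n‖ ^ (1 / (n : ℝ))) atTop (𝓝 0) ∧
      ∀ V : Submodule ℂ H, IsClosed (V : Set H) →
        (∀ A : H →L[ℂ] H, A * T = T * A → ∀ v ∈ V, A v ∈ V) → V = ⊥ ∨ V = ⊤ := by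
  obtain ⟨β, b, Sfib, Vfib, S, V, -, -, -, hS, -, hS0, -, hSn, -, hVS, -, -, -, -, -, htr⟩ := h
  obtain ⟨e₁⟩ := hyp_equiv H hH
  obtain ⟨e₂⟩ := hyp_equiv fibreSpace hyp_inf
  refine hyp_transport (e₁.trans e₂.symm) S hS0 (hyp_tendsto (fun _ => norm_nonneg _) hSn)
    fun W hW hA => htr W hW (hA S rfl) (hA V hVS) ?_
  rintro g hg ⟨C, hC⟩ f hf f' hf'
  obtain ⟨M, hM⟩ := hyp_mult hg hC
  have h1 : M * S = S * M := by
    refine ContinuousLinearMap.ext fun u => Lp.ext ?_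
    filter_upwards [hM (S u), hS u, hS (M u), hM u] with x h1 h2 h3 h4
    change (M (S u) : ℤ_[2] → seqHilbert) x = (S (M u) : ℤ_[2] → seqHilbert) x
    rw [h1, h2, h3, h4, map_smul]
  have h2 : f' = M f := by
    refine Lp.ext ?_
    filter_upwards [hf', hM f] with x h1 h2
    rw [h1, h2]
  rw [h2]
  exact hA M h1 f hf

end Crest.Agent.R113
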