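import Crest.Agent.R113.Return

/-!
# Row 113: existence of a level
See `R113/Plan.lean` for the whole proof of S0149 and `R113/Basic.lean` for the definitions.
-/

set_option autoImplicit false

open MeasureTheory Set Filter Topology
open scoped BigOperators

namespace Crest.Agent.R113

theorem level_count {f : ℤ → ℤ} {a b : ℤ} (h : ∀ k, a ≤ k → k < b → f (k + 1) = f k + 1)
    (k : ℤ) (ha : a ≤ 0) (hb : 0 ≤ b) (h1 : a ≤ k) (h2 : k ≤ b) : f k = f 0 + k := by
  induction k using Int.induction_on with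
  | zero => simp
  | succ n ih => rw [h n (by omega) (by omega), ih (by omega) (by omega)]; ring
  | pred n ih =>
    have := h (-n - 1) (by omega) (by omega)
    rw [sub_add_cancel, ih (by omega) (by omega)] at this
    omega

theorem level_delay {ℓ W D : ℕ} {C : ℤ → ℤ} (hC : Clock ℓ W D C) (hℓ : 0 < ℓ) (j : ℤ) (R : ℕ) :
    ∑ n ∈ Finset.range (W * ℓ), ((C (j + n) : ℝ) - C (j + n - R)) ≤ R * (W + 2) := by
  induction R with
  | zero => simp
  | succ R ih =>
    have h1 := Finset.sum_range_sub (fun i : ℕ => (C (j + i - (R + 1 : ℕ)) : ℝ)) (W * ℓ)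
    have h2 : ∑ n ∈ Finset.range (W * ℓ), ((C (j + n) : ℝ) - C (j + n - (R + 1 : ℕ))) =
        ∑ n ∈ Finset.range (W * ℓ), ((C (j + n) : ℝ) - C (j + n - R)) +
        ∑ n ∈ Finset.range (W * ℓ), ((C (j + (n + 1 : ℕ) - (R + 1 : ℕ)) : ℝ) -
          C (j + n - (R + 1 : ℕ))) := by
      rw [← Finset.sum_add_distrib]
      refine Finset.sum_congr rfl fun n _ => ?_
      have : j + (n + 1 : ℕ) - (R + 1 : ℕ) = j + n - R := by push_cast; ring
      rw [this]; ring
    rw [h2, h1]
    have h3 := abs_le.1 (hC.near (j + (W * ℓ : ℕ) - (R + 1 : ℕ)))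
    have h4 := abs_le.1 (hC.near (j + (0 : ℕ) - (R + 1 : ℕ)))
    have hℓ' : (ℓ : ℝ) ≠ 0 := by positivity
    have h5 : ((j + (W * ℓ : ℕ) - (R + 1 : ℕ) : ℤ) : ℝ) / ℓ =
        ((j + (0 : ℕ) - (R + 1 : ℕ) : ℤ) : ℝ) / ℓ + W := by
      push_cast; field_simp; ring
    rw [h5] at h3
    push_cast at h3 h4 ⊢
    linarith [h3.2, h4.1]

/-- `j, A` from `exists_counter` (with `μ A` tiny compared with `ε` and `1/(W (Wℓ + 2D + 1))`),
`b` from `exists_lastVisit` for `I = {‖x‖ < δ}` (`1 ≤ b ≤ Rr`),
`ψ x = C (j x - b x) - j x / ℓ - 3/8`, `Θ = {x ∈ I | C (j x) - C (j x - b x) = 1}`,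
`χ, B` from `exists_bump`, `R = A ∪ B`, `G = {x | ∀ k ∈ Ico (-D) (D + Wℓ), x + kα ∉ A}` (there
`j (x + kα) = j x + k` for `-D ≤ k ≤ D + Wℓ`).  Delay bound: for every integer `j`,
`∑_{n<Wℓ} (C (j+n) - C (j+n-Rr)) = ∑_{i=1}^{Rr} (C (j+Wℓ-i) - C (j-i)) ≤ Rr (W+2)` (`near`), and
`C (j+n-Rr) ≤ C (j+n-b) ≤ C (j+n)`.  `avg_le`: on `G` the average is at most
`(W + 4ℓ + Rr(W+2))/(Wℓ)`, off `G` at most 2.  `sep`: the summand is the square of the integer
`Δ n - Δ 0`, `Δ n = T(x+dα+nα) - T(x+nα)`, `T x = C (j x - b x)`, and `Δ n` agrees with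
`C (j+n+d) - C (j+n)` except for at most `2 Rr (W+2)` values of `n`; use `hC.sep` with
`s = Δ 0`. -/
theorem exists_level {α : X} (hα : addOrderOf α = 0) {ℓ W D Rr : ℕ} {C : ℤ → ℤ}
    (hC : Clock ℓ W D C) (hℓ : 8 ≤ ℓ) (hW : 2 ≤ W) (hR1 : 1 ≤ Rr) (hR : 2 * Rr ≤ ℓ) {δ : ℝ}
    (hret : ∀ x : X, ∃ m : ℕ, 1 ≤ m ∧ m ≤ Rr ∧ ‖x - m • α‖ < δ) {e ε : ℝ}
    (he : 10 / W + 10 * Rr / ℓ ≤ e) (hε : 0 < ε) : Nonempty (Level α ℓ W D e ε δ) := by
  classical
  have hℓ0 : 0 < ℓ := by omega
  have hℓr : (0 : ℝ) < ℓ := by exact_mod_cast hℓ0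
  have hWr : (2 : ℝ) ≤ W := by exact_mod_cast hW
  have hRr : (1 : ℝ) ≤ Rr := by exact_mod_cast hR1
  have hW0 : (0 : ℝ) < W := by linarith
  have hWi : (0 : ℝ) < 1 / W := by positivity
  have hRi : (0 : ℝ) < Rr / ℓ := by positivity
  have he' : 10 * (1 / (W : ℝ)) + 10 * (Rr / ℓ) ≤ e := by
    rw [← mul_div_assoc, ← mul_div_assoc, mul_one]; exact he
  set I : Set X := {x | ‖x‖ < δ} with hI
  have hIm : MeasurableSet I := (isOpen_lt continuous_norm continuous_const).measurableSet
  obtain ⟨b, hbm, hb1, hbmin, hbI, hbI'⟩ := exists_lastVisit (α := α) hIm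
    fun x => (hret x).imp fun m hm => ⟨hm.1, hm.2.2⟩
  have hbR : ∀ x, b x ≤ Rr := fun x => by
    obtain ⟨m, h1, h2, h3⟩ := hret x
    exact (hbmin x m h1 h3).trans h2
  set N : ℝ := 2 * D + W * ℓ with hN
  have hN0 : 0 < N := by positivity
  obtain ⟨j, A, hjm, hAm, hA, hj⟩ := exists_counter hα (ε := min (ε / 2) (1 / W / N))
    (by positivity)
  let T : X → ℤ := fun x => C (j x - b x)
  have hTm : Measurable T :=
    (measurable_of_countable fun p : ℕ × ℕ => C (p.1 - p.2)).comp (hjm.prodMk hbm)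
  have hCm : Measurable fun x => C (j x) :=
    (measurable_of_countable fun p : ℕ => C p).comp hjm
  let ψ : X → ℝ := fun x => T x - j x / ℓ - 3 / 8
  have hψm : Measurable ψ :=
    (measurable_of_countable fun p : ℕ × ℤ => (p.2 : ℝ) - p.1 / ℓ - 3 / 8).comp (hjm.prodMk hTm)
  let Θ : Set X := I ∩ {x | C (j x) - T x = 1}
  have hΘm : MeasurableSet Θ := hIm.inter ((hCm.sub hTm) (measurableSet_singleton 1))
  obtain ⟨χ, B, hχc, hχ0, hχ1, hBm, hB, hχe, hχs⟩ := exists_bump hΘm (δ := δ) (fun x hx => hx.1)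
    (ε := ε / 2) (by positivity)
  let Gc : Set X := {x | ∃ k ∈ Finset.Ico (-(D : ℤ)) (D + W * ℓ), x + k • α ∈ A}
  have hGm : MeasurableSet Gc := measurableSet_meets _ _ hAm
  have hG : μX.real Gc ≤ 1 / W := by
    refine (real_meets_le _ _ A).trans ?_
    have h1 : ((Finset.Ico (-(D : ℤ)) (D + W * ℓ)).card : ℝ) = N := by
      rw [Int.card_Ico]
      have : ((D : ℤ) + W * ℓ - -D).toNat = 2 * D + W * ℓ := by
        rw [show (D : ℤ) + W * ℓ - -D = ((2 * D + W * ℓ : ℕ) : ℤ) by push_cast; ring,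
          Int.toNat_natCast]
      rw [this, hN]; push_cast; ring
    rw [h1]
    have h2 := hA.trans (min_le_right _ _)
    rw [le_div_iff₀ hN0] at h2
    linarith
  have hjG : ∀ x, x ∉ Gc → ∀ k : ℤ, -(D : ℤ) ≤ k → k ≤ D + W * ℓ →
      (j (x + k • α) : ℤ) = j x + k := by
    intro x hx k h1 h2
    have := level_count (f := fun k : ℤ => (j (x + k • α) : ℤ)) (a := -D) (b := D + W * ℓ)
      (fun k h1 h2 => by
        have h3 : x + k • α ∉ A := fun h => hx ⟨k, Finset.mem_Ico.2 ⟨h1, h2⟩, h⟩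
        show (j (x + (k + 1) • α) : ℤ) = j (x + k • α) + 1
        rw [add_zsmul, one_zsmul, ← add_assoc, hj _ h3]; push_cast; ring)
      k (by omega) (by positivity) h1 h2
    simpa using this
  have hψb : ∀ x, |ψ x| ≤ 2 := by
    intro x
    have h1 := abs_le.1 (hC.near (j x - b x))
    have h2 : (b x : ℝ) / ℓ ≤ 1 := by
      rw [div_le_one hℓr]
      have := hbR x
      exact_mod_cast (by omega : b x ≤ ℓ)
    have h3 : (0 : ℝ) ≤ b x / ℓ := by positivity
    push_cast at h1
    rw [sub_div] at h1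
    rw [abs_le]
    simp only [ψ, T]
    constructor <;> linarith [h1.1, h1.2]
  have hTle : ∀ x, T x ≤ C (j x) := fun x => hC.mono (by omega)
  have hTge : ∀ x, C (j x - Rr) ≤ T x := fun x => hC.mono (by have := hbR x; omega)
  have hWℓ : ((W * ℓ : ℕ) : ℝ) = W * ℓ := by push_cast; ring
  have hWℓ0 : (0 : ℝ) < W * ℓ := by positivity
  have hdel : (Rr : ℝ) * (W + 2) / (W * ℓ) ≤ 2 * (Rr / ℓ) := by
    rw [div_le_iff₀ hWℓ0]
    have : 2 * ((Rr : ℝ) / ℓ) * (W * ℓ) = 2 * Rr * W := by field_simp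
    rw [this]; nlinarith
  refine ⟨⟨ψ, Θ, A ∪ B, Gcᶜ, χ, hψm, hΘm, hAm.union hBm, hGm.compl, hψb, ?_, ?_, ?_, ?_, ?_,
    hχc, hχ0, hχ1, fun x hx => hχe x fun h => hx (Or.inr h), hχs⟩⟩
  · intro x hx
    have hxA : x ∉ A := fun h => hx (Or.inl h)
    simp only [ψ, T, hj x hxA]
    by_cases hxI : x ∈ I
    · rw [hbI x hxI]
      have e1 : ((j x + 1 : ℕ) : ℤ) - (1 : ℕ) = j x := by push_cast; ring
      rw [e1]
      have h1 := hTle x
      have h2 := hC.gap (j x) (b x) (by positivity) (by have := hbR x; omega)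
      by_cases h : C (j x) - T x = 1
      · rw [indicator_of_mem (show x ∈ Θ from ⟨hxI, h⟩)]
        have h' : (C (j x) : ℝ) - T x = 1 := by exact_mod_cast h
        simp only [T] at h'
        push_cast; rw [add_div]; simp only [Pi.one_apply]; linarith
      · rw [indicator_of_notMem (show x ∉ Θ from fun h' => h h'.2)]
        have h' : C (j x) = C (j x - b x) := by simp only [T] at h h1; omega
        rw [h']; push_cast; rw [add_div]; ring
    · rw [hbI' x hxI, indicator_of_notMem (show x ∉ Θ from fun h' => hxI h'.1)]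
      have e1 : ((j x + 1 : ℕ) : ℤ) - (b x + 1 : ℕ) = j x - b x := by push_cast; ring
      rw [e1]; push_cast; rw [add_div]; ring
  · have := measureReal_union_le (μ := μX) A B
    linarith [hA.trans (min_le_left _ _)]
  · have hbm : BM ψ := ⟨hψm, 2, hψb⟩
    have hpt : ∀ x, |avg α (W * ℓ) ψ x| ≤
        (4 * (1 / W) + 3 * (Rr / ℓ)) + 2 * Gc.indicator (1 : X → ℝ) x := by
      intro x
      by_cases hx : x ∈ Gc
      · rw [indicator_of_mem hx]
        have : |avg α (W * ℓ) ψ x| ≤ 2 := by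
          unfold avg
          rw [abs_div, Nat.abs_cast, hWℓ, div_le_iff₀ hWℓ0]
          refine (Finset.abs_sum_le_sum_abs _ _).trans
            ((Finset.sum_le_card_nsmul _ _ 2 fun n _ => hψb _).trans ?_)
          simp [mul_comm]
        simp only [Pi.one_apply]
        linarith
      · rw [indicator_of_notMem hx, mul_zero, add_zero]
        have hjn : ∀ n ∈ Finset.range (W * ℓ), (j (x + n • α) : ℤ) = j x + n := by
          intro n hn
          have := Finset.mem_range.1 hn
          rw [← natCast_zsmul]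
          exact hjG x hx n (by omega) (by have : (n : ℤ) ≤ W * ℓ := by exact_mod_cast this.le
                                          omega)
        have e1 : ∑ n ∈ Finset.range (W * ℓ), ψ (x + n • α) =
            ∑ n ∈ Finset.range (W * ℓ), ((C (j x + n) : ℝ) - ((j x : ℤ) + n) / ℓ - 3 / 8) -
            ∑ n ∈ Finset.range (W * ℓ), ((C (j x + n) : ℝ) - T (x + n • α)) := by
          rw [← Finset.sum_sub_distrib]
          refine Finset.sum_congr rfl fun n hn => ?_
          have : (j (x + n • α) : ℝ) = j x + n := by exact_mod_cast hjn n hn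
          simp only [ψ, this]; push_cast; ring
        have h1 := abs_le.1 (hC.avg (j x))
        have h2 : 0 ≤ ∑ n ∈ Finset.range (W * ℓ), ((C (j x + n) : ℝ) - T (x + n • α)) :=
          Finset.sum_nonneg fun n hn => by
            have := hTle (x + n • α)
            rw [hjn n hn] at this
            exact sub_nonneg.2 (by exact_mod_cast this)
        have h3 : ∑ n ∈ Finset.range (W * ℓ), ((C (j x + n) : ℝ) - T (x + n • α)) ≤
            Rr * (W + 2) := by
          refine le_trans (Finset.sum_le_sum fun n hn => ?_) (level_delay hC hℓ0 (j x) Rr)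
          have := hTge (x + n • α)
          rw [hjn n hn] at this
          have h' : (C (j x + n - Rr) : ℝ) ≤ T (x + n • α) := by exact_mod_cast this
          linarith
        have h4 : |∑ n ∈ Finset.range (W * ℓ), ψ (x + n • α)| ≤ W + 4 * ℓ + Rr * (W + 2) := by
          rw [e1, abs_le]; constructor <;> linarith [h1.1, h1.2]
        unfold avg
        rw [abs_div, Nat.abs_cast, hWℓ]
        refine (div_le_div_of_nonneg_right h4 hWℓ0.le).trans ?_
        rw [add_div, add_div]
        have h5 : (W : ℝ) / (W * ℓ) ≤ Rr / ℓ := by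
          rw [show (W : ℝ) / (W * ℓ) = 1 / ℓ by field_simp]
          exact div_le_div_of_nonneg_right hRr hℓr.le
        have h6 : 4 * (ℓ : ℝ) / (W * ℓ) = 4 * (1 / W) := by field_simp
        linarith
    have hi := integral_mono ((hbm.avg α (W * ℓ)).abs).integrable
      ((BM.const _).add' ((BM.ind_one hGm).const_mul 2)).integrable hpt
    rw [integral_add (BM.const _).integrable ((BM.ind_one hGm).const_mul 2).integrable,
      integral_const_mul, integral_indicator_one hGm, integral_const] at hi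
    simp only [probReal_univ, smul_eq_mul, one_mul] at hi
    linarith
  · rw [compl_compl]; linarith
  · intro x hx d hd
    have hd' := abs_le.1 hd
    have hjn : ∀ n ∈ Finset.range (W * ℓ), (j (x + n • α) : ℤ) = j x + n := by
      intro n hn
      have := Finset.mem_range.1 hn
      rw [← natCast_zsmul]
      exact hjG x hx n (by omega) (by have : (n : ℤ) ≤ W * ℓ := by exact_mod_cast this.le
                                      omega)
    have hjd : (j (x + d • α) : ℤ) = j x + d :=
      hjG x hx d hd'.1 (by have : (0 : ℤ) ≤ W * ℓ := by positivity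
                           omega)
    have hjdn : ∀ n ∈ Finset.range (W * ℓ), (j (x + d • α + n • α) : ℤ) = j x + d + n := by
      intro n hn
      have := Finset.mem_range.1 hn
      rw [← natCast_zsmul, add_assoc, ← add_zsmul, add_assoc]
      exact hjG x hx _ (by omega) (by have : (n : ℤ) ≤ W * ℓ := by exact_mod_cast this.le
                                      omega)
    have h1 := hC.sep (j x) d (T (x + d • α) - T x) hd
    have h2 : (((Finset.range (W * ℓ)).filter fun n : ℕ =>
          C (j x + n + d) - C (j x + n) ≠ T (x + d • α) - T x).card : ℝ) ≤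
        ∑ n ∈ Finset.range (W * ℓ),
          (((ψ (x + d • α + n • α) - ψ (x + d • α)) - (ψ (x + n • α) - ψ x)) ^ 2 +
            ((C (j x + d + n) : ℝ) - C (j x + d + n - Rr)) +
            ((C (j x + n) : ℝ) - C (j x + n - Rr))) := by
      rw [Finset.card_filter]
      push_cast
      refine Finset.sum_le_sum fun n hn => ?_
      have a1 : (j (x + n • α) : ℝ) = j x + n := by exact_mod_cast hjn n hn
      have a2 : (j (x + d • α) : ℝ) = j x + d := by exact_mod_cast hjd
      have a3 : (j (x + d • α + n • α) : ℝ) = j x + d + n := by exact_mod_cast hjdn n hn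
      have e1 : (ψ (x + d • α + n • α) - ψ (x + d • α)) - (ψ (x + n • α) - ψ x) =
          ((T (x + d • α + n • α) - T (x + n • α) - (T (x + d • α) - T x) : ℤ) : ℝ) := by
        simp only [ψ, a1, a2, a3]; push_cast; ring
      have b1 := hTle (x + n • α)
      have b2 := hTge (x + n • α)
      have b3 := hTle (x + d • α + n • α)
      have b4 := hTge (x + d • α + n • α)
      rw [hjn n hn] at b1 b2
      rw [hjdn n hn] at b3 b4
      rw [e1, show (j x : ℤ) + n + d = j x + d + n by ring]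
      generalize T (x + d • α + n • α) = t1 at *
      generalize T (x + n • α) = t2 at *
      generalize T (x + d • α) - T x = s at *
      generalize C (j x + d + n) = c1 at *
      generalize C (j x + d + n - Rr) = c2 at *
      generalize C (j x + n) = c3 at *
      generalize C (j x + n - Rr) = c4 at *
      have key : (if c1 - c3 ≠ s then 1 else 0 : ℤ) ≤ (t1 - t2 - s) ^ 2 + (c1 - c2) + (c3 - c4) := by
        have hsq := sq_nonneg (t1 - t2 - s)
        split_ifs with h
        · by_cases h0 : t1 - t2 - s = 0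
          · omega
          · have : 0 < (t1 - t2 - s) ^ 2 := by positivity
            omega
        · omega
      exact_mod_cast key
    rw [Finset.sum_add_distrib, Finset.sum_add_distrib] at h2
    have h3 := level_delay hC hℓ0 (j x + d) Rr
    have h4 := level_delay hC hℓ0 (j x) Rr
    rw [hWℓ, le_div_iff₀ hWℓ0]
    rw [div_le_iff₀ hWℓ0] at hdel
    have h5 : 4 * (Rr / ℓ) * (W * ℓ : ℝ) ≤ e * (W * ℓ) :=
      mul_le_mul_of_nonneg_right (by linarith) hWℓ0.le
    nlinarith

/-- `0 = ∫ (ψ(x+α) - ψ x) ≥ μ(Θ \ R) - 1/ℓ - 4 μ R`. -/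
theorem Level.cut_small {α : X} {ℓ W D : ℕ} {e ε δ : ℝ} (L : Level α ℓ W D e ε δ) (hℓ : 0 < ℓ)
    (hε : ε ≤ 1 / (5 * ℓ)) : μX.real (L.Θ ∪ L.R) ≤ 2 / ℓ := by
  have hℓr : (0 : ℝ) < ℓ := by exact_mod_cast hℓ
  have hbm : BM L.ψ := ⟨L.ψ_meas, 2, L.ψ_bdd⟩
  have hpt : ∀ x, (L.Θ ∪ L.R).indicator (1 : X → ℝ) x ≤
      (L.ψ (x + α) - L.ψ x) + (1 / ℓ + 5 * L.R.indicator (1 : X → ℝ) x) := by
    intro x
    by_cases hx : x ∈ L.R
    · rw [indicator_of_mem hx, indicator_of_mem (show x ∈ L.Θ ∪ L.R from Or.inr hx)]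
      have h1 := abs_le.1 (L.ψ_bdd x)
      have h2 := abs_le.1 (L.ψ_bdd (x + α))
      have : (0 : ℝ) < 1 / ℓ := by positivity
      simp only [Pi.one_apply]
      linarith [h1.2, h2.1]
    · rw [L.step x hx, indicator_of_notMem hx]
      by_cases hx' : x ∈ L.Θ
      · rw [indicator_of_mem hx', indicator_of_mem (show x ∈ L.Θ ∪ L.R from Or.inl hx')]; simp
      · rw [indicator_of_notMem hx',
          indicator_of_notMem (show x ∉ L.Θ ∪ L.R from fun h => h.elim hx' hx)]; simp
  have h1 : BM fun x => (1 / ℓ + 5 * L.R.indicator (1 : X → ℝ) x : ℝ) :=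
    (BM.const _).add' ((BM.ind_one L.R_meas).const_mul 5)
  have hi := integral_mono (BM.ind_one (L.Θ_meas.union L.R_meas)).integrable
    (((hbm.shift α).sub' hbm).add' h1).integrable hpt
  rw [integral_add ((hbm.shift α).sub' hbm).integrable h1.integrable,
    integral_sub (hbm.shift α).integrable hbm.integrable, integral_shift,
    integral_add (BM.const _).integrable ((BM.ind_one L.R_meas).const_mul 5).integrable,
    integral_const_mul, integral_indicator_one L.R_meas,
    integral_indicator_one (L.Θ_meas.union L.R_meas), integral_const] at hi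
  simp only [probReal_univ, smul_eq_mul, one_mul] at hi
  have h2 := L.R_small.trans hε
  have h3 : (1 : ℝ) / (5 * ℓ) = 1 / ℓ / 5 := by field_simp
  have h4 : (2 : ℝ) / ℓ = 2 * (1 / ℓ) := by ring
  linarith

end Crest.Agent.R113
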