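import Crest.Agent.R113.Test
import Crest.Agent.R113.Erg

/-!
# Row 113: Theorem A (long displacements carry little mass)
See `R113/Plan.lean` for the whole proof of S0149 and `R113/Basic.lean` for the definitions.
-/

set_option autoImplicit false

open MeasureTheory Set Filter Topology
open scoped BigOperators

namespace Crest.Agent.R113

variable {α : X} {F : X → ℝ} {t : ℝ}

/-- near orthogonality of the clock hands: `slow` with `Z = ψ_j`, `ζ = ψ_k`, `m = W_j ℓ_j`,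
`avg_le`, `ψ_slow`, `sparse`. -/
theorem Tower.inner_le (S : Tower α F) {j k : ℕ} (hjk : j < k) :
    |∫ x, (S.st j).ψ x * (S.st k).ψ x ∂μX| ≤ 20 * (S.st j).e := by
  have hm : 1 ≤ (S.st j).W * (S.st j).ℓ := Nat.mul_pos (by have := (S.st j).W_ge; omega)
    (by have := (S.st j).ℓ_ge; omega)
  have h1 := R113.slow (S.st j).ψ_bm (S.st k).ψ_bm (S.st j).ψ_bdd (S.st k).ψ_bdd (S.st k).ψ_slow hm
    (S.st j).avg_le
  have h2 := S.sparse j k hjk
  have h3 := (S.st k).ℓ_pos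
  have h4 : (((S.st j).W * (S.st j).ℓ : ℕ) : ℝ) * (9 / (S.st k).ℓ) ≤ 9 * (S.st j).e := by
    rw [← mul_div_assoc, div_le_iff₀ h3]
    push_cast
    linarith
  linarith

/-- `‖∑_{j ∈ J} ψ_j‖₂² ≤ |J| (4 + 40 E)` -/
theorem Tower.sum_sq_le (S : Tower α F) (J : Finset ℕ) {E : ℝ}
    (hE : ∑ j ∈ J, (S.st j).e ≤ E) :
    ∫ x, (∑ j ∈ J, (S.st j).ψ x) ^ 2 ∂μX ≤ J.card * (4 + 40 * E) := by
  classical
  have e : ∫ x, (∑ j ∈ J, (S.st j).ψ x) ^ 2 ∂μX =
      ∑ j ∈ J, ∑ k ∈ J, ∫ x, (S.st j).ψ x * (S.st k).ψ x ∂μX := by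
    simp_rw [sq, Finset.sum_mul_sum]
    rw [integral_finsetSum _ fun j _ =>
      (BM.sum _ fun k _ => (S.st j).ψ_bm.mul' (S.st k).ψ_bm).integrable]
    exact Finset.sum_congr rfl fun j _ => integral_finsetSum _ fun k _ =>
      ((S.st j).ψ_bm.mul' (S.st k).ψ_bm).integrable
  have h1 : ∀ j k, ∫ x, (S.st j).ψ x * (S.st k).ψ x ∂μX ≤
      (if j = k then 4 else 0) + (20 * (S.st j).e + 20 * (S.st k).e) := by
    intro j k
    have hj := (S.st j).e_pos
    have hk := (S.st k).e_pos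
    rcases lt_trichotomy j k with h | rfl | h
    · rw [if_neg h.ne]
      linarith [(le_abs_self _).trans (S.inner_le h)]
    · rw [if_pos rfl]
      have := BM.abs_integral_le (g := fun x => (S.st j).ψ x * (S.st j).ψ x) (C := 4) fun x => by
        rw [abs_mul]
        nlinarith [(S.st j).ψ_bdd x, abs_nonneg ((S.st j).ψ x)]
      linarith [(le_abs_self _).trans this]
    · rw [if_neg h.ne']
      have := (le_abs_self _).trans (S.inner_le h)
      simp_rw [mul_comm ((S.st k).ψ _)] at this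
      linarith
  rw [e]
  refine (Finset.sum_le_sum fun j _ => Finset.sum_le_sum fun k _ => h1 j k).trans ?_
  have h2 : ∀ j ∈ J, ∑ k ∈ J, ((if j = k then (4 : ℝ) else 0) +
      (20 * (S.st j).e + 20 * (S.st k).e)) =
      4 + 20 * J.card * (S.st j).e + 20 * ∑ k ∈ J, (S.st k).e := by
    intro j hj
    rw [Finset.sum_add_distrib, Finset.sum_ite_eq, if_pos hj, Finset.sum_add_distrib,
      Finset.sum_const, nsmul_eq_mul, ← Finset.mul_sum]
    ring
  rw [Finset.sum_congr rfl h2, Finset.sum_add_distrib, Finset.sum_add_distrib, Finset.sum_const,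
    Finset.sum_const, nsmul_eq_mul, nsmul_eq_mul, ← Finset.mul_sum]
  have h3 : (0 : ℝ) ≤ J.card := Nat.cast_nonneg _
  nlinarith [mul_le_mul_of_nonneg_left hE h3]

/-- Sum (★) (`Stage.test` with `η = 1`, `γ = 6 c_i ≤ 6 Λ_j ≤ 6 e_j c_j` by `c_le`, `c_big`) over
`j ∈ J`; `|∫ (P g + P 0) ∑ ψ_j| ≤ 2 √(|J| (4 + 40E))`. -/
theorem Tower.shell (S : Tower α F) (T : TiltSys α F t) (J : Finset ℕ) {E : ℝ}
    (hE : ∑ j ∈ J, (S.st j).e ≤ E) (he : ∀ j ∈ J, (S.st j).e ≤ 1) {i : ℕ} (hi : ∀ j ∈ J, i < j)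
    {g : X → ℝ} (hg : BM g) (hγ : ∀ x, |g x| ≤ 6 * (S.st i).c) (Z : Set ℤ)
    (hZ : ∀ d ∈ Z, ∀ j ∈ J, ((S.st j).ℓ : ℤ) ≤ |d| ∧ |d| ≤ (S.st j).D) :
    J.card / 200 * (T.m g).real {z | z.2 ∈ Z}
      ≤ 162 * √(J.card * (4 + 40 * E)) + 1972 * E := by
  have h1 : ∀ j ∈ J, 1 / 200 * (T.m g).real {z | z.2 ∈ Z}
      ≤ 81 * (- ∫ x, T.P g x * (S.st j).ψ x ∂μX - ∫ x, T.P 0 x * (S.st j).ψ x ∂μX)
        + 1972 * (S.st j).e := by
    intro j hj
    have h2 := (S.st j).test T S.F_meas (he j hj) hg hγ zero_le_one le_rfl Z fun d hd =>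
      ⟨by rw [one_mul]; exact_mod_cast (hZ d hd j hj).1, (hZ d hd j hj).2⟩
    have hc : 0 < (S.st j).c := by linarith [(S.st j).c_ge]
    have h3 : (S.st i).c ≤ (S.st j).e * (S.st j).c := by
      have a1 := S.c_le i j (hi j hj)
      have a2 := (S.st j).c_big
      have a3 : (1 : ℝ) ≤ (S.st j).W * (S.st j).ℓ := by
        have : 1 ≤ (S.st j).W * (S.st j).ℓ := Nat.mul_pos (by have := (S.st j).W_ge; omega)
          (by have := (S.st j).ℓ_ge; omega)
        exact_mod_cast this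
      have a4 := (S.st j).Λ_nonneg
      have a5 := (S.st j).e_pos
      have a6 := he j hj
      have a7 : (S.st j).e ^ 2 * (S.st j).c ≤ (S.st j).e * (S.st j).c :=
        mul_le_mul_of_nonneg_right (by nlinarith) hc.le
      nlinarith [sq_nonneg ((S.st j).ℓ : ℝ)]
    have h4 : 162 * (6 * (S.st i).c) / (S.st j).c ≤ 972 * (S.st j).e := by
      rw [div_le_iff₀ hc]
      linarith
    linarith
  have h2 := Finset.sum_le_sum h1
  have hΨ : BM fun x => ∑ j ∈ J, (S.st j).ψ x := BM.sum _ fun j _ => (S.st j).ψ_bm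
  have h3 : ∀ u : X → ℝ, - ∑ j ∈ J, ∫ x, T.P u x * (S.st j).ψ x ∂μX ≤
      √(J.card * (4 + 40 * E)) := by
    intro u
    rw [← integral_finsetSum _ fun j _ => ((T.P_bm u).mul' (S.st j).ψ_bm).integrable]
    simp_rw [← Finset.mul_sum]
    refine (neg_le_abs _).trans (((T.P_bm u).integral_mul_le hΨ).trans ?_)
    have a1 : √(∫ x, T.P u x ^ 2 ∂μX) ≤ 1 := by
      rw [Real.sqrt_le_left zero_le_one, one_pow]
      refine (le_abs_self _).trans (BM.abs_integral_le fun x => ?_)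
      rw [abs_of_nonneg (sq_nonneg _)]
      nlinarith [T.P_nonneg u x, T.P_le_one u x]
    have a2 := Real.sqrt_le_sqrt (S.sum_sq_le J hE)
    calc _ ≤ 1 * √(J.card * (4 + 40 * E)) := mul_le_mul a1 a2 (Real.sqrt_nonneg _) zero_le_one
      _ = _ := one_mul _
  rw [Finset.sum_const, nsmul_eq_mul, Finset.sum_add_distrib, ← Finset.mul_sum, ← Finset.mul_sum,
    Finset.sum_sub_distrib, Finset.sum_neg_distrib] at h2
  linarith [h3 g, h3 0]

/-- **Theorem A.**  `{|d| > D_{4^b}} ⊆ ⋃_{b' ≥ b+2} {ℓ_{4^b'} ≤ |d| < ℓ_{4^(b'+1)}}` (`D_ge`,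
`ℓ_mono`); the shell `b'` is separated by `J = Ico (4^(b'-1)) (4^b')`, `|J| = 3·4^(b'-1)`, so its
mass is `≤ C(E) / 2^(b'-1)` with `E = ∑' e`. -/
theorem Tower.tail (S : Tower α F) (T : TiltSys α F t) {τ : ℝ} (hτ : 0 < τ) :
    ∃ b₀ : ℕ, ∀ b, b₀ ≤ b → ∀ g : X → ℝ, BM g → (∀ x, |g x| ≤ 6 * (S.st (4 ^ b)).c) →
      (T.m g).real {z | ((S.st (4 ^ b)).D : ℤ) < |z.2|} ≤ τ := by
  set E := ∑' j, (S.st j).e with hEdef
  have hE0 : 0 ≤ E := tsum_nonneg fun j => (S.st j).e_pos.le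
  have hE : ∀ J : Finset ℕ, ∑ j ∈ J, (S.st j).e ≤ E := fun J =>
    S.e_summable.sum_le_tsum J fun j _ => (S.st j).e_pos.le
  set C := 200 * (162 * √(3 * (4 + 40 * E)) + 1972 * E) with hC
  have hC0 : 0 ≤ C := by positivity
  obtain ⟨j₀, hj₀⟩ := eventually_atTop.1
    (S.e_summable.tendsto_atTop_zero.eventually (ge_mem_nhds one_pos))
  obtain ⟨b₁, hb₁⟩ := eventually_atTop.1
    (((tendsto_pow_atTop_nhds_zero_of_lt_one (r := (1 / 2 : ℝ)) (by norm_num)
      (by norm_num)).const_mul C).eventually (ge_mem_nhds (by simpa using hτ)))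
  refine ⟨max j₀ b₁, fun b hb g hg hγ => ?_⟩
  let Z : ℕ → Set ℤ := fun n => {d | ((S.st (4 ^ (n + 1))).ℓ : ℤ) ≤ |d| ∧
    |d| < (S.st (4 ^ (n + 2))).ℓ}
  have hZ : ∀ n, b < n → (T.m g).real {z | z.2 ∈ Z n} ≤ C * (1 / 2) ^ n := by
    intro n hn
    have hcard : ((Finset.Ico (4 ^ n) (4 ^ (n + 1))).card : ℝ) = 3 * (2 ^ n) ^ 2 := by
      rw [Nat.card_Ico, pow_succ, show 4 ^ n * 4 - 4 ^ n = 3 * 4 ^ n by omega, ← pow_mul,
        mul_comm n 2, pow_mul]
      push_cast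
      norm_num
    have h1 := S.shell T (Finset.Ico (4 ^ n) (4 ^ (n + 1))) (hE _) (fun j hj => hj₀ j ?_)
      (i := 4 ^ b) (fun j hj => ?_) hg hγ (Z n) fun d hd j hj => ?_
    · rw [hcard, show 3 * ((2 : ℝ) ^ n) ^ 2 * (4 + 40 * E) = (2 ^ n) ^ 2 * (3 * (4 + 40 * E)) by ring,
        Real.sqrt_mul (sq_nonneg _), Real.sqrt_sq (by positivity)] at h1
      have h2 : (1 : ℝ) ≤ 2 ^ n := one_le_pow₀ one_le_two
      have h3 : (0 : ℝ) < 2 ^ n := by positivity
      have h4 : 0 ≤ (T.m g).real {z | z.2 ∈ Z n} := measureReal_nonneg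
      rw [one_div, inv_pow, ← div_eq_mul_inv, le_div_iff₀ h3]
      refine le_of_mul_le_mul_right ?_ h3
      have h5 : E ≤ E * 2 ^ n := le_mul_of_one_le_right hE0 h2
      have h6 : 0 ≤ (T.m g).real {z | z.2 ∈ Z n} * 2 ^ n * 2 ^ n := by positivity
      rw [hC]
      nlinarith
    · have a1 : n < 4 ^ n := Nat.lt_pow_self (by norm_num)
      have a2 := (Finset.mem_Ico.1 hj).1
      have a3 := le_max_left j₀ b₁
      omega
    · exact (Nat.pow_lt_pow_right (by norm_num) hn).trans_le (Finset.mem_Ico.1 hj).1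
    · obtain ⟨a1, a2⟩ := Finset.mem_Ico.1 hj
      have a3 : (S.st j).ℓ ≤ (S.st (4 ^ (n + 1))).ℓ := S.ℓ_mono.monotone a2.le
      have a4 : (S.st (4 ^ (n + 2))).ℓ ≤ (S.st (16 * j)).ℓ := S.ℓ_mono.monotone (by
        rw [pow_add]; omega)
      have a5 := S.D_ge j
      obtain ⟨a6, a7⟩ := hd
      constructor <;> omega
  have hsub : {z : X × ℤ | ((S.st (4 ^ b)).D : ℤ) < |z.2|} ⊆
      ⋃ n : ℕ, {z | z.2 ∈ Z (n + (b + 1))} := by
    intro z hz
    have hex : ∃ n : ℕ, |z.2| < (S.st (4 ^ (n + (b + 2)))).ℓ := by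
      refine ⟨z.2.natAbs, ?_⟩
      have a1 : 4 ^ (z.2.natAbs + (b + 2)) ≤ (S.st (4 ^ (z.2.natAbs + (b + 2)))).ℓ :=
        S.ℓ_mono.le_apply
      have a2 : z.2.natAbs + (b + 2) < 4 ^ (z.2.natAbs + (b + 2)) := Nat.lt_pow_self (by norm_num)
      rw [← Int.natCast_natAbs]
      omega
    have h0 : ¬ |z.2| < (S.st (4 ^ (0 + (b + 2)))).ℓ := by
      have a1 := S.D_ge (4 ^ b)
      have a2 : ((S.st (4 ^ b)).D : ℤ) < |z.2| := hz
      rw [zero_add, pow_add, mul_comm, show 4 ^ 2 = 16 by norm_num]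
      omega
    obtain ⟨n, hn⟩ := Nat.exists_eq_succ_of_ne_zero (n := Nat.find hex) fun h => h0 (by
      have := Nat.find_spec hex
      rwa [h] at this)
    have h1 := Nat.find_spec hex
    have h2 := Nat.find_min hex (m := n) (by omega)
    rw [hn] at h1
    refine mem_iUnion.2 ⟨n, ?_, ?_⟩
    · exact not_lt.1 h2
    · rwa [show n + (b + 1) + 2 = n.succ + (b + 2) by omega]
  have hs : HasSum (fun n : ℕ => C * (1 / 2 : ℝ) ^ (n + (b + 1))) (C * (1 / 2) ^ b) := by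
    have := hasSum_geometric_two.mul_left (C * (1 / 2) ^ (b + 1))
    have e1 : (fun n : ℕ => C * (1 / 2 : ℝ) ^ (n + (b + 1))) =
        fun n : ℕ => C * (1 / 2 : ℝ) ^ (b + 1) * (1 / 2) ^ n := by
      funext n; ring
    have e2 : C * (1 / 2 : ℝ) ^ b = C * (1 / 2) ^ (b + 1) * 2 := by ring
    rw [e1, e2]
    exact this
  refine le_trans ?_ (hb₁ b ((le_max_right _ _).trans hb))
  refine ENNReal.toReal_le_of_le_ofReal (by positivity) ?_
  refine (measure_mono hsub).trans ((measure_iUnion_le _).trans ?_)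
  rw [← hs.tsum_eq, ENNReal.ofReal_tsum_of_nonneg (fun n => by positivity) hs.summable]
  refine ENNReal.tsum_le_tsum fun n => ?_
  rw [← ofReal_measureReal]
  exact ENNReal.ofReal_le_ofReal (hZ _ (by omega))

end Crest.Agent.R113
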