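import Crest.Agent.R113.Fin2
import Crest.Agent.R113.Tail

/-!
# Row 113: the analytic theorem
See `R113/Plan.lean` for the whole proof of S0149 and `R113/Basic.lean` for the definitions.
-/

set_option autoImplicit false

open MeasureTheory Set Filter Topology
open scoped BigOperators

namespace Crest.Agent.R113

/-- If `m = min t (1-t) > 0`: put `δ₀ = (m²/1000)²`, `η = δ₀/16`, `τ = δ₀/4`, choose `β` tiny,
then `b` so large that `Tower.tail`, `Tower.slow` apply at `i = 4^b` and `e_i` is tiny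
(`e_summable.tendsto_atTop_zero`); `Stage.finish` gives a contradiction. -/
theorem Tower.trivial {α : X} (hα : addOrderOf α = 0) {F : X → ℝ} (S : Tower α F) {t : ℝ}
    (T : TiltSys α F t) : t = 0 ∨ t = 1 := by
  by_contra hc
  rw [not_or] at hc
  obtain ⟨ht0, ht1⟩ := T.t_mem
  have hm0 : 0 < min t (1 - t) :=
    lt_min (lt_of_le_of_ne ht0 (Ne.symm hc.1)) (sub_pos.2 (lt_of_le_of_ne ht1 hc.2))
  have hm1 : min t (1 - t) ≤ 1 := (min_le_left _ _).trans ht1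
  obtain ⟨q, hq⟩ : ∃ q : ℝ, q = min t (1 - t) ^ 2 / 1000 := ⟨_, rfl⟩
  have hq0 : 0 < q := by rw [hq]; positivity
  have hq1 : q ≤ 1 := by rw [hq]; nlinarith
  have hqq : q ^ 2 ≤ q := by nlinarith
  obtain ⟨η, hη⟩ : ∃ η : ℝ, η = q ^ 2 / 16 := ⟨_, rfl⟩
  have hη0 : 0 < η := by rw [hη]; positivity
  have hη1 : η ≤ 1 := by rw [hη]; linarith
  have hηq : η * q ^ 2 ≤ q ^ 2 := mul_le_of_le_one_left (by positivity) hη1
  obtain ⟨i₀, hi₀⟩ := S.slow hα T (β := η * q ^ 2 / (8 * 200 * 243)) (by positivity)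
  obtain ⟨b₀, hb₀⟩ := S.tail T (τ := q ^ 2 / 4) (by positivity)
  obtain ⟨i₁, hi₁⟩ := eventually_atTop.1 (S.e_summable.tendsto_atTop_zero.eventually
    (gt_mem_nhds (show (0 : ℝ) < η * q ^ 2 / (8 * 200 * 2300) by positivity)))
  have hb : b₀ + i₀ + i₁ < 4 ^ (b₀ + i₀ + i₁) := Nat.lt_pow_self (by norm_num)
  have he := (hi₁ (4 ^ (b₀ + i₀ + i₁)) (by omega)).le
  obtain ⟨h1, h2⟩ := hi₀ (4 ^ (b₀ + i₀ + i₁)) (by omega)
  obtain ⟨δ, hδ0, hδ, hfin⟩ := (S.st (4 ^ (b₀ + i₀ + i₁))).finish T S.F_meas (by linarith) hη0 hη1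
    h1 h2 (hb₀ (b₀ + i₀ + i₁) (by omega))
  generalize (S.st (4 ^ (b₀ + i₀ + i₁))).e = e at he hδ hfin
  have h3 : 200 / η * (243 * (η * q ^ 2 / (8 * 200 * 243)) + 2300 * e) ≤ q ^ 2 / 4 := by
    calc 200 / η * (243 * (η * q ^ 2 / (8 * 200 * 243)) + 2300 * e)
        ≤ 200 / η * (243 * (η * q ^ 2 / (8 * 200 * 243)) +
            2300 * (η * q ^ 2 / (8 * 200 * 2300))) := by gcongr
      _ = q ^ 2 / 4 := by field_simp; ring
  have h4 : δ ≤ q ^ 2 := by linarith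
  have h5 : √δ ≤ q := Real.sqrt_le_iff.2 ⟨hq0.le, h4⟩
  linarith

end Crest.Agent.R113
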