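import Crest.Agent.R113.Basic

/-!
# Row 113: the crossed-product model on `L²(X × ℤ)` (helper95)
-/

set_option autoImplicit false

open MeasureTheory Set Filter Topology
open scoped BigOperators InnerProductSpace

namespace Crest.Agent.R113

abbrev Y : Type := X × ℤ

noncomputable abbrev νY : Measure Y := μX.prod Measure.count

abbrev H : Type := Lp ℂ 2 νY

/-- bounded measurable complex functions -/
structure BC {Z : Type*} [MeasurableSpace Z] (w : Z → ℂ) : Prop where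
  meas : Measurable w
  bdd : ∃ C : ℝ, ∀ z, ‖w z‖ ≤ C

namespace BC

variable {Z : Type*} [MeasurableSpace Z] {v w : Z → ℂ}

theorem const (c : ℂ) : BC (fun _ : Z => c) := ⟨measurable_const, ‖c‖, fun _ => le_rfl⟩

theorem add (hv : BC v) (hw : BC w) : BC (fun z => v z + w z) := by
  obtain ⟨C, hC⟩ := hv.bdd
  obtain ⟨D, hD⟩ := hw.bdd
  exact ⟨hv.meas.add hw.meas, C + D, fun z => (norm_add_le _ _).trans (add_le_add (hC z) (hD z))⟩

theorem sub (hv : BC v) (hw : BC w) : BC (fun z => v z - w z) := by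
  obtain ⟨C, hC⟩ := hv.bdd
  obtain ⟨D, hD⟩ := hw.bdd
  exact ⟨hv.meas.sub hw.meas, C + D, fun z => (norm_sub_le _ _).trans (add_le_add (hC z) (hD z))⟩

theorem mul (hv : BC v) (hw : BC w) : BC (fun z => v z * w z) := by
  obtain ⟨C, hC⟩ := hv.bdd
  obtain ⟨D, hD⟩ := hw.bdd
  refine ⟨hv.meas.mul hw.meas, C * D, fun z => ?_⟩
  rw [norm_mul]
  exact mul_le_mul (hC z) (hD z) (norm_nonneg _) ((norm_nonneg _).trans (hC z))

theorem conj (hv : BC v) : BC (fun z => (starRingEnd ℂ) (v z)) := by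
  obtain ⟨C, hC⟩ := hv.bdd
  exact ⟨Complex.continuous_conj.measurable.comp hv.meas, C, fun z => by simpa using hC z⟩

theorem comp {Z' : Type*} [MeasurableSpace Z'] (hv : BC v) {φ : Z' → Z} (hφ : Measurable φ) :
    BC (fun z => v (φ z)) := by
  obtain ⟨C, hC⟩ := hv.bdd
  exact ⟨hv.meas.comp hφ, C, fun z => hC _⟩

theorem ofReal {u : Z → ℝ} (hu : Measurable u) {C : ℝ} (hC : ∀ z, |u z| ≤ C) :
    BC (fun z => (u z : ℂ)) :=
  ⟨Complex.measurable_ofReal.comp hu, C, fun z => by simpa using hC z⟩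

theorem memLp_top (hv : BC v) (μ : Measure Z) : MemLp v ⊤ μ := by
  obtain ⟨C, hC⟩ := hv.bdd
  exact memLp_top_of_bound hv.meas.aestronglyMeasurable C (Eventually.of_forall hC)

end BC

theorem BM.bc {g : X → ℝ} (hg : BM g) : BC (fun x => (g x : ℂ)) := by
  obtain ⟨C, hC⟩ := hg.bdd
  exact BC.ofReal hg.meas hC

theorem BC.of_continuous {g : X → ℂ} (hg : Continuous g) : BC g := by
  obtain ⟨C, hC⟩ := (isCompact_range hg).isBounded.exists_norm_le
  exact ⟨hg.measurable, C, fun x => hC _ (mem_range_self x)⟩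

open Classical in
/-- multiplication operator (junk value `0` for unbounded `w`) -/
noncomputable def mulOp (w : Y → ℂ) : H →L[ℂ] H :=
  if h : MemLp w ⊤ νY then (ContinuousLinearMap.mul ℂ ℂ).holderL νY ⊤ 2 2 (h.toLp w) else 0

theorem mulOp_ae {w : Y → ℂ} (hw : BC w) (ξ : H) :
    (mulOp w ξ : Y → ℂ) =ᵐ[νY] fun z => w z * ξ z := by
  have h := hw.memLp_top νY
  rw [mulOp, dif_pos h, ContinuousLinearMap.holderL_apply_apply]
  filter_upwards [(ContinuousLinearMap.mul ℂ ℂ).coeFn_holder (r := 2) (h.toLp w) ξ,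
    h.coeFn_toLp] with z h1 h2
  rw [h1, h2]; rfl

theorem op_ext {a b : H →L[ℂ] H} (h : ∀ ξ, (a ξ : Y → ℂ) =ᵐ[νY] (b ξ : Y → ℂ)) : a = b := by
  ext1 ξ
  exact Lp.ext (h ξ)

theorem mulOp_mul {v w : Y → ℂ} (hv : BC v) (hw : BC w) :
    mulOp v * mulOp w = mulOp (fun z => v z * w z) := by
  refine op_ext fun ξ => ?_
  filter_upwards [mulOp_ae hv (mulOp w ξ), mulOp_ae hw ξ, mulOp_ae (hv.mul hw) ξ] with z h1 h2 h3
  rw [mul_apply_eq_comp, h1, h2, h3, mul_assoc]

theorem mulOp_add {v w : Y → ℂ} (hv : BC v) (hw : BC w) :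
    mulOp v + mulOp w = mulOp (fun z => v z + w z) := by
  refine op_ext fun ξ => ?_
  filter_upwards [mulOp_ae hv ξ, mulOp_ae hw ξ, mulOp_ae (hv.add hw) ξ,
    Lp.coeFn_add (mulOp v ξ) (mulOp w ξ)] with z h1 h2 h3 h4
  rw [add_apply, h4, Pi.add_apply, h1, h2, h3, add_mul]

theorem mulOp_sub {v w : Y → ℂ} (hv : BC v) (hw : BC w) :
    mulOp v - mulOp w = mulOp (fun z => v z - w z) := by
  refine op_ext fun ξ => ?_
  filter_upwards [mulOp_ae hv ξ, mulOp_ae hw ξ, mulOp_ae (hv.sub hw) ξ,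
    Lp.coeFn_sub (mulOp v ξ) (mulOp w ξ)] with z h1 h2 h3 h4
  rw [sub_apply, h4, Pi.sub_apply, h1, h2, h3, sub_mul]

theorem mulOp_smul (c : ℂ) {w : Y → ℂ} (hw : BC w) :
    c • mulOp w = mulOp (fun z => c * w z) := by
  refine op_ext fun ξ => ?_
  filter_upwards [mulOp_ae hw ξ, mulOp_ae ((BC.const c).mul hw) ξ,
    Lp.coeFn_smul c (mulOp w ξ)] with z h1 h2 h3
  rw [smul_apply, h3, Pi.smul_apply, h1, h2, smul_eq_mul, mul_assoc]

theorem mulOp_one : mulOp (fun _ => 1) = 1 := by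
  refine op_ext fun ξ => ?_
  filter_upwards [mulOp_ae (BC.const 1) ξ] with z h1
  rw [h1, one_mul]; rfl

theorem norm_sq_eq_integral (ξ : H) : ‖ξ‖ ^ 2 = ∫ z, ‖ξ z‖ ^ 2 ∂νY := by
  rw [@norm_sq_eq_re_inner ℂ, L2.inner_def, ← integral_re (L2.integrable_inner ξ ξ)]
  refine integral_congr_ae (Eventually.of_forall fun z => ?_)
  exact (@norm_sq_eq_re_inner ℂ _ _ _ _ (ξ z)).symm

theorem integrable_norm_sq (ξ : H) : Integrable (fun z => ‖ξ z‖ ^ 2) νY :=
  (memLp_two_iff_integrable_sq_norm (Lp.aestronglyMeasurable ξ)).mp (Lp.memLp ξ)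

/-- pointwise domination gives norm domination -/
theorem norm_le_of_ae_le {ξ η : H} (h : ∀ᵐ z ∂νY, ‖ξ z‖ ≤ ‖η z‖) : ‖ξ‖ ≤ ‖η‖ :=
  Lp.norm_le_norm_of_ae_le h

theorem norm_mulOp_apply_le {w : Y → ℂ} (hw : BC w) {C : ℝ} (hC : ∀ z, ‖w z‖ ≤ C) (ξ : H) :
    ‖mulOp w ξ‖ ≤ C * ‖ξ‖ := by
  refine Lp.norm_le_mul_norm_of_ae_le_mul ?_
  filter_upwards [mulOp_ae hw ξ] with z h1
  rw [h1, norm_mul]
  exact mul_le_mul_of_nonneg_right (hC z) (norm_nonneg _)

theorem norm_mulOp_le {w : Y → ℂ} (hw : BC w) {C : ℝ} (hC : ∀ z, ‖w z‖ ≤ C) :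
    ‖mulOp w‖ ≤ C :=
  ContinuousLinearMap.opNorm_le_bound _ ((norm_nonneg _).trans (hC 0)) (norm_mulOp_apply_le hw hC)

theorem star_mulOp {w : Y → ℂ} (hw : BC w) :
    star (mulOp w) = mulOp (fun z => (starRingEnd ℂ) (w z)) := by
  rw [ContinuousLinearMap.star_eq_adjoint, eq_comm, ContinuousLinearMap.eq_adjoint_iff]
  intro ξ η
  rw [L2.inner_def, L2.inner_def]
  refine integral_congr_ae ?_
  filter_upwards [mulOp_ae hw.conj ξ, mulOp_ae hw η] with z h1 h2
  rw [h1, h2]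
  simp only [RCLike.inner_apply, map_mul, Complex.conj_conj]
  ring

/-- composition operator -/
noncomputable def compOp (φ : Y → Y) (h : MeasurePreserving φ νY νY) : H →L[ℂ] H :=
  (Lp.compMeasurePreservingₗᵢ ℂ φ h).toContinuousLinearMap

theorem compOp_ae {φ : Y → Y} (h : MeasurePreserving φ νY νY) (ξ : H) :
    (compOp φ h ξ : Y → ℂ) =ᵐ[νY] fun z => ξ (φ z) :=
  Lp.coeFn_compMeasurePreserving ξ h

theorem norm_compOp_apply {φ : Y → Y} (h : MeasurePreserving φ νY νY) (ξ : H) :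
    ‖compOp φ h ξ‖ = ‖ξ‖ :=
  (Lp.compMeasurePreservingₗᵢ ℂ φ h).norm_map ξ

theorem inner_compOp {φ : Y → Y} (h : MeasurePreserving φ νY νY) (ξ η : H) :
    ⟪compOp φ h ξ, compOp φ h η⟫_ℂ = ⟪ξ, η⟫_ℂ :=
  (Lp.compMeasurePreservingₗᵢ ℂ φ h).inner_map_map ξ η

theorem compOp_mul {φ ψ χ : Y → Y} (hφ : MeasurePreserving φ νY νY)
    (hψ : MeasurePreserving ψ νY νY) (hχ : MeasurePreserving χ νY νY)
    (e : ∀ z, χ z = ψ (φ z)) : compOp φ hφ * compOp ψ hψ = compOp χ hχ := by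
  refine op_ext fun ξ => ?_
  filter_upwards [compOp_ae hφ (compOp ψ hψ ξ), hφ.quasiMeasurePreserving.ae (compOp_ae hψ ξ),
    compOp_ae hχ ξ] with z h1 h2 h3
  rw [mul_apply_eq_comp, h1, h2, h3, e]

theorem compOp_eq_one {φ : Y → Y} (hφ : MeasurePreserving φ νY νY) (e : ∀ z, φ z = z) :
    compOp φ hφ = 1 := by
  refine op_ext fun ξ => ?_
  filter_upwards [compOp_ae hφ ξ] with z h1
  rw [h1, e]; rfl

theorem compOp_mul_mulOp {φ : Y → Y} (hφ : MeasurePreserving φ νY νY) {w : Y → ℂ} (hw : BC w) :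
    compOp φ hφ * mulOp w = mulOp (fun z => w (φ z)) * compOp φ hφ := by
  refine op_ext fun ξ => ?_
  filter_upwards [compOp_ae hφ (mulOp w ξ), hφ.quasiMeasurePreserving.ae (mulOp_ae hw ξ),
    compOp_ae hφ ξ, mulOp_ae (hw.comp hφ.measurable) (compOp φ hφ ξ)] with z h1 h2 h3 h4
  rw [mul_apply_eq_comp, mul_apply_eq_comp, h1, h2, h4, h3]

theorem star_compOp {φ ψ : Y → Y} (hφ : MeasurePreserving φ νY νY)
    (hψ : MeasurePreserving ψ νY νY) (e : ∀ z, ψ (φ z) = z) :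
    star (compOp φ hφ) = compOp ψ hψ := by
  rw [ContinuousLinearMap.star_eq_adjoint, eq_comm, ContinuousLinearMap.eq_adjoint_iff]
  intro ξ η
  rw [← inner_compOp hφ (compOp ψ hψ ξ), ← mul_apply_eq_comp,
    compOp_mul hφ hψ (MeasurePreserving.id νY) (fun z => (e z).symm),
    compOp_eq_one (MeasurePreserving.id νY) (fun _ => rfl)]
  rfl

theorem mp_shift (a : X) (k : ℤ) :
    MeasurePreserving (fun z : Y => (z.1 + a, z.2 - k)) νY νY := by
  have h1 : MeasurePreserving (fun x : X => x + a) μX μX := measurePreserving_add_right μX a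
  have h2 : MeasurePreserving (fun d : ℤ => d - k) Measure.count Measure.count := by
    simpa [sub_eq_add_neg] using measurePreserving_add_right (Measure.count : Measure ℤ) (-k)
  exact h1.prod h2

/-- `(sh a k ξ)(x,d) = ξ (x + a, d - k)` -/
noncomputable def shOp (a : X) (k : ℤ) : H →L[ℂ] H := compOp _ (mp_shift a k)

theorem shOp_ae (a : X) (k : ℤ) (ξ : H) :
    (shOp a k ξ : Y → ℂ) =ᵐ[νY] fun z => ξ (z.1 + a, z.2 - k) := compOp_ae _ ξ

theorem shOp_mul (a b : X) (k l : ℤ) : shOp a k * shOp b l = shOp (a + b) (k + l) :=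
  compOp_mul _ _ _ fun z => by simp [add_assoc, sub_sub]

theorem shOp_zero : shOp 0 0 = 1 := compOp_eq_one _ fun z => by simp

theorem star_shOp (a : X) (k : ℤ) : star (shOp a k) = shOp (-a) (-k) :=
  star_compOp _ _ fun z => by simp

theorem norm_shOp_apply (a : X) (k : ℤ) (ξ : H) : ‖shOp a k ξ‖ = ‖ξ‖ := norm_compOp_apply _ ξ

theorem shOp_mul_mulOp (a : X) (k : ℤ) {w : Y → ℂ} (hw : BC w) :
    shOp a k * mulOp w = mulOp (fun z => w (z.1 + a, z.2 - k)) * shOp a k :=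
  compOp_mul_mulOp _ hw

/-- `U^k` -/
noncomputable def Ud (k : ℤ) : H →L[ℂ] H := shOp 0 k

/-- `ρ_U^k` -/
noncomputable def Rd (α : X) (k : ℤ) : H →L[ℂ] H := shOp (k • α) k

/-- left action of functions -/
noncomputable def lam (α : X) (g : X → ℂ) : H →L[ℂ] H := mulOp fun z => g (z.1 + z.2 • α)

/-- right action of functions -/
noncomputable def rho (g : X → ℂ) : H →L[ℂ] H := mulOp fun z => g z.1

/-- left action of real functions -/
noncomputable def lamR (α : X) (g : X → ℝ) : H →L[ℂ] H := lam α fun x => (g x : ℂ)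

theorem measurable_piL (α : X) : Measurable fun z : Y => z.1 + z.2 • α :=
  measurable_fst.add ((measurable_from_top (f := fun d : ℤ => d • α)).comp measurable_snd)

theorem BC.piL {g : X → ℂ} (hg : BC g) (α : X) : BC fun z : Y => g (z.1 + z.2 • α) :=
  hg.comp (measurable_piL α)

theorem BC.piR {g : X → ℂ} (hg : BC g) : BC fun z : Y => g z.1 := hg.comp measurable_fst

theorem BC.shift {g : X → ℂ} (hg : BC g) (a : X) : BC fun x => g (x + a) :=
  hg.comp (measurable_add_const a)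

theorem Ud_mul (k l : ℤ) : Ud k * Ud l = Ud (k + l) := by simp [Ud, shOp_mul]

theorem Ud_zero : Ud 0 = 1 := shOp_zero

theorem star_Ud (k : ℤ) : star (Ud k) = Ud (-k) := by simp [Ud, star_shOp]

theorem norm_Ud_apply (k : ℤ) (ξ : H) : ‖Ud k ξ‖ = ‖ξ‖ := norm_shOp_apply _ _ ξ

theorem norm_Ud_le (k : ℤ) : ‖Ud k‖ ≤ 1 :=
  ContinuousLinearMap.opNorm_le_bound _ zero_le_one fun ξ => by simp [norm_Ud_apply]

theorem Rd_mul (α : X) (k l : ℤ) : Rd α k * Rd α l = Rd α (k + l) := by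
  simp [Rd, shOp_mul, add_smul]

theorem Rd_zero (α : X) : Rd α 0 = 1 := by simp [Rd, shOp_zero]

theorem star_Rd (α : X) (k : ℤ) : star (Rd α k) = Rd α (-k) := by simp [Rd, star_shOp]

theorem Rd_Ud (α : X) (k l : ℤ) : Rd α k * Ud l = Ud l * Rd α k := by
  simp [Rd, Ud, shOp_mul, add_comm]

section lam

variable (α : X) {g h : X → ℂ}

theorem lam_mul (hg : BC g) (hh : BC h) : lam α g * lam α h = lam α fun x => g x * h x :=
  mulOp_mul (hg.piL α) (hh.piL α)

theorem lam_add (hg : BC g) (hh : BC h) : lam α g + lam α h = lam α fun x => g x + h x :=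
  mulOp_add (hg.piL α) (hh.piL α)

theorem lam_sub (hg : BC g) (hh : BC h) : lam α g - lam α h = lam α fun x => g x - h x :=
  mulOp_sub (hg.piL α) (hh.piL α)

theorem lam_smul (c : ℂ) (hg : BC g) : c • lam α g = lam α fun x => c * g x :=
  mulOp_smul c (hg.piL α)

theorem lam_one : lam α (fun _ => 1) = 1 := mulOp_one

theorem star_lam (hg : BC g) : star (lam α g) = lam α fun x => (starRingEnd ℂ) (g x) :=
  star_mulOp (hg.piL α)

theorem norm_lam_le (hg : BC g) {C : ℝ} (hC : ∀ x, ‖g x‖ ≤ C) : ‖lam α g‖ ≤ C :=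
  norm_mulOp_le (hg.piL α) fun _ => hC _

theorem lam_mul_Ud (hg : BC g) (k : ℤ) :
    lam α g * Ud k = Ud k * lam α fun x => g (x + k • α) := by
  rw [Ud, lam, lam, shOp_mul_mulOp _ _ ((hg.shift (k • α)).piL α)]
  congr 2
  funext z
  simp [sub_smul, add_assoc]

theorem Rd_lam (hg : BC g) (k : ℤ) : Rd α k * lam α g = lam α g * Rd α k := by
  rw [Rd, lam, shOp_mul_mulOp _ _ (hg.piL α)]
  congr 2
  funext z
  simp [sub_smul]

theorem rho_lam (hh : BC h) (hg : BC g) : rho h * lam α g = lam α g * rho h := by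
  rw [rho, lam, mulOp_mul hh.piR (hg.piL α), mulOp_mul (hg.piL α) hh.piR]
  simp only [mul_comm]

end lam

theorem rho_mul {g h : X → ℂ} (hg : BC g) (hh : BC h) : rho g * rho h = rho fun x => g x * h x :=
  mulOp_mul hg.piR hh.piR

theorem rho_one : rho (fun _ => 1) = 1 := mulOp_one

theorem star_rho {g : X → ℂ} (hg : BC g) : star (rho g) = rho fun x => (starRingEnd ℂ) (g x) :=
  star_mulOp hg.piR

theorem rho_Ud {g : X → ℂ} (hg : BC g) (k : ℤ) : rho g * Ud k = Ud k * rho g := by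
  rw [Ud, rho, shOp_mul_mulOp _ _ hg.piR]
  simp

theorem Rd_mul_rho (α : X) {g : X → ℂ} (hg : BC g) (k : ℤ) :
    Rd α k * rho g = rho (fun x => g (x + k • α)) * Rd α k :=
  shOp_mul_mulOp _ _ hg.piR

section lamR

variable (α : X) {g h : X → ℝ}

theorem lamR_mul (hg : BM g) (hh : BM h) : lamR α g * lamR α h = lamR α fun x => g x * h x := by
  simp only [lamR, lam_mul α hg.bc hh.bc, Complex.ofReal_mul]

theorem lamR_add (hg : BM g) (hh : BM h) : lamR α g + lamR α h = lamR α fun x => g x + h x := by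
  simp only [lamR, lam_add α hg.bc hh.bc, Complex.ofReal_add]

theorem lamR_sub (hg : BM g) (hh : BM h) : lamR α g - lamR α h = lamR α fun x => g x - h x := by
  simp only [lamR, lam_sub α hg.bc hh.bc, Complex.ofReal_sub]

theorem lamR_smul (c : ℝ) (hg : BM g) : (c : ℂ) • lamR α g = lamR α fun x => c * g x := by
  simp only [lamR, lam_smul α _ hg.bc, Complex.ofReal_mul]

theorem lamR_one : lamR α (fun _ => 1) = 1 := by simp only [lamR, Complex.ofReal_one, lam_one]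

theorem star_lamR (hg : BM g) : star (lamR α g) = lamR α g := by
  simp only [lamR, star_lam α hg.bc, Complex.conj_ofReal]

theorem norm_lamR_le (hg : BM g) {C : ℝ} (hC : ∀ x, |g x| ≤ C) : ‖lamR α g‖ ≤ C :=
  norm_lam_le α hg.bc fun x => by simpa using hC x

theorem lamR_mul_Ud (hg : BM g) (k : ℤ) :
    lamR α g * Ud k = Ud k * lamR α fun x => g (x + k • α) := lam_mul_Ud α hg.bc k

end lamR

/-- the von Neumann algebra: commutant of the right action -/
noncomputable def M (α : X) : StarSubalgebra ℂ (H →L[ℂ] H) :=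
  StarSubalgebra.centralizer ℂ ({a | ∃ g, BC g ∧ a = rho g} ∪ range (Rd α))

theorem mem_M_iff {α : X} {a : H →L[ℂ] H} :
    a ∈ M α ↔ (∀ g, BC g → rho g * a = a * rho g) ∧ ∀ k, Rd α k * a = a * Rd α k := by
  rw [M, StarSubalgebra.mem_centralizer_iff]
  constructor
  · intro h
    exact ⟨fun g hg => (h _ (Or.inl ⟨g, hg, rfl⟩)).1, fun k => (h _ (Or.inr ⟨k, rfl⟩)).1⟩
  · rintro ⟨h1, h2⟩ b (⟨g, hg, rfl⟩ | ⟨k, rfl⟩)
    · exact ⟨h1 g hg, by rw [star_rho hg]; exact h1 _ hg.conj⟩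
    · exact ⟨h2 k, by rw [star_Rd]; exact h2 _⟩

theorem lam_mem (α : X) {g : X → ℂ} (hg : BC g) : lam α g ∈ M α :=
  mem_M_iff.mpr ⟨fun _ hh => rho_lam α hh hg, Rd_lam α hg⟩

theorem lamR_mem (α : X) {g : X → ℝ} (hg : BM g) : lamR α g ∈ M α := lam_mem α hg.bc

theorem Ud_mem (α : X) (k : ℤ) : Ud k ∈ M α :=
  mem_M_iff.mpr ⟨fun _ hh => rho_Ud hh k, fun l => Rd_Ud α l k⟩

theorem inverse_mem_M {α : X} {a : H →L[ℂ] H} (ha : a ∈ M α) (hu : IsUnit a) :
    Ring.inverse a ∈ M α := by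
  obtain ⟨u, rfl⟩ := hu
  rw [Ring.inverse_unit]
  rw [mem_M_iff] at ha ⊢
  exact ⟨fun g hg => (Commute.units_inv_right (ha.1 g hg)).eq,
    fun k => (Commute.units_inv_right (ha.2 k)).eq⟩

/-- the trace vector `1₀` -/
noncomputable def vac : H :=
  indicatorConstLp 2 (MeasurableSet.univ.prod (measurableSet_singleton (0 : ℤ)))
    (by rw [Measure.prod_prod, measure_univ, Measure.count_singleton, one_mul]
        exact ENNReal.one_ne_top) (1 : ℂ)

theorem vac_ae : (vac : Y → ℂ) =ᵐ[νY] fun z => if z.2 = 0 then 1 else 0 := by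
  filter_upwards [indicatorConstLp_coeFn (p := 2)
    (hs := MeasurableSet.univ.prod (measurableSet_singleton (0 : ℤ)))
    (hμs := by rw [Measure.prod_prod, measure_univ, Measure.count_singleton, one_mul]
               exact ENNReal.one_ne_top) (μ := νY) (c := (1 : ℂ))] with z hz
  rw [vac, hz]
  by_cases h : z.2 = 0 <;> simp [indicator, h]

theorem lam_vac (α : X) {g : X → ℂ} (hg : BC g) : lam α g vac = rho g vac := by
  refine Lp.ext ?_
  filter_upwards [mulOp_ae (hg.piL α) vac, mulOp_ae hg.piR vac, vac_ae] with z h1 h2 h3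
  rw [lam, rho, h1, h2, h3]
  by_cases h : z.2 = 0 <;> simp [h]

theorem Ud_vac (α : X) (k : ℤ) : Ud k vac = Rd α k vac := by
  refine Lp.ext ?_
  filter_upwards [shOp_ae 0 k vac, shOp_ae (k • α) k vac,
    (mp_shift 0 k).quasiMeasurePreserving.ae vac_ae,
    (mp_shift (k • α) k).quasiMeasurePreserving.ae vac_ae] with z h1 h2 h3 h4
  rw [Ud, Rd, h1, h2, h3, h4]

/-- the slice embedding `x ↦ (x, d)` pushes `μX` to `νY` restricted to the slice -/
theorem mp_slice (d : ℤ) :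
    MeasurePreserving (fun x : X => (x, d)) μX (νY.restrict (univ ×ˢ {d})) := by
  refine ⟨measurable_prodMk_right, ?_⟩
  rw [← Measure.prod_restrict, Measure.restrict_univ, Measure.restrict_singleton,
    Measure.count_singleton, one_smul, Measure.prod_dirac]

theorem ae_slice {p : Y → Prop} (h : ∀ᵐ z ∂νY, p z) (d : ℤ) : ∀ᵐ x ∂μX, p (x, d) :=
  (mp_slice d).quasiMeasurePreserving.ae (ae_restrict_of_ae h)

theorem ae_of_slices {p : Y → Prop} (h : ∀ d, ∀ᵐ x ∂μX, p (x, d)) : ∀ᵐ z ∂νY, p z := by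
  have h1 : ∀ᵐ x ∂μX, ∀ d, p (x, d) := ae_all_iff.mpr h
  filter_upwards [Measure.quasiMeasurePreserving_fst.ae h1] with z hz
  exact hz z.2

theorem memLp_slice (ξ : H) (d : ℤ) : MemLp (fun x => ξ (x, d)) 2 μX :=
  ((Lp.memLp ξ).restrict (univ ×ˢ {d})).comp_measurePreserving (mp_slice d)

theorem measurable_slice (ξ : H) (d : ℤ) : Measurable fun x => ξ (x, d) :=
  (Lp.stronglyMeasurable ξ).measurable.comp measurable_prodMk_right

/-- integrals of functions supported on a slice -/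
theorem integral_slice {E : Type*} [NormedAddCommGroup E] [NormedSpace ℝ E] (f : Y → E) (d : ℤ)
    (hf : ∀ᵐ z ∂νY, z.2 ≠ d → f z = 0) : ∫ z, f z ∂νY = ∫ x, f (x, d) ∂μX := by
  have hm : MeasurableSet ((univ : Set X) ×ˢ ({d} : Set ℤ)) :=
    MeasurableSet.univ.prod (measurableSet_singleton d)
  rw [(mp_slice d).integral_comp (measurableEmbedding_prod_mk_right d) f,
    ← integral_indicator hm]
  refine integral_congr_ae ?_
  filter_upwards [hf] with z hz
  by_cases h : z.2 = d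
  · rw [indicator_of_mem (by simp [h])]
  · rw [indicator_of_notMem (by simp [h]), hz h]

theorem inner_vac (ξ : H) : ⟪vac, ξ⟫_ℂ = ∫ x, ξ (x, 0) ∂μX := by
  rw [L2.inner_def, integral_slice _ 0]
  · refine integral_congr_ae ?_
    filter_upwards [ae_slice vac_ae 0] with x hx
    simp [hx]
  · filter_upwards [vac_ae] with z hz h
    simp [hz, h]

theorem norm_rho_vac_sq {g : X → ℂ} (hg : BC g) : ‖rho g vac‖ ^ 2 = ∫ x, ‖g x‖ ^ 2 ∂μX := by
  rw [norm_sq_eq_integral, integral_slice _ 0]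
  · refine integral_congr_ae ?_
    filter_upwards [ae_slice vac_ae 0, ae_slice (mulOp_ae hg.piR vac) 0] with x h1 h2
    simp [rho, h1, h2]
  · filter_upwards [vac_ae, mulOp_ae hg.piR vac] with z h1 h2 h
    simp [rho, h1, h2, h]

theorem norm_lamR_vac_sq (α : X) {g : X → ℝ} (hg : BM g) :
    ‖lamR α g vac‖ ^ 2 = ∫ x, g x ^ 2 ∂μX := by
  rw [lamR, lam_vac α hg.bc, norm_rho_vac_sq hg.bc]
  simp

theorem norm_vac : ‖vac‖ = 1 := by
  have h := norm_rho_vac_sq (BC.const (1 : ℂ))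
  rw [rho_one] at h
  simp only [one_apply_eq_self, norm_one, one_pow, integral_const, probReal_univ,
    smul_eq_mul, mul_one] at h
  exact (pow_eq_one_iff_of_nonneg (norm_nonneg _) two_ne_zero).mp h

end Crest.Agent.R113
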