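import Mathlib
import Crest.Prelude.Def_ProductShift

/-! Row 113, S0151: covariant monomials on `pairSpace` and the vacuum trace (helper92). -/

set_option autoImplicit false

namespace Crest.Agent.R113.PS

open Crest.AnalysisR.ProductShift MeasureTheory Filter Topology

abbrev Om := ℕ → ℝ
abbrev Op := pairSpace →L[ℂ] pairSpace

theorem orb_orb (θ : ℕ → ℝ) (j k : ℤ) (x : Om) :
    orbitPoint θ j (orbitPoint θ k x) = orbitPoint θ (j + k) x := by
  funext i
  simp only [orbitPoint]
  have : Int.fract (x i + k * θ i) + j * θ i =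
      x i + ((j + k : ℤ) : ℝ) * θ i - (⌊x i + k * θ i⌋ : ℤ) := by
    rw [Int.fract]; push_cast; ring
  rw [this, Int.fract_sub_intCast]

theorem meas_orb (θ : ℕ → ℝ) (k : ℤ) : Measurable (orbitPoint θ k) :=
  measurable_pi_lambda _ fun i => measurable_fract.comp ((measurable_pi_apply i).add_const _)

theorem meas_orb2 (θ : ℕ → ℝ) : Measurable (fun p : Om × ℤ => orbitPoint θ p.2 p.1) :=
  measurable_from_prod_countable_left fun k => meas_orb θ k

theorem map_fract (a : ℝ) : unitLebesgue.map (fun t => Int.fract (t + a)) = unitLebesgue := by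
  have hm : Measurable fun t : ℝ => Int.fract (t + a) := measurable_fract.comp (measurable_add_const a)
  ext s hs
  rw [← lintegral_indicator_one hs, ← lintegral_indicator_one hs,
    lintegral_map (measurable_one.indicator hs) hm]
  set g : ℝ → ENNReal := fun t => s.indicator 1 (Int.fract t) with hg
  have per : ∀ (u : AddSubgroup.zmultiples (1 : ℝ)) (x : ℝ), g (u +ᵥ x) = g x := by
    rintro ⟨_, n, rfl⟩ x
    simp only [hg]
    congr 1
    change Int.fract (n • (1 : ℝ) + x) = _
    simp
  have e1 := (isAddFundamentalDomain_Ioc one_pos a).setLIntegral_eq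
    (isAddFundamentalDomain_Ioc one_pos 0) g per
  have e2 : ∫⁻ t in Set.Ioc (0 : ℝ) 1, g (t + a) = ∫⁻ t in Set.Ioc a (a + 1), g t := by
    rw [← (measurePreserving_add_right volume a).setLIntegral_comp_preimage_emb
      (measurableEmbedding_addRight a) g (Set.Ioc a (a + 1))]
    congr 2
    ext t; simp [add_comm]
  unfold unitLebesgue
  rw [Measure.restrict_congr_set Ico_ae_eq_Ioc] 
  change ∫⁻ t in Set.Ioc (0 : ℝ) 1, g (t + a) = _
  rw [e2, e1, zero_add, ← Measure.restrict_congr_set Ico_ae_eq_Ioc]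
  refine setLIntegral_congr_fun measurableSet_Ico fun t ht => ?_
  simp only [hg]
  rw [Int.fract_eq_self.mpr ht]

theorem mp_orb (θ : ℕ → ℝ) (k : ℤ) : MeasurePreserving (orbitPoint θ k) cubeMeasure cubeMeasure := by
  refine ⟨meas_orb θ k, ?_⟩
  have := Measure.infinitePi_map_pi (fun _ : ℕ => unitLebesgue)
    (f := fun i t => Int.fract (t + (k : ℝ) * θ i))
    (fun i => measurable_fract.comp (measurable_add_const _))
  simp only [map_fract] at this
  exact this

def sh (d : ℤ) (p : Om × ℤ) : Om × ℤ := (p.1, p.2 - d)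

theorem mp_sh (d : ℤ) : MeasurePreserving (sh d) pairMeasure pairMeasure :=
  (MeasurePreserving.id cubeMeasure).prod (measurePreserving_sub_right Measure.count d)

theorem emb_sh (d : ℤ) : MeasurableEmbedding (sh d) :=
  MeasurableEmbedding.id.prodMap (measurableEmbedding_subRight d)

/-- `A` is the covariant monomial with symbol `G` and degree `d` -/
def Acts (θ : ℕ → ℝ) (A : Op) (G : Om → ℂ) (d : ℤ) : Prop :=
  ∀ f : pairSpace, (A f : Om × ℤ → ℂ) =ᵐ[pairMeasure]
    fun p => G (orbitPoint θ p.2 p.1) * (f : Om × ℤ → ℂ) (sh d p)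

variable {θ : ℕ → ℝ} {A B : Op} {G H : Om → ℂ} {d e : ℤ}

theorem Acts.congr (h : Acts θ A G d) (hG : ∀ k x, G (orbitPoint θ k x) = H (orbitPoint θ k x)) :
    Acts θ A H d := fun f => by
  simpa only [hG] using h f

theorem acts_one : Acts θ 1 (fun _ => 1) 0 := fun f => by
  simp [sh]

theorem Acts.mul (hA : Acts θ A G d) (hB : Acts θ B H e) :
    Acts θ (A * B) (fun y => G y * H (orbitPoint θ (-d) y)) (d + e) := fun f => by
  filter_upwards [hA (B f), (mp_sh d).quasiMeasurePreserving.ae_eq_comp (hB f)] with p h1 h2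
  change (A (B f) : Om × ℤ → ℂ) p = _
  rw [h1]
  simp only [Function.comp] at h2
  rw [h2, orb_orb, mul_assoc]
  simp only [sh]
  rw [show -d + p.2 = p.2 - d by ring, show p.2 - d - e = p.2 - (d + e) by ring]

theorem Acts.add (hA : Acts θ A G d) (hB : Acts θ B H d) :
    Acts θ (A + B) (fun y => G y + H y) d := fun f => by
  filter_upwards [hA f, hB f, Lp.coeFn_add (A f) (B f)] with p h1 h2 h3
  change ((A f + B f : pairSpace) : Om × ℤ → ℂ) p = _
  rw [h3, Pi.add_apply, h1, h2, add_mul]

theorem Acts.smul (hA : Acts θ A G d) (c : ℂ) : Acts θ (c • A) (fun y => c * G y) d := fun f => by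
  filter_upwards [hA f, Lp.coeFn_smul c (A f)] with p h1 h3
  change ((c • A f : pairSpace) : Om × ℤ → ℂ) p = _
  rw [h3, Pi.smul_apply, h1, smul_eq_mul, mul_assoc]

theorem Acts.pow0 (hA : Acts θ A G 0) (n : ℕ) : Acts θ (A ^ n) (fun y => G y ^ n) 0 := by
  induction n with
  | zero => simpa using acts_one
  | succ n ih =>
    rw [pow_succ]
    exact (ih.mul hA).congr fun k x => by simp [orb_orb, pow_succ]

theorem Acts.norm_le (hA : Acts θ A G d) {C : ℝ} (hC : 0 ≤ C)
    (h : ∀ k x, ‖G (orbitPoint θ k x)‖ ≤ C) : ‖A‖ ≤ C := by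
  refine ContinuousLinearMap.opNorm_le_bound _ hC fun f => ?_
  rw [← Lp.norm_compMeasurePreserving f (mp_sh d)]
  refine Lp.norm_le_mul_norm_of_ae_le_mul ?_
  filter_upwards [hA f, Lp.coeFn_compMeasurePreserving f (mp_sh d)] with p h1 h2
  rw [h1, h2, norm_mul]
  exact mul_le_mul_of_nonneg_right (h _ _) (norm_nonneg _)

theorem Acts.star (hA : Acts θ A G d) (hG : Measurable G) {C : ℝ} (h : ∀ y, ‖G y‖ ≤ C) :
    Acts θ (star A) (fun y => (starRingEnd ℂ) (G (orbitPoint θ d y))) (-d) := fun f => by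
  have hf : MemLp ((f : Om × ℤ → ℂ) ∘ sh (-d)) 2 pairMeasure :=
    (Lp.memLp f).comp_measurePreserving (mp_sh (-d))
  have hm : Measurable fun p : Om × ℤ => (starRingEnd ℂ) (G (orbitPoint θ d (orbitPoint θ p.2 p.1))) :=
    Complex.continuous_conj.measurable.comp (hG.comp ((meas_orb θ d).comp (meas_orb2 θ)))
  have hh : MemLp (fun p : Om × ℤ => (starRingEnd ℂ) (G (orbitPoint θ d (orbitPoint θ p.2 p.1))) *
      (f : Om × ℤ → ℂ) (sh (-d) p)) 2 pairMeasure := by
    refine MemLp.of_le_mul (c := C) hf (hm.aestronglyMeasurable.mul hf.1) (ae_of_all _ fun p => ?_)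
    rw [norm_mul, Complex.norm_conj]
    exact mul_le_mul_of_nonneg_right (h _) (norm_nonneg _)
  have key : (Star.star A) f = hh.toLp _ := by
    refine ext_inner_right ℂ fun g => ?_
    rw [ContinuousLinearMap.star_eq_adjoint, ContinuousLinearMap.adjoint_inner_left, L2.inner_def,
      L2.inner_def, ← (mp_sh d).integral_comp (emb_sh d)
        (fun p => inner ℂ ((hh.toLp _ : pairSpace) p) ((g : Om × ℤ → ℂ) p))]
    refine integral_congr_ae ?_
    filter_upwards [hA g, (mp_sh d).quasiMeasurePreserving.ae_eq_comp hh.coeFn_toLp] with p h1 h2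
    simp only [Function.comp] at h2
    rw [h1, h2, orb_orb]
    simp only [sh, RCLike.inner_apply, map_mul, Complex.conj_conj]
    rw [show d + (p.2 - d) = p.2 by ring, show p.2 - d - -d = p.2 by ring]
    ring
  rw [key]
  exact hh.coeFn_toLp

/-- the vacuum state -/
noncomputable def tau : Op →L[ℂ] ℂ :=
  (innerSL ℂ vacuumVector).comp (ContinuousLinearMap.apply ℂ pairSpace vacuumVector)

theorem tau_apply (A : Op) : tau A = inner ℂ vacuumVector (A vacuumVector) := rfl

theorem Acts.tau_eq (hA : Acts θ A G d) :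
    tau A = if d = 0 then ∫ x, G (orbitPoint θ 0 x) ∂cubeMeasure else 0 := by
  have hv : (vacuumVector : Om × ℤ → ℂ) =ᵐ[pairMeasure]
      (Set.univ ×ˢ {(0 : ℤ)} : Set (Om × ℤ)).indicator fun _ => (1 : ℂ) := indicatorConstLp_coeFn
  have e1 : tau A = ∫ p in (Set.univ ×ˢ {(0 : ℤ)} : Set (Om × ℤ)), (A vacuumVector : Om × ℤ → ℂ) p
      ∂pairMeasure := L2.inner_indicatorConstLp_one _ _ _
  have e2 : (A vacuumVector : Om × ℤ → ℂ) =ᵐ[pairMeasure] fun p => G (orbitPoint θ p.2 p.1) *
      (Set.univ ×ˢ {(0 : ℤ)} : Set (Om × ℤ)).indicator (fun _ => (1 : ℂ)) (sh d p) := by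
    filter_upwards [hA vacuumVector, (mp_sh d).quasiMeasurePreserving.ae_eq_comp hv] with p h1 h2
    simp only [Function.comp] at h2
    rw [h1, h2]
  rw [e1, integral_congr_ae (ae_restrict_of_ae e2), pairMeasure, ← Measure.prod_restrict,
    Measure.restrict_univ, Measure.restrict_singleton, Measure.count_singleton, one_smul,
    Measure.prod_dirac, (measurableEmbedding_prod_mk_right (0 : ℤ)).integral_map]
  split_ifs with hd
  · subst hd; simp [sh]
  · simp [sh, Set.indicator, hd]

theorem tau_one : tau 1 = 1 := by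
  rw [(acts_one (θ := fun _ => 0)).tau_eq]; simp

/-- covariant monomials -/
def Mono (θ : ℕ → ℝ) : Submonoid Op where
  carrier := {A | ∃ G d, Measurable G ∧ Acts θ A G d}
  one_mem' := ⟨_, _, measurable_const, acts_one⟩
  mul_mem' := by
    rintro A B ⟨G, d, hG, hA⟩ ⟨H, e, hH, hB⟩
    exact ⟨_, _, hG.mul (hH.comp (meas_orb θ _)), hA.mul hB⟩

theorem tau_comm_mono (hA : A ∈ Mono θ) (hB : B ∈ Mono θ) : tau (A * B) = tau (B * A) := by
  obtain ⟨G, d, hG, hA⟩ := hA
  obtain ⟨H, e, hH, hB⟩ := hB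
  rw [(hA.mul hB).tau_eq, (hB.mul hA).tau_eq, add_comm e d]
  split_ifs with h
  · have he : e = -d := by omega
    subst he
    have hm : Measurable fun x => G (orbitPoint θ 0 x) * H (orbitPoint θ (-d) (orbitPoint θ 0 x)) :=
      (hG.comp (meas_orb θ 0)).mul (hH.comp ((meas_orb θ _).comp (meas_orb θ 0)))
    have := integral_map (μ := cubeMeasure) (meas_orb θ d).aemeasurable hm.aestronglyMeasurable
    rw [(mp_orb θ d).map_eq] at this
    rw [this]
    simp [orb_orb, mul_comm]
  · rfl

noncomputable def Alg (θ : ℕ → ℝ) : Subalgebra ℂ Op :=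
  (Algebra.adjoin ℂ (Mono θ : Set Op)).topologicalClosure

theorem mono_mem (hA : A ∈ Mono θ) : A ∈ Alg θ :=
  Subalgebra.le_topologicalClosure _ (Algebra.subset_adjoin hA)

theorem alg_closed : IsClosed (Alg θ : Set Op) := Subalgebra.isClosed_topologicalClosure _

theorem alg_induct (a : Op) (h : ∀ b ∈ Mono θ, tau (a * b) = tau (b * a)) :
    ∀ b ∈ Alg θ, tau (a * b) = tau (b * a) := by
  have hc : IsClosed {b : Op | tau (a * b) = tau (b * a)} :=
    isClosed_eq (by fun_prop) (by fun_prop)
  refine fun b hb => closure_minimal (fun b hb => ?_) hc hb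
  have hb' : b ∈ Submodule.span ℂ (Submonoid.closure (Mono θ : Set Op) : Set Op) := by
    rw [← Algebra.adjoin_eq_span]; exact hb
  rw [Submonoid.closure_eq] at hb'
  induction hb' using Submodule.span_induction with
  | mem x hx => exact h x hx
  | zero => simp
  | add x y hx hy ihx ihy =>
    have hx' : x ∈ Algebra.adjoin ℂ (Mono θ : Set Op) := by
      rw [← Subalgebra.mem_toSubmodule, Algebra.adjoin_eq_span, Submonoid.closure_eq]; exact hx
    have hy' : y ∈ Algebra.adjoin ℂ (Mono θ : Set Op) := by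
      rw [← Subalgebra.mem_toSubmodule, Algebra.adjoin_eq_span, Submonoid.closure_eq]; exact hy
    have h1 : tau (a * x) = tau (x * a) := ihx hx'
    have h2 : tau (a * y) = tau (y * a) := ihy hy'
    change tau (a * (x + y)) = tau ((x + y) * a)
    rw [mul_add, add_mul, map_add, map_add, h1, h2]
  | smul c x hx ih =>
    have hx' : x ∈ Algebra.adjoin ℂ (Mono θ : Set Op) := by
      rw [← Subalgebra.mem_toSubmodule, Algebra.adjoin_eq_span, Submonoid.closure_eq]; exact hx
    have h1 : tau (a * x) = tau (x * a) := ih hx'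
    change tau (a * (c • x)) = tau ((c • x) * a)
    rw [mul_smul_comm, smul_mul_assoc, map_smul, map_smul, h1]

theorem tau_comm : ∀ a ∈ Alg θ, ∀ b ∈ Alg θ, tau (a * b) = tau (b * a) := fun a ha =>
  alg_induct a fun b hb => (alg_induct b (fun _ hc => tau_comm_mono hb hc) a ha).symm

end Crest.Agent.R113.PS
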