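import Crest.Agent.R113.PSLog
import Crest.Prelude.Def_ProductShift

/-! Row 113, S0151: vector-state versions on a general Hilbert space (helper92). -/

set_option autoImplicit false

namespace Crest.Agent.R113.PS

open Crest.AnalysisR.ProductShift Filter Topology

variable {H : Type*} [NormedAddCommGroup H] [InnerProductSpace ℂ H] [CompleteSpace H]

/-- vector state -/
noncomputable def st (ξ : H) : (H →L[ℂ] H) →L[ℂ] ℂ :=
  (innerSL ℂ ξ).comp (ContinuousLinearMap.apply ℂ H ξ)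

noncomputable def vl (ξ : H) (A : H →L[ℂ] H) (ε : ℝ) : ℝ :=
  (st ξ (cfc Real.log (star A * A + (ε : ℂ) • (1 : H →L[ℂ] H)))).re

theorem vectorDet_eq (ξ : H) (A : H →L[ℂ] H) :
    vectorDet ξ A = ⨅ ε : {r : ℝ // 0 < r}, Real.exp (vl ξ A ε / 2) := rfl

theorem alg_real (r : ℝ) : algebraMap ℝ (H →L[ℂ] H) r = (r : ℂ) • (1 : H →L[ℂ] H) := by
  rw [Algebra.algebraMap_eq_smul_one, Complex.coe_smul]

theorem st_alg {ξ : H} (h : st ξ 1 = 1) (r : ℝ) : st ξ (algebraMap ℝ (H →L[ℂ] H) r) = r := by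
  rw [alg_real, map_smul, h, smul_eq_mul, mul_one]

theorem gen_ne {ξ : H} (h : st ξ 1 = 1) (S : Subalgebra ℂ (H →L[ℂ] H))
    (hS : IsClosed (S : Set (H →L[ℂ] H)))
    (htr : ∀ a ∈ S, ∀ b ∈ S, st ξ (a * b) = st ξ (b * a)) (T : H →L[ℂ] H) {z : ℂ} (hz : z ≠ 0)
    (hT : z⁻¹ • T ∈ S) (hT' : star (z⁻¹ • T) ∈ S)
    (h0 : ∀ n, st ξ ((z⁻¹ • T) ^ (n + 1)) = 0) (h0' : ∀ n, st ξ (star (z⁻¹ • T) ^ (n + 1)) = 0)
    (hq : Summable fun n => 2 ^ n * ‖(z⁻¹ • T) ^ n‖) :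
    vectorDet ξ (T - z • 1) = ‖z‖ := by
  have z0 : 0 < ‖z‖ := norm_pos_iff.mpr hz
  obtain ⟨h1, m, hm, h2⟩ := log_det (st ξ) S hS htr (z⁻¹ • T) hT hT' h0 h0' hq
  set Q := star (1 - z⁻¹ • T) * (1 - z⁻¹ • T) with hQ
  have Qsa : IsSelfAdjoint Q := IsSelfAdjoint.star_mul_self _
  have e1 : T - z • 1 = (-z) • (1 - z⁻¹ • T) := by
    rw [smul_sub, smul_smul, neg_mul, mul_inv_cancel₀ hz]; simp; abel
  have e2 : star (T - z • 1) * (T - z • 1) = (‖z‖ ^ 2) • Q := by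
    rw [e1, star_smul, smul_mul_smul_comm, ← hQ, ← Complex.coe_smul]
    congr 1
    simp only [star_neg, neg_mul_neg, RCLike.star_def]
    rw [mul_comm, Complex.mul_conj, Complex.normSq_eq_norm_sq]
  have e3 := CFC.log_smul (r := ‖z‖ ^ 2) Q (fun x hx => (hm.trans_le (spec_pos Qsa h2 x hx)).ne')
    (by positivity) Qsa
  unfold CFC.log at e3
  have lo : algebraMap ℝ (H →L[ℂ] H) (‖z‖ ^ 2 * m) ≤ (‖z‖ ^ 2) • Q := by
    have := smul_le_smul_of_nonneg_left h2 (sq_nonneg ‖z‖)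
    rwa [Algebra.algebraMap_eq_smul_one, smul_smul, ← Algebra.algebraMap_eq_smul_one] at this
  have e4 : (st ξ (cfc Real.log ((‖z‖ ^ 2) • Q))).re = 2 * Real.log ‖z‖ := by
    rw [e3, map_add, h1, st_alg h]; simp
  set K := ‖st ξ‖ / (‖z‖ ^ 2 * m) with hK
  have key : ∀ ε : ℝ, 0 < ε → 2 * Real.log ‖z‖ ≤ vl ξ (T - z • 1) ε ∧
      vl ξ (T - z • 1) ε ≤ 2 * Real.log ‖z‖ + K * ε := fun ε hε => by
    obtain ⟨a1, a2⟩ := log_reg ((IsSelfAdjoint.all (‖z‖ ^ 2)).smul Qsa) (by positivity) hε lo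
    unfold vl
    rw [e2, ← alg_real]
    have b1 : 0 ≤ (st ξ (cfc Real.log (‖z‖ ^ 2 • Q + algebraMap ℝ (H →L[ℂ] H) ε) -
        cfc Real.log (‖z‖ ^ 2 • Q))).re :=
      ((ContinuousLinearMap.nonneg_iff_isPositive _).mp a1).re_inner_nonneg_right ξ
    have b2 := (Complex.re_le_norm _).trans (((st ξ).le_opNorm _).trans
      (mul_le_mul_of_nonneg_left a2 (norm_nonneg (st ξ))))
    rw [map_sub, Complex.sub_re, e4] at b1 b2
    refine ⟨by linarith, ?_⟩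
    have : K * ε = ‖st ξ‖ * (ε / (‖z‖ ^ 2 * m)) := by rw [hK]; ring
    linarith
  rw [vectorDet_eq]
  have : Nonempty {r : ℝ // 0 < r} := ⟨⟨1, one_pos⟩⟩
  have low : ∀ ε : {r : ℝ // 0 < r}, ‖z‖ ≤ Real.exp (vl ξ (T - z • 1) ε / 2) := fun ε => by
    rw [← Real.log_le_iff_le_exp z0]; linarith [(key ε ε.2).1]
  refine le_antisymm ?_ (le_ciInf low)
  have lim : Tendsto (fun ε : ℝ => Real.exp ((2 * Real.log ‖z‖ + K * ε) / 2)) (𝓝[>] 0) (𝓝 ‖z‖) := by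
    have : Continuous fun ε : ℝ => Real.exp ((2 * Real.log ‖z‖ + K * ε) / 2) := by fun_prop
    have := (this.tendsto 0).mono_left (nhdsWithin_le_nhds (s := Set.Ioi 0))
    rwa [mul_zero, add_zero, mul_div_cancel_left₀ _ two_ne_zero, Real.exp_log z0] at this
  refine ge_of_tendsto lim (eventually_nhdsWithin_of_forall fun ε hε => ?_)
  refine (ciInf_le ⟨‖z‖, by rintro _ ⟨ε, rfl⟩; exact low ε⟩ ⟨ε, hε⟩).trans ?_
  exact Real.exp_le_exp.mpr (by linarith [(key ε hε).2])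

theorem gen_zero {ξ : H} (T : H →L[ℂ] H) (h : ∀ L : ℝ, ∃ ε : ℝ, 0 < ε ∧ vl ξ T ε ≤ 1 - 2 * L) :
    vectorDet ξ T = 0 := by
  rw [vectorDet_eq]
  have : Nonempty {r : ℝ // 0 < r} := ⟨⟨1, one_pos⟩⟩
  refine le_antisymm (le_of_forall_pos_le_add fun δ hδ => ?_) (le_ciInf fun ε => (Real.exp_pos _).le)
  obtain ⟨ε, hε, h1⟩ := h (1 / 2 - Real.log δ)
  refine (ciInf_le ⟨0, by rintro _ ⟨ε, rfl⟩; exact (Real.exp_pos _).le⟩ ⟨ε, hε⟩).trans ?_
  rw [zero_add, ← Real.le_log_iff_exp_le hδ]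
  linarith

theorem gen_series {ξ : H} (h : st ξ 1 = 1) (T : H →L[ℂ] H) {ε M : ℝ} (hε : 0 < ε)
    (hM : ‖T‖ ^ 2 + ε ≤ M) :
    HasSum (fun n : ℕ => (n + 1 : ℝ)⁻¹ * (st ξ ((1 + (-(M⁻¹ : ℝ) : ℂ) •
      (star T * T + (ε : ℂ) • (1 : H →L[ℂ] H))) ^ (n + 1))).re) (Real.log M - vl ξ T ε) := by
  have Psa : IsSelfAdjoint (star T * T + (ε : ℂ) • (1 : H →L[ℂ] H)) := by
    rw [← alg_real]
    exact (IsSelfAdjoint.star_mul_self _).add (IsSelfAdjoint.algebraMap _ (IsSelfAdjoint.all _))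
  have lo : algebraMap ℝ (H →L[ℂ] H) ε ≤ star T * T + (ε : ℂ) • 1 := by
    rw [← alg_real]; exact le_add_of_nonneg_left (star_mul_self_nonneg T)
  have hi : star T * T + (ε : ℂ) • 1 ≤ algebraMap ℝ (H →L[ℂ] H) M := by
    rw [← alg_real]
    refine (add_le_add_left CStarAlgebra.star_mul_le_algebraMap_norm_sq _).trans ?_
    rw [← map_add, Algebra.algebraMap_eq_smul_one, Algebra.algebraMap_eq_smul_one]
    exact smul_le_smul_of_nonneg_right hM zero_le_one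
  have ser := Complex.hasSum_re
    ((log_series' Psa hε (by nlinarith [sq_nonneg ‖T‖]) lo hi).mapL (st ξ))
  rw [map_sub, st_alg h, Complex.sub_re, Complex.ofReal_re] at ser
  refine HasSum.congr_fun ser fun n => ?_
  rw [(st ξ).map_smul_of_tower, Complex.smul_re, smul_eq_mul, neg_smul, Complex.coe_smul,
    ← sub_eq_add_neg]

end Crest.Agent.R113.PS
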