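import Mathlib

/-! Row 113, S0151: logarithmic determinants for a tracial functional (helper92). -/

set_option autoImplicit false

namespace Crest.Agent.R113.PS

open Filter Topology

variable {A : Type*} [CStarAlgebra A]

theorem log_series (X : A) (hX : IsSelfAdjoint X) (h : ‖X‖ < 1) :
    HasSum (fun n : ℕ => ((n + 1 : ℝ)⁻¹) • X ^ (n + 1)) (-cfc Real.log (1 - X)) := by
  rcases subsingleton_or_nontrivial A with hA | hA
  · convert hasSum_zero (α := A) (β := ℕ) using 1 <;> exact Subsingleton.elim _ _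
  have r0 := norm_nonneg X
  have hsp : ∀ x ∈ spectrum ℝ X, |x| ≤ ‖X‖ := fun x hx => spectrum.norm_le_norm_of_mem hx
  have hsum : Summable (fun n : ℕ => ((n + 1 : ℝ)⁻¹) • X ^ (n + 1)) := by
    refine Summable.of_norm_bounded (g := fun n => ‖X‖ ^ n) (summable_geometric_of_lt_one r0 h) ?_
    intro n
    rw [norm_smul]
    have h1 : ‖((n + 1 : ℝ)⁻¹)‖ ≤ 1 := by
      rw [Real.norm_eq_abs, abs_of_pos (by positivity)]
      exact inv_le_one_of_one_le₀ (by linarith [Nat.cast_nonneg (α := ℝ) n])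
    have h2 : ‖X ^ (n + 1)‖ ≤ ‖X‖ ^ n :=
      (norm_pow_le X _).trans (pow_le_pow_of_le_one r0 h.le (Nat.le_succ n))
    calc _ ≤ 1 * ‖X‖ ^ n := mul_le_mul h1 h2 (norm_nonneg _) zero_le_one
      _ = _ := one_mul _
  rw [hsum.hasSum_iff_tendsto_nat]
  have hc : ContinuousOn (fun x : ℝ => Real.log (1 - x)) (spectrum ℝ X) := by
    refine ContinuousOn.log (by fun_prop) fun x hx => ?_
    have := (abs_le.mp (hsp x hx)).2
    linarith
  have e1 : cfc Real.log (1 - X) = cfc (fun x : ℝ => Real.log (1 - x)) X := by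
    have : 1 - X = cfc (fun x : ℝ => 1 - x) X := by
      rw [cfc_sub (fun _ => (1 : ℝ)) (fun x => x) X, cfc_id' ℝ X, cfc_const_one ℝ X]
    rw [this]
    refine (cfc_comp' Real.log (fun x : ℝ => 1 - x) X (Real.continuousOn_log.mono ?_)).symm
    rintro _ ⟨x, hx, rfl⟩
    have := (abs_le.mp (hsp x hx)).2
    simp only [Set.mem_compl_iff, Set.mem_singleton_iff]
    linarith
  have e2 : ∀ n : ℕ, ∑ i ∈ Finset.range n, ((i + 1 : ℝ)⁻¹) • X ^ (i + 1) =
      cfc (fun x : ℝ => ∑ i ∈ Finset.range n, x ^ (i + 1) / (i + 1)) X := by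
    intro n
    induction n with
    | zero => simp
    | succ n ih =>
      simp only [Finset.sum_range_succ]
      rw [cfc_add _ _ _ (by fun_prop) (by fun_prop), ih]
      congr 1
      rw [← cfc_pow_id (R := ℝ) X (n + 1), ← cfc_const_mul _ (fun x : ℝ => x ^ (n + 1)) X]
      congr 1; funext x; ring
  rw [tendsto_iff_norm_sub_tendsto_zero]
  have lim : Tendsto (fun n : ℕ => ‖X‖ ^ (n + 1) / (1 - ‖X‖)) atTop (𝓝 0) := by
    have := ((tendsto_pow_atTop_nhds_zero_of_lt_one r0 h).comp (tendsto_add_atTop_nat 1)).div_const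
      (1 - ‖X‖)
    simpa using this
  refine squeeze_zero (fun n => norm_nonneg _) (fun n => ?_) lim
  rw [e2, e1, sub_neg_eq_add, ← cfc_add _ _ _ (by fun_prop) hc]
  refine norm_cfc_le (div_nonneg (by positivity) (by linarith)) fun x hx => ?_
  have hx1 := hsp x hx
  refine (Real.abs_log_sub_add_sum_range_le (hx1.trans_lt h) n).trans ?_
  gcongr

/-- derivative of powers along a path -/
def dp (X Y : A) : ℕ → A
  | 0 => 0
  | n + 1 => dp X Y n * X + X ^ n * Y

theorem hasDerivAt_pow {X : ℝ → A} {Y : A} {s : ℝ} (h : HasDerivAt X Y s) (n : ℕ) :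
    HasDerivAt (fun t => X t ^ n) (dp (X s) Y n) s := by
  induction n with
  | zero => simpa [dp] using hasDerivAt_const s (1 : A)
  | succ n ih =>
    simp only [pow_succ, dp]
    exact ih.mul h

theorem dp_mem (S : Subalgebra ℂ A) {X Y : A} (hX : X ∈ S) (hY : Y ∈ S) (n : ℕ) : dp X Y n ∈ S := by
  induction n with
  | zero => exact S.zero_mem
  | succ n ih => exact S.add_mem (S.mul_mem ih hX) (S.mul_mem (S.pow_mem hX n) hY)

theorem tr_dp (τ : A →L[ℂ] ℂ) (S : Subalgebra ℂ A) (htr : ∀ a ∈ S, ∀ b ∈ S, τ (a * b) = τ (b * a))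
    {X Y : A} (hX : X ∈ S) (hY : Y ∈ S) (n k : ℕ) :
    τ (dp X Y (n + 1) * X ^ k) = (n + 1) * τ (X ^ (n + k) * Y) := by
  have key : ∀ m k : ℕ, τ (X ^ m * Y * X ^ k) = τ (X ^ (m + k) * Y) := fun m k => by
    rw [htr _ (S.mul_mem (S.pow_mem hX m) hY) _ (S.pow_mem hX k), ← mul_assoc, ← pow_add, add_comm]
  induction n generalizing k with
  | zero => simpa [dp] using key 0 k
  | succ n ih =>
    rw [dp, add_mul, map_add, mul_assoc, ← pow_succ', ih, key]
    rw [show n + (k + 1) = n + 1 + k by ring]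
    push_cast; ring

theorem geom_mem (S : Subalgebra ℂ A) (hS : IsClosed (S : Set A)) {x : A} (hx : x ∈ S)
    (h : Summable (x ^ ·)) : ∑' n, x ^ n ∈ S :=
  hS.mem_of_tendsto h.hasSum (Eventually.of_forall fun _ => S.sum_mem fun n _ => S.pow_mem hx n)

theorem tr_geom (τ : A →L[ℂ] ℂ) {T : A} (h0 : ∀ n, τ (T ^ (n + 1)) = 0) (s : ℝ)
    (h : Summable ((s • T) ^ ·)) : τ ((∑' n, (s • T) ^ n) * T) = 0 := by
  have h1 := (h.hasSum.mul_right T).mapL τ
  have e : (fun n => τ ((s • T) ^ n * T)) = fun _ => 0 := by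
    funext n
    rw [smul_pow, smul_mul_assoc, ← pow_succ, τ.map_smul_of_tower, h0, smul_zero]
  simp only [e] at h1
  exact h1.unique hasSum_zero

variable [PartialOrder A] [StarOrderedRing A]

theorem norm_one_sub_le {P : A} {m M : ℝ} (hM : 0 < M) (hmM : m ≤ M)
    (h1 : algebraMap ℝ A m ≤ P) (h2 : P ≤ algebraMap ℝ A M) : ‖1 - M⁻¹ • P‖ ≤ 1 - m / M := by
  have a1 : 0 ≤ 1 - M⁻¹ • P := by
    have := smul_le_smul_of_nonneg_left h2 (inv_nonneg.mpr hM.le)
    rw [Algebra.algebraMap_eq_smul_one, smul_smul, inv_mul_cancel₀ hM.ne', one_smul] at this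
    exact sub_nonneg.mpr this
  have a0 : 0 ≤ 1 - m / M := by rw [sub_nonneg, div_le_one hM]; exact hmM
  rw [CStarAlgebra.norm_le_iff_le_algebraMap _ a0 a1, map_sub, map_one]
  have := smul_le_smul_of_nonneg_left h1 (inv_nonneg.mpr hM.le)
  rw [Algebra.algebraMap_eq_smul_one, smul_smul] at this
  rw [Algebra.algebraMap_eq_smul_one, div_eq_inv_mul]
  exact sub_le_sub_left this _

theorem spec_pos {P : A} {m : ℝ} (hP : IsSelfAdjoint P) (h1 : algebraMap ℝ A m ≤ P) :
    ∀ x ∈ spectrum ℝ P, m ≤ x := (algebraMap_le_iff_le_spectrum hP).mp h1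

/-- `log P = log M - Σ X^(n+1)/(n+1)`, `X = 1 - P/M` -/
theorem log_series' {P : A} {m M : ℝ} (hP : IsSelfAdjoint P) (hm : 0 < m) (hmM : m ≤ M)
    (h1 : algebraMap ℝ A m ≤ P) (h2 : P ≤ algebraMap ℝ A M) :
    HasSum (fun n : ℕ => ((n + 1 : ℝ)⁻¹) • (1 - M⁻¹ • P) ^ (n + 1))
      (algebraMap ℝ A (Real.log M) - cfc Real.log P) := by
  have hM : 0 < M := hm.trans_le hmM
  have hn := norm_one_sub_le hM hmM h1 h2
  have hs := log_series (1 - M⁻¹ • P)
    ((IsSelfAdjoint.one A).sub ((IsSelfAdjoint.all _).smul hP))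
    (hn.trans_lt (by have := div_pos hm hM; linarith))
  rw [sub_sub_cancel] at hs
  have e := CFC.log_smul (r := M⁻¹) P (fun x hx => (hm.trans_le (spec_pos hP h1 x hx)).ne')
    (inv_ne_zero hM.ne') hP
  unfold CFC.log at e
  rw [e, Real.log_inv, map_neg] at hs
  convert hs using 1
  abel

theorem lower_of_inv {a b : A} (h : b * a = 1) {K : ℝ} (hK : 0 < K) (hb : ‖b‖ ≤ K) :
    algebraMap ℝ A (K ^ 2)⁻¹ ≤ star a * a := by
  have h1 : star b * b ≤ algebraMap ℝ A (K ^ 2) :=
    CStarAlgebra.star_mul_le_algebraMap_norm_sq.trans (by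
      rw [Algebra.algebraMap_eq_smul_one, Algebra.algebraMap_eq_smul_one]
      exact smul_le_smul_of_nonneg_right (by gcongr) zero_le_one)
  have h2 := star_left_conjugate_le_conjugate h1 a
  have e : star a * (star b * b) * a = 1 := by
    rw [← mul_assoc, ← star_mul, mul_assoc, h, star_one, one_mul]
  rw [e, Algebra.algebraMap_eq_smul_one, mul_smul_comm, mul_one, smul_mul_assoc] at h2
  have h3 := smul_le_smul_of_nonneg_left h2 (inv_nonneg.mpr (sq_nonneg K))
  rwa [smul_smul, inv_mul_cancel₀ (by positivity), one_smul, ← Algebra.algebraMap_eq_smul_one] at h3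

theorem log_det (τ : A →L[ℂ] ℂ) (S : Subalgebra ℂ A) (hS : IsClosed (S : Set A))
    (htr : ∀ a ∈ S, ∀ b ∈ S, τ (a * b) = τ (b * a)) (T : A) (hT : T ∈ S) (hT' : star T ∈ S)
    (h0 : ∀ n, τ (T ^ (n + 1)) = 0) (h0' : ∀ n, τ (star T ^ (n + 1)) = 0)
    (hq : Summable fun n => 2 ^ n * ‖T ^ n‖) :
    τ (cfc Real.log (star (1 - T) * (1 - T))) = 0 ∧
      ∃ m : ℝ, 0 < m ∧ algebraMap ℝ A m ≤ star (1 - T) * (1 - T) := by
  set K := 1 + ∑' n, 2 ^ n * ‖T ^ n‖ with hK
  have K0 : 0 < K := by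
    have : 0 ≤ ∑' n, 2 ^ n * ‖T ^ n‖ := tsum_nonneg fun n => by positivity
    linarith
  set I : Set ℝ := Set.Ioo (-2) 2 with hI
  have sm : ∀ (r : ℝ) (x : A), x ∈ S → r • x ∈ S := fun r x hx => by
    rw [← Complex.coe_smul]; exact S.smul_mem hx _
  have bd : ∀ s ∈ I, ∀ n, ‖(s • T) ^ n‖ ≤ 2 ^ n * ‖T ^ n‖ := fun s hs n => by
    rw [smul_pow, norm_smul, norm_pow, Real.norm_eq_abs]
    have : |s| ≤ 2 := abs_le.mpr ⟨hs.1.le, hs.2.le⟩
    gcongr
  have su : ∀ s ∈ I, Summable ((s • T) ^ ·) := fun s hs => Summable.of_norm_bounded hq (bd s hs)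
  have su' : ∀ s ∈ I, Summable ((s • star T) ^ ·) := fun s hs =>
    Summable.of_norm_bounded hq fun n => by
      have : (s • star T) ^ n = star ((s • T) ^ n) := by simp
      rw [this, norm_star]; exact bd s hs n
  let a : ℝ → A := fun s => 1 - s • T
  let P : ℝ → A := fun s => star (a s) * a s
  have sa : ∀ s, star (a s) = 1 - s • star T := fun s => by simp [a]
  set N := (‖(1 : A)‖ + 2 * ‖T‖) with hN
  set M := N ^ 2 + (K ^ 2)⁻¹ with hM
  have m0 : 0 < (K ^ 2)⁻¹ := by positivity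
  have mM : (K ^ 2)⁻¹ ≤ M := by rw [hM]; nlinarith [sq_nonneg N]
  have M0 : 0 < M := m0.trans_le mM
  have na : ∀ s ∈ I, ‖a s‖ ≤ N := fun s hs => by
    refine (norm_sub_le _ _).trans ?_
    rw [norm_smul, Real.norm_eq_abs]
    have : |s| ≤ 2 := abs_le.mpr ⟨hs.1.le, hs.2.le⟩
    rw [hN]; gcongr
  have lo : ∀ s ∈ I, algebraMap ℝ A (K ^ 2)⁻¹ ≤ P s := fun s hs =>
    lower_of_inv (su s hs).tsum_pow_mul_one_sub K0 (by
      have := tsum_of_norm_bounded hq.hasSum (bd s hs)
      linarith)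
  have hi : ∀ s ∈ I, P s ≤ algebraMap ℝ A M := fun s hs =>
    CStarAlgebra.star_mul_le_algebraMap_norm_sq.trans (by
      rw [Algebra.algebraMap_eq_smul_one, Algebra.algebraMap_eq_smul_one]
      refine smul_le_smul_of_nonneg_right ?_ zero_le_one
      have := pow_le_pow_left₀ (norm_nonneg _) (na s hs) 2
      linarith)
  have Psa : ∀ s, IsSelfAdjoint (P s) := fun s => IsSelfAdjoint.star_mul_self _
  let X : ℝ → A := fun s => 1 - M⁻¹ • P s
  let Y : ℝ → A := fun s => M⁻¹ • (star T * a s + star (a s) * T)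
  set r := 1 - (K ^ 2)⁻¹ / M with hr
  have r1 : r < 1 := by have := div_pos m0 M0; linarith
  have nX : ∀ s ∈ I, ‖X s‖ ≤ r := fun s hs => norm_one_sub_le M0 mM (lo s hs) (hi s hs)
  have r0 : 0 ≤ r := (norm_nonneg _).trans (nX 0 (by simp [hI]))
  have aS : ∀ s, a s ∈ S := fun s => S.sub_mem S.one_mem (sm _ _ hT)
  have aS' : ∀ s, star (a s) ∈ S := fun s => by rw [sa]; exact S.sub_mem S.one_mem (sm _ _ hT')
  have XS : ∀ s, X s ∈ S := fun s => S.sub_mem S.one_mem (sm _ _ (S.mul_mem (aS' s) (aS s)))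
  have YS : ∀ s, Y s ∈ S := fun s =>
    sm _ _ (S.add_mem (S.mul_mem hT' (aS s)) (S.mul_mem (aS' s) hT))
  have dX : ∀ s, HasDerivAt X (Y s) s := fun s => by
    have d1 : HasDerivAt a (-T) s := by
      simpa using ((hasDerivAt_id s).smul_const T).const_sub 1
    have d2 : HasDerivAt (fun t => star (a t)) (-star T) s := by
      simp only [sa]
      simpa using ((hasDerivAt_id s).smul_const (star T)).const_sub 1
    have d3 := ((d2.mul d1).const_smul M⁻¹).const_sub 1
    refine HasDerivAt.congr_deriv d3 ?_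
    simp only [Y, neg_mul, mul_neg, ← neg_add, smul_neg, neg_neg]
  let τ' : A →L[ℝ] ℂ := τ.restrictScalars ℝ
  let g : ℕ → ℝ → ℂ := fun n s => τ (((n + 1 : ℝ)⁻¹) • X s ^ (n + 1))
  have dg : ∀ n s, HasDerivAt (g n) (τ (X s ^ n * Y s)) s := fun n s => by
    have d1 := τ'.hasFDerivAt.comp_hasDerivAt s
      ((hasDerivAt_pow (dX s) (n + 1)).const_smul ((n + 1 : ℝ)⁻¹))
    refine HasDerivAt.congr_deriv d1 ?_
    have := tr_dp τ S htr (XS s) (YS s) n 0
    rw [pow_zero, mul_one, add_zero] at this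
    change τ _ = _
    rw [τ.map_smul_of_tower, this, Complex.real_smul]
    push_cast
    have : (n : ℂ) + 1 ≠ 0 := by exact_mod_cast Nat.succ_ne_zero n
    field_simp
  have npow : ∀ s ∈ I, ∀ n, ‖X s ^ n‖ ≤ ‖(1 : A)‖ * r ^ n := fun s hs n => by
    induction n with
    | zero => simp
    | succ n ih =>
      rw [pow_succ, pow_succ, ← mul_assoc]
      exact (norm_mul_le _ _).trans (mul_le_mul ih (nX s hs) (norm_nonneg _) (by positivity))
  have nY : ∀ s ∈ I, ‖Y s‖ ≤ M⁻¹ * (2 * (‖T‖ * N)) := fun s hs => by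
    simp only [Y]
    rw [norm_smul, Real.norm_eq_abs, abs_of_pos (inv_pos.mpr M0)]
    refine mul_le_mul_of_nonneg_left ((norm_add_le _ _).trans ?_) (inv_pos.mpr M0).le
    have b1 := norm_mul_le (star T) (a s)
    have b2 := norm_mul_le (star (a s)) T
    rw [norm_star] at b1 b2
    have := mul_le_mul_of_nonneg_left (na s hs) (norm_nonneg T)
    linarith
  have ser : ∀ s ∈ I, HasSum (fun n => g n s) (τ (algebraMap ℝ A (Real.log M) - cfc Real.log (P s))) :=
    fun s hs => (log_series' (Psa s) m0 mM (lo s hs) (hi s hs)).mapL τ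
  have zero_mem : (0 : ℝ) ∈ I := by simp [hI]
  have one_mem : (1 : ℝ) ∈ I := by simp [hI]; norm_num
  have dG : ∀ s ∈ I, HasDerivAt (fun z => ∑' n, g n z) 0 s := fun s hs => by
    have d := hasDerivAt_tsum_of_isPreconnected
      (u := fun n => ‖τ‖ * (‖(1 : A)‖ * r ^ n * (M⁻¹ * (2 * (‖T‖ * N)))))
      (((summable_geometric_of_lt_one r0 r1).mul_left _).mul_right _ |>.mul_left _)
      isOpen_Ioo isPreconnected_Ioo (fun n y _ => dg n y)
      (fun n y hy => (τ.le_opNorm _).trans (mul_le_mul_of_nonneg_left ((norm_mul_le _ _).trans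
        (mul_le_mul (npow y hy n) (nY y hy) (norm_nonneg _) (by positivity))) (norm_nonneg _)))
      zero_mem (ser 0 zero_mem).summable hs
    refine HasDerivAt.congr_deriv d ?_
    have sX : Summable (X s ^ ·) := Summable.of_norm_bounded
      ((summable_geometric_of_lt_one r0 r1).mul_left _) (npow s hs)
    rw [((sX.hasSum.mul_right (Y s)).mapL τ).tsum_eq]
    set b := ∑' n, (s • T) ^ n with hb
    set b' := ∑' n, (s • star T) ^ n with hb'
    have ba : b * a s = 1 := (su s hs).tsum_pow_mul_one_sub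
    have ab : a s * b = 1 := (su s hs).one_sub_mul_tsum_pow
    have ba' : b' * star (a s) = 1 := by rw [sa]; exact (su' s hs).tsum_pow_mul_one_sub
    have ab' : star (a s) * b' = 1 := by rw [sa]; exact (su' s hs).one_sub_mul_tsum_pow
    have bS : b ∈ S := geom_mem S hS (sm _ _ hT) (su s hs)
    have bS' : b' ∈ S := geom_mem S hS (sm _ _ hT') (su' s hs)
    have q1 : (∑' n, X s ^ n) * (M⁻¹ • P s) = 1 := by
      have := sX.tsum_pow_mul_one_sub
      simpa only [X, sub_sub_cancel] using this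
    have q2 : ∑' n, X s ^ n = M • (b * b') := by
      have e : (M⁻¹ • P s) * (M • (b * b')) = 1 := by
        simp only [P, smul_mul_smul_comm, inv_mul_cancel₀ M0.ne', one_smul]
        rw [mul_assoc, ← mul_assoc (a s), ab, one_mul, ab']
      calc _ = (∑' n, X s ^ n) * ((M⁻¹ • P s) * (M • (b * b'))) := by rw [e, mul_one]
        _ = _ := by rw [← mul_assoc, q1, one_mul]
    rw [q2]
    simp only [Y, smul_mul_smul_comm, mul_inv_cancel₀ M0.ne', one_smul, mul_add, map_add]
    have t1 : τ (b * b' * (star T * a s)) = 0 := by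
      rw [← mul_assoc, htr _ (S.mul_mem (S.mul_mem bS bS') hT') _ (aS s), ← mul_assoc, ← mul_assoc,
        ab, one_mul]
      exact tr_geom τ h0' s (su' s hs)
    have t2 : τ (b * b' * (star (a s) * T)) = 0 := by
      rw [mul_assoc, ← mul_assoc b', ba', one_mul]
      exact tr_geom τ h0 s (su s hs)
    rw [t1, t2, add_zero]
  have cst := isOpen_Ioo.is_const_of_deriv_eq_zero isPreconnected_Ioo
    (fun s hs => (dG s hs).differentiableAt.differentiableWithinAt)
    (fun s hs => (dG s hs).deriv) zero_mem one_mem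
  rw [(ser 0 zero_mem).tsum_eq, (ser 1 one_mem).tsum_eq, map_sub, map_sub] at cst
  have p0 : P 0 = 1 := by simp [P, a]
  have p1 : P 1 = star (1 - T) * (1 - T) := by simp [P, a]
  have l1 : cfc Real.log (1 : A) = 0 := CFC.log_one
  rw [p0, p1, l1, map_zero] at cst
  refine ⟨by linear_combination cst, _, m0, p1 ▸ lo 1 one_mem⟩

/-- regularisation: `0 ≤ log(P+ε) - log P ≤ ε/m` -/
theorem log_reg {P : A} {m ε : ℝ} (hP : IsSelfAdjoint P) (hm : 0 < m) (hε : 0 < ε)
    (h1 : algebraMap ℝ A m ≤ P) :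
    0 ≤ cfc Real.log (P + algebraMap ℝ A ε) - cfc Real.log P ∧
      ‖cfc Real.log (P + algebraMap ℝ A ε) - cfc Real.log P‖ ≤ ε / m := by
  have sp := spec_pos hP h1
  have c1 : ContinuousOn Real.log (spectrum ℝ P) :=
    Real.continuousOn_log.mono fun x hx => (hm.trans_le (sp x hx)).ne'
  have c2 : ContinuousOn (fun x => Real.log (x + ε)) (spectrum ℝ P) :=
    ContinuousOn.log (by fun_prop) fun x hx => by have := sp x hx; linarith
  have e : cfc Real.log (P + algebraMap ℝ A ε) = cfc (fun x => Real.log (x + ε)) P := by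
    have : P + algebraMap ℝ A ε = cfc (fun x : ℝ => x + ε) P := by
      rw [cfc_add_const ε (fun x : ℝ => x) P, cfc_id' ℝ P]
    rw [this]
    refine (cfc_comp' Real.log (fun x : ℝ => x + ε) P (Real.continuousOn_log.mono ?_)).symm
    rintro _ ⟨x, hx, rfl⟩
    have := sp x hx
    simp only [Set.mem_compl_iff, Set.mem_singleton_iff]
    linarith
  rw [e, ← cfc_sub _ _ _ c2 c1]
  have key : ∀ x ∈ spectrum ℝ P, 0 ≤ Real.log (x + ε) - Real.log x ∧
      Real.log (x + ε) - Real.log x ≤ ε / m := fun x hx => by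
    have x0 := hm.trans_le (sp x hx)
    refine ⟨sub_nonneg.mpr (Real.log_le_log x0 (by linarith)), ?_⟩
    rw [← Real.log_div (by linarith) x0.ne']
    refine (Real.log_le_sub_one_of_pos (by positivity)).trans ?_
    rw [add_div, div_self x0.ne', add_sub_cancel_left]
    exact div_le_div_of_nonneg_left hε.le hm (sp x hx)
  refine ⟨cfc_nonneg fun x hx => (key x hx).1, norm_cfc_le (by positivity) fun x hx => ?_⟩
  rw [Real.norm_eq_abs, abs_of_nonneg (key x hx).1]
  exact (key x hx).2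

end Crest.Agent.R113.PS
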