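import Crest.Agent.R113.PSGen
import Crest.Agent.R113.PSActs

/-! Row 113, S0151: weights, quasinilpotence and the two cases (helper92). -/

set_option autoImplicit false

namespace Crest.Agent.R113.PS

open Crest.AnalysisR.ProductShift MeasureTheory Filter Topology
open scoped ENNReal

variable {θ c : ℕ → ℝ}

theorem meas_fl (a : ℝ) : Measurable fun t : ℝ => ((⌊t + a⌋ : ℤ) : ℝ) :=
  (measurable_from_top (f := fun n : ℤ => (n : ℝ))).comp
    (Int.measurable_floor.comp (measurable_add_const a))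

theorem meas_term (θ c : ℕ → ℝ) (i : ℕ) :
    Measurable fun x : Om => ENNReal.ofReal (c i * (⌊x i + θ i⌋ : ℝ)) :=
  ENNReal.measurable_ofReal.comp (((meas_fl (θ i)).comp (measurable_pi_apply i)).const_mul _)

theorem meas_drop (θ c : ℕ → ℝ) : Measurable (dropCost θ c) :=
  Measurable.tsum (meas_term θ c)

theorem meas_weight (θ c : ℕ → ℝ) : Measurable (weight θ c) :=
  Measurable.ite ((meas_drop θ c) (measurableSet_singleton ⊤)) measurable_const
    (Real.measurable_exp.comp (meas_drop θ c).ennreal_toReal.neg)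

theorem weight_nonneg (y : Om) : 0 ≤ weight θ c y := by
  unfold weight; split_ifs
  · exact le_rfl
  · exact (Real.exp_pos _).le

theorem weight_le (F : Finset ℕ) (y : Om) :
    weight θ c y ≤ Real.exp (-∑ i ∈ F, c i * (⌊y i + θ i⌋ : ℝ)) := by
  unfold weight; split_ifs with h
  · exact (Real.exp_pos _).le
  · rw [Real.exp_le_exp, neg_le_neg_iff]
    have h1 : ∑ i ∈ F, ENNReal.ofReal (c i * (⌊y i + θ i⌋ : ℝ)) ≤ dropCost θ c y :=
      ENNReal.sum_le_tsum F
    have h2 := ENNReal.toReal_mono h h1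
    rw [ENNReal.toReal_sum fun _ _ => ENNReal.ofReal_ne_top] at h2
    refine le_trans (Finset.sum_le_sum fun i _ => ?_) h2
    rw [ENNReal.toReal_ofReal']
    exact le_max_left _ _

theorem weight_le_one (y : Om) : weight θ c y ≤ 1 := by simpa using weight_le (θ := θ) (c := c) ∅ y

theorem int_fl {a : ℝ} (h0 : 0 < a) (h1 : a < 1) :
    Integrable (fun t : ℝ => ((⌊t + a⌋ : ℤ) : ℝ)) unitLebesgue ∧
      (∀ᵐ t ∂unitLebesgue, (0 : ℝ) ≤ ((⌊t + a⌋ : ℤ) : ℝ)) ∧
      ∫ t, ((⌊t + a⌋ : ℤ) : ℝ) ∂unitLebesgue = a := by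
  have e : (fun t : ℝ => ((⌊t + a⌋ : ℤ) : ℝ)) =ᵐ[unitLebesgue]
      (Set.Ico (1 - a) 1).indicator fun _ => (1 : ℝ) := by
    refine (ae_restrict_iff' measurableSet_Ico).mpr (ae_of_all _ fun t ht => ?_)
    by_cases h : 1 - a ≤ t
    · rw [Set.indicator_of_mem (show t ∈ Set.Ico (1 - a) 1 from ⟨h, ht.2⟩)]
      have : ⌊t + a⌋ = 1 := Int.floor_eq_iff.mpr ⟨by push_cast; linarith, by push_cast; linarith [ht.2]⟩
      simp [this]
    · rw [Set.indicator_of_notMem fun h' => h h'.1]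
      have : ⌊t + a⌋ = 0 := Int.floor_eq_iff.mpr ⟨by push_cast; linarith [ht.1], by push_cast; linarith⟩
      simp [this]
  refine ⟨((integrable_const (1 : ℝ)).indicator measurableSet_Ico).congr e.symm, ?_, ?_⟩
  · filter_upwards [e] with t ht
    rw [ht]; exact Set.indicator_nonneg (fun _ _ => zero_le_one) _
  · rw [integral_congr_ae e, integral_indicator measurableSet_Ico, setIntegral_const, smul_eq_mul,
      mul_one, Measure.real, unitLebesgue, Measure.restrict_apply measurableSet_Ico,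
      Set.inter_eq_left.mpr (Set.Ico_subset_Ico_left (by linarith)), Real.volume_Ico,
      ENNReal.toReal_ofReal (by linarith)]
    ring

theorem mp_eval (i : ℕ) : MeasurePreserving (fun x : Om => x i) cubeMeasure unitLebesgue :=
  measurePreserving_eval_infinitePi (fun _ : ℕ => unitLebesgue) i

theorem sum_large (hθ : ∀ i, 0 < θ i ∧ θ i < 1) (hc : ∀ i, 0 ≤ c i)
    (hlog : ∫⁻ x, ENNReal.ofReal (- Real.log (weight θ c x)) ∂cubeMeasure = ⊤) (L : ℝ) :
    ∃ F : Finset ℕ, L ≤ ∑ i ∈ F, c i * θ i := by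
  by_contra hne
  push Not at hne
  have h1 : ∫⁻ x, ENNReal.ofReal (- Real.log (weight θ c x)) ∂cubeMeasure ≤
      ∫⁻ x, dropCost θ c x ∂cubeMeasure := by
    refine lintegral_mono fun x => ?_
    unfold weight; split_ifs with h
    · rw [h]; exact le_top
    · rw [Real.log_exp, neg_neg, ENNReal.ofReal_toReal h]
  have h2 : ∫⁻ x, dropCost θ c x ∂cubeMeasure = ∑' i, ENNReal.ofReal (c i * θ i) := by
    unfold dropCost
    rw [lintegral_tsum fun i => (meas_term θ c i).aemeasurable]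
    congr 1; funext i
    obtain ⟨i1, i2, i3⟩ := int_fl (hθ i).1 (hθ i).2
    rw [(mp_eval i).lintegral_comp (f := fun t : ℝ => ENNReal.ofReal (c i * (⌊t + θ i⌋ : ℝ)))
      (ENNReal.measurable_ofReal.comp ((meas_fl (θ i)).const_mul _)),
      ← ofReal_integral_eq_lintegral_ofReal (i1.const_mul _)
        (i2.mono fun t ht => mul_nonneg (hc i) ht), integral_const_mul, i3]
  have h3 : ∑' i, ENNReal.ofReal (c i * θ i) ≤ ENNReal.ofReal L := by
    rw [ENNReal.tsum_eq_iSup_sum]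
    refine iSup_le fun F => ?_
    rw [← ENNReal.ofReal_sum_of_nonneg fun i _ => mul_nonneg (hc i) (hθ i).1.le]
    exact ENNReal.ofReal_le_ofReal (hne F).le
  rw [hlog, h2] at h1
  exact ENNReal.ofReal_ne_top (top_le_iff.mp (h1.trans h3))

variable {T : Op}

theorem acts_T (hT : IsWeightedShift θ c T) :
    Acts θ T (fun y => (weight θ c (orbitPoint θ (-1) y) : ℂ)) 1 := fun f => by
  have := hT f
  simp only [orb_orb, sh, neg_add_eq_sub]
  exact this

theorem meas_G : Measurable fun y => (weight θ c (orbitPoint θ (-1) y) : ℂ) :=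
  Complex.measurable_ofReal.comp ((meas_weight θ c).comp (meas_orb θ _))

theorem acts_Ts (hT : IsWeightedShift θ c T) :
    Acts θ (star T) (fun y => (weight θ c (orbitPoint θ 0 y) : ℂ)) (-1) :=
  ((acts_T hT).star meas_G (C := 1) fun y => by
    rw [Complex.norm_real, Real.norm_eq_abs, abs_of_nonneg (weight_nonneg _)]
    exact weight_le_one _).congr fun k x => by simp [orb_orb]

theorem T_mono (hT : IsWeightedShift θ c T) : T ∈ Mono θ := ⟨_, _, meas_G, acts_T hT⟩
theorem Ts_mono (hT : IsWeightedShift θ c T) : star T ∈ Mono θ :=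
  ⟨_, _, Complex.measurable_ofReal.comp ((meas_weight θ c).comp (meas_orb θ _)), acts_Ts hT⟩

theorem acts_pow {A : Op} {G : Om → ℂ} {d : ℤ} (hA : Acts θ A G d) (n : ℕ) :
    ∃ H, Acts θ (A ^ n) H (n * d) := by
  induction n with
  | zero => exact ⟨_, by simpa using acts_one⟩
  | succ n ih =>
    obtain ⟨H, hH⟩ := ih
    have := hH.mul hA
    rw [← pow_succ, show (n : ℤ) * d + d = ((n + 1 : ℕ) : ℤ) * d by push_cast; ring] at this
    exact ⟨_, this⟩

theorem tau_pow {A : Op} {G : Om → ℂ} {d : ℤ} (hA : Acts θ A G d) (hd : d ≠ 0) (n : ℕ) :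
    tau (A ^ (n + 1)) = 0 := by
  obtain ⟨H, hH⟩ := acts_pow hA (n + 1)
  rw [hH.tau_eq, if_neg (mul_ne_zero (by exact_mod_cast Nat.succ_ne_zero n) hd)]

theorem fl_orb (θ : ℕ → ℝ) (m : ℤ) (x : Om) (i : ℕ) :
    (⌊orbitPoint θ m x i + θ i⌋ : ℝ) =
      (⌊x i + ((m + 1 : ℤ) : ℝ) * θ i⌋ : ℝ) - (⌊x i + (m : ℝ) * θ i⌋ : ℝ) := by
  have : orbitPoint θ m x i + θ i =
      x i + ((m + 1 : ℤ) : ℝ) * θ i - (⌊x i + (m : ℝ) * θ i⌋ : ℤ) := by
    simp only [orbitPoint, Int.fract]; push_cast; ring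
  rw [this, Int.floor_sub_intCast]; push_cast; ring

theorem acts_Tn (hT : IsWeightedShift θ c T) (F : Finset ℕ) (n : ℕ) :
    ∃ H, Acts θ (T ^ n) H n ∧ ∀ (k : ℤ) (x : Om), ‖H (orbitPoint θ k x)‖ ≤
      Real.exp (-∑ i ∈ F, c i * ((⌊x i + (k : ℝ) * θ i⌋ : ℝ) -
        (⌊x i + ((k - n : ℤ) : ℝ) * θ i⌋ : ℝ))) := by
  induction n with
  | zero => exact ⟨_, by simpa using acts_one, fun k x => by simp⟩
  | succ n ih =>
    obtain ⟨H, hH, hb⟩ := ih
    refine ⟨_, by simpa [pow_succ] using hH.mul (acts_T hT), fun k x => ?_⟩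
    rw [norm_mul, Complex.norm_real, Real.norm_eq_abs, abs_of_nonneg (weight_nonneg _), orb_orb,
      orb_orb]
    refine (mul_le_mul (hb k x) (weight_le F _) (weight_nonneg _) (Real.exp_pos _).le).trans ?_
    rw [← Real.exp_add, ← neg_add, ← Finset.sum_add_distrib]
    refine le_of_eq (congrArg (fun t => Real.exp (-t)) (Finset.sum_congr rfl fun i _ => ?_))
    rw [fl_orb, show -1 + -(n : ℤ) + k + 1 = k - n by ring,
      show -1 + -(n : ℤ) + k = k - ((n + 1 : ℕ) : ℤ) by push_cast; ring]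
    ring

theorem norm_Tn (hc : ∀ i, 0 ≤ c i) (hT : IsWeightedShift θ c T) (F : Finset ℕ) (n : ℕ) :
    ‖T ^ n‖ ≤ Real.exp (2 * ∑ i ∈ F, c i) * Real.exp (-∑ i ∈ F, c i * θ i) ^ n := by
  obtain ⟨H, hH, hb⟩ := acts_Tn hT F n
  refine hH.norm_le (by positivity) fun k x => (hb k x).trans ?_
  rw [← Real.exp_nat_mul, ← Real.exp_add, Real.exp_le_exp, mul_neg, Finset.mul_sum, Finset.mul_sum,
    ← Finset.sum_neg_distrib, ← Finset.sum_neg_distrib, ← Finset.sum_add_distrib]
  refine Finset.sum_le_sum fun i _ => ?_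
  have h1 := Int.sub_one_lt_floor (x i + (k : ℝ) * θ i)
  have h2 := Int.floor_le (x i + ((k - n : ℤ) : ℝ) * θ i)
  push_cast at h2 ⊢
  have := hc i
  nlinarith

theorem summ (hθ : ∀ i, 0 < θ i ∧ θ i < 1) (hc : ∀ i, 0 ≤ c i)
    (hlog : ∫⁻ x, ENNReal.ofReal (- Real.log (weight θ c x)) ∂cubeMeasure = ⊤)
    (hT : IsWeightedShift θ c T) (w : ℂ) : Summable fun n => 2 ^ n * ‖(w • T) ^ n‖ := by
  obtain ⟨F, hF⟩ := sum_large hθ hc hlog (2 * ‖w‖)
  set q := 2 * ‖w‖ * Real.exp (-∑ i ∈ F, c i * θ i) with hq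
  have q1 : q < 1 := by
    rw [hq, Real.exp_neg, ← div_eq_mul_inv, div_lt_one (Real.exp_pos _)]
    linarith [Real.add_one_le_exp (∑ i ∈ F, c i * θ i)]
  refine Summable.of_nonneg_of_le (fun n => by positivity) (fun n => ?_)
    ((summable_geometric_of_lt_one (by positivity) q1).mul_left (Real.exp (2 * ∑ i ∈ F, c i)))
  rw [smul_pow, norm_smul, norm_pow, hq, mul_pow, mul_pow]
  have := mul_le_mul_of_nonneg_left (norm_Tn hc hT F n) (show 0 ≤ 2 ^ n * ‖w‖ ^ n by positivity)
  linarith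

theorem st_eq : st vacuumVector = tau := rfl

theorem case_ne (hθ : ∀ i, 0 < θ i ∧ θ i < 1) (hc : ∀ i, 0 ≤ c i)
    (hlog : ∫⁻ x, ENNReal.ofReal (- Real.log (weight θ c x)) ∂cubeMeasure = ⊤)
    (hT : IsWeightedShift θ c T) {z : ℂ} (hz : z ≠ 0) :
    vectorDet vacuumVector (T - z • 1) = ‖z‖ :=
  gen_ne tau_one (Alg θ) alg_closed tau_comm T hz
    ((Alg θ).smul_mem (mono_mem (T_mono hT)) _)
    (by rw [star_smul]; exact (Alg θ).smul_mem (mono_mem (Ts_mono hT)) _)
    (tau_pow ((acts_T hT).smul _) one_ne_zero)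
    (by rw [star_smul]; exact tau_pow ((acts_Ts hT).smul _) (by norm_num))
    (summ hθ hc hlog hT _)

theorem tau_log_zero (hT : IsWeightedShift θ c T) {ε : ℝ} (hε : 0 < ε) :
    vl vacuumVector T ε =
      ∫ x, Real.log (weight θ c (orbitPoint θ 0 x) ^ 2 + ε) ∂cubeMeasure := by
  set M := ‖T‖ ^ 2 + 1 + ε with hM
  have M0 : 0 < M := by positivity
  have s1 := gen_series (ξ := vacuumVector) tau_one T hε (M := M) (by linarith)
  set y : Om → ℝ := fun x => 1 - M⁻¹ * (weight θ c (orbitPoint θ 0 x) ^ 2 + ε) with hy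
  have aX : Acts θ (1 + (-(M⁻¹ : ℝ) : ℂ) • (star T * T + (ε : ℂ) • 1)) (fun x => (y x : ℂ)) 0 := by
    have a1 := (acts_Ts hT).mul (acts_T hT)
    rw [neg_add_cancel] at a1
    have a2 := acts_one.add ((a1.add (acts_one.smul (ε : ℂ))).smul (-(M⁻¹ : ℝ) : ℂ))
    refine a2.congr fun k x => ?_
    simp only [hy, orb_orb]
    push_cast
    simp only [neg_add_cancel_left, zero_add]
    ring
  have ym : Measurable y := by
    have := (meas_weight θ c).comp (meas_orb θ 0)
    exact (((this.pow_const 2).add_const ε).const_mul _).const_sub 1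
  have w1 : ∀ x, 0 < weight θ c (orbitPoint θ 0 x) ^ 2 + ε ∧
      weight θ c (orbitPoint θ 0 x) ^ 2 + ε ≤ M := fun x => by
    have := pow_le_one₀ (n := 2) (weight_nonneg (θ := θ) (c := c) (orbitPoint θ 0 x))
      (weight_le_one _)
    exact ⟨by positivity, by nlinarith [sq_nonneg ‖T‖]⟩
  set r := 1 - M⁻¹ * ε with hr
  have r1 : r < 1 := by have := mul_pos (inv_pos.mpr M0) hε; linarith
  have yb : ∀ x, 0 ≤ y x ∧ y x ≤ r := fun x => by
    have h1 := mul_le_mul_of_nonneg_left (w1 x).2 (inv_pos.mpr M0).le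
    rw [inv_mul_cancel₀ M0.ne'] at h1
    have h2 := mul_nonneg (inv_pos.mpr M0).le (sq_nonneg (weight θ c (orbitPoint θ 0 x)))
    simp only [hy, hr]
    constructor <;> nlinarith
  have r0 : 0 ≤ r := (yb 0).1.trans (yb 0).2
  have bd : ∀ (n : ℕ) x, ‖y x ^ (n + 1) / (n + 1)‖ ≤ r ^ n := fun n x => by
    have y0 := (yb x).1
    rw [Real.norm_eq_abs, abs_of_nonneg (by positivity)]
    refine (div_le_self (by positivity) (by linarith [Nat.cast_nonneg (α := ℝ) n])).trans ?_
    exact (pow_le_pow_left₀ y0 (yb x).2 _).trans (pow_le_pow_of_le_one r0 r1.le (Nat.le_succ n))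
  have it : ∀ n : ℕ, Integrable (fun x => y x ^ (n + 1) / (n + 1)) cubeMeasure := fun n =>
    Integrable.of_bound ((ym.pow_const _).div_const _).aestronglyMeasurable _ (ae_of_all _ (bd n))
  have s2 := hasSum_integral_of_summable_integral_norm it
    (Summable.of_nonneg_of_le (fun n => integral_nonneg fun x => norm_nonneg _) (fun n => by
      have := norm_integral_le_of_norm_le_const (μ := cubeMeasure)
        (f := fun x => ‖y x ^ (n + 1) / (n + 1)‖) (C := r ^ n)
        (ae_of_all _ fun x => by rw [norm_norm]; exact bd n x)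
      simp only [probReal_univ, mul_one] at this
      exact (le_abs_self _).trans this) (summable_geometric_of_lt_one r0 r1))
  have e1 : ∀ x, ∑' n : ℕ, y x ^ (n + 1) / (n + 1) =
      Real.log M - Real.log (weight θ c (orbitPoint θ 0 x) ^ 2 + ε) := fun x => by
    rw [(Real.hasSum_pow_div_log_of_abs_lt_one
      (by rw [abs_of_nonneg (yb x).1]; exact (yb x).2.trans_lt r1)).tsum_eq]
    simp only [hy, sub_sub_cancel]
    rw [Real.log_mul (inv_pos.mpr M0).ne' (w1 x).1.ne', Real.log_inv]; ring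
  have e2 : ∀ n : ℕ, (n + 1 : ℝ)⁻¹ * (st vacuumVector ((1 + (-(M⁻¹ : ℝ) : ℂ) •
      (star T * T + (ε : ℂ) • 1)) ^ (n + 1))).re =
      ∫ x, y x ^ (n + 1) / (n + 1) ∂cubeMeasure := fun n => by
    rw [st_eq, (aX.pow0 (n + 1)).tau_eq, if_pos rfl]
    have : ∀ x, (y (orbitPoint θ 0 x) : ℂ) ^ (n + 1) = ((y x ^ (n + 1) : ℝ) : ℂ) := fun x => by
      simp [hy, orb_orb]
    simp only [this]
    rw [integral_complex_ofReal, integral_div, Complex.ofReal_re]
    ring
  simp only [e2] at s1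
  simp only [e1] at s2
  have e3 := s1.unique s2
  have il : Integrable (fun x => Real.log (weight θ c (orbitPoint θ 0 x) ^ 2 + ε)) cubeMeasure := by
    refine Integrable.of_bound (Real.measurable_log.comp
      ((((meas_weight θ c).comp (meas_orb θ 0)).pow_const 2).add_const ε)).aestronglyMeasurable
      (|Real.log ε| + |Real.log M|) (ae_of_all _ fun x => ?_)
    have l1 := Real.log_le_log hε (le_add_of_nonneg_left
      (sq_nonneg (weight θ c (orbitPoint θ 0 x))))
    have l2 := Real.log_le_log (w1 x).1 (w1 x).2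
    rw [Real.norm_eq_abs, abs_le]
    constructor <;> linarith [neg_abs_le (Real.log ε), le_abs_self (Real.log M), abs_nonneg (Real.log ε),
      abs_nonneg (Real.log M)]
  rw [integral_sub (integrable_const _) il] at e3
  simp only [integral_const, probReal_univ, one_smul] at e3
  linarith

theorem case_zero (hθ : ∀ i, 0 < θ i ∧ θ i < 1) (hc : ∀ i, 0 ≤ c i)
    (hlog : ∫⁻ x, ENNReal.ofReal (- Real.log (weight θ c x)) ∂cubeMeasure = ⊤)
    (hT : IsWeightedShift θ c T) (L : ℝ) :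
    ∃ ε : ℝ, 0 < ε ∧ vl vacuumVector T ε ≤ 1 - 2 * L := by
  obtain ⟨F, hF⟩ := sum_large hθ hc hlog L
  refine ⟨Real.exp (-(2 * ∑ i ∈ F, c i)), Real.exp_pos _, ?_⟩
  rw [tau_log_zero hT (Real.exp_pos _)]
  have mp : ∀ i, MeasurePreserving (fun x => orbitPoint θ 0 x i) cubeMeasure unitLebesgue :=
    fun i => (mp_eval i).comp (mp_orb θ 0)
  have it : ∀ i, Integrable (fun x => c i * (⌊orbitPoint θ 0 x i + θ i⌋ : ℝ)) cubeMeasure :=
    fun i => ((mp i).integrable_comp_of_integrable (int_fl (hθ i).1 (hθ i).2).1).const_mul _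
  have iv : ∀ i, ∫ x, c i * (⌊orbitPoint θ 0 x i + θ i⌋ : ℝ) ∂cubeMeasure = c i * θ i := fun i => by
    rw [integral_const_mul]
    congr 1
    have := integral_map (μ := cubeMeasure) (mp i).measurable.aemeasurable
      (meas_fl (θ i)).aestronglyMeasurable
    rw [(mp i).map_eq, (int_fl (hθ i).1 (hθ i).2).2.2] at this
    exact this.symm
  have iD := integrable_finsetSum F fun i _ => it i
  by_cases il : Integrable (fun x => Real.log (weight θ c (orbitPoint θ 0 x) ^ 2 +
      Real.exp (-(2 * ∑ i ∈ F, c i)))) cubeMeasure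
  swap
  · exfalso
    refine il (Integrable.of_bound (Real.measurable_log.comp
      ((((meas_weight θ c).comp (meas_orb θ 0)).pow_const 2).add_const _)).aestronglyMeasurable
      (|2 * ∑ i ∈ F, c i| + |Real.log (1 + Real.exp (-(2 * ∑ i ∈ F, c i)))|)
      (ae_of_all _ fun x => ?_))
    have l1 := Real.log_le_log (Real.exp_pos (-(2 * ∑ i ∈ F, c i))) (le_add_of_nonneg_left
      (sq_nonneg (weight θ c (orbitPoint θ 0 x))))
    have l2 := Real.log_le_log (by positivity) (add_le_add_left (pow_le_one₀ (n := 2)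
      (weight_nonneg (θ := θ) (c := c) (orbitPoint θ 0 x)) (weight_le_one _))
      (Real.exp (-(2 * ∑ i ∈ F, c i))))
    rw [Real.log_exp] at l1
    rw [Real.norm_eq_abs, abs_le]
    constructor <;> linarith [le_abs_self (2 * ∑ i ∈ F, c i), abs_nonneg (2 * ∑ i ∈ F, c i),
      le_abs_self (Real.log (1 + Real.exp (-(2 * ∑ i ∈ F, c i)))),
      abs_nonneg (Real.log (1 + Real.exp (-(2 * ∑ i ∈ F, c i))))]
  refine (integral_mono il ((integrable_const (1 : ℝ)).sub (iD.const_mul 2)) fun x => ?_).trans ?_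
  · set D := ∑ i ∈ F, c i * (⌊orbitPoint θ 0 x i + θ i⌋ : ℝ) with hD
    have d1 : D ≤ ∑ i ∈ F, c i := Finset.sum_le_sum fun i _ => by
      have f1 : orbitPoint θ 0 x i < 1 := Int.fract_lt_one _
      have f2 : ⌊orbitPoint θ 0 x i + θ i⌋ ≤ 1 :=
        Int.lt_add_one_iff.mp (Int.floor_lt.mpr (by push_cast; linarith [(hθ i).2]))
      have f3 : (⌊orbitPoint θ 0 x i + θ i⌋ : ℝ) ≤ 1 := by exact_mod_cast f2
      nlinarith [hc i]
    have d2 : weight θ c (orbitPoint θ 0 x) ^ 2 ≤ Real.exp (-(2 * D)) := by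
      have := pow_le_pow_left₀ (weight_nonneg _) (weight_le (θ := θ) (c := c) F (orbitPoint θ 0 x)) 2
      rwa [← Real.exp_nat_mul, ← hD, Nat.cast_ofNat, mul_neg] at this
    have d3 : Real.exp (-(2 * ∑ i ∈ F, c i)) ≤ Real.exp (-(2 * D)) :=
      Real.exp_le_exp.mpr (by linarith)
    change Real.log _ ≤ 1 - 2 * D
    rw [Real.log_le_iff_le_exp (by positivity), sub_eq_add_neg, Real.exp_add]
    nlinarith [Real.add_one_le_exp 1, Real.exp_pos (-(2 * D))]
  · change ∫ x, (1 - 2 * ∑ i ∈ F, c i * (⌊orbitPoint θ 0 x i + θ i⌋ : ℝ)) ∂cubeMeasure ≤ _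
    rw [integral_sub (integrable_const _) (iD.const_mul 2), integral_const_mul,
      integral_finsetSum F fun i _ => it i]
    simp only [iv, integral_const, probReal_univ, one_smul]
    linarith

end Crest.Agent.R113.PS
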