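/-!
# Row 113, S0149: plan (helper95)

Claim: for irrational `θ` there is a continuous weight `F` on `X = ℝ/ℤ` (single zero, `∫ log F = -∞`)
such that `T = U F(V)` has no nontrivial invariant projection `p` in the rotation factor.

**Model** (`Model`, `Trace`, `Transfer`): `H = L²(X × ℤ)`, `(λ(g)ξ)(x,d) = g(x+dα) ξ(x,d)`,
`(Uξ)(x,d) = ξ(x,d-1)`; `M` = commutant of the right action; `τ y = ⟪1₀, y 1₀⟫` is a faithful trace
on `M`; `ξ_q = q 1₀`, `Q x = ξ_q (x,0)`, mass `m_q = |ξ_q|²`.

**Tilt** (`Tilt`, `Proj`, `Sys`): `p_g` = projection onto `e^{-g} ran p`.  Along `q_s = p_{g+su}`: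
`q̇ = -((1-q)uq + qu(1-q))`, `d/ds τ(q_s u) = -‖q̇‖₂² = -‖[q_s,u]‖₂²`.  Hence `g ↦ -P_g` is a
cocoercive monotone operator and `I = τ(q u) - τ(q_1 u)` controls commutators.  Everything the
analysis needs is the structure `TiltSys`.

**Levels** (`Code`, `Clock`, `Return`, `Level`, `Params`, `Build`): `-log F = ‖x‖⁻¹ + ∑ c_i χ_i`,
where `χ_i ≈ 1_{Θ_i}`, `Θ_i` = ticks of a clock of period `≈ ℓ_i = 8·2^{i²}` whose tick times are
modulated by a shift-separating code; `ψ_i` = clock hand, `ψ∘σ - ψ = 1_Θ - 1/ℓ`.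

**Analysis**: `Test` (★): tilting by `c N̂_n` reproduces `U^{-n} p U^n`, so monotonicity gives
`avg_n ‖[p_g, N̂_n]‖₂² ≲ -∫ P_g ψ - ∫ P_0 ψ + small`.  `Tail`: summing (★) over a block of levels
(the `ψ_j` are nearly orthogonal) kills long displacements.  `Fin1/Fin2`: tilt by
`g = -Γψ - G + κ`, `κ` solving a variational inequality (`VI`) that forces the average of `P_g` on
every segment between ticks to be `t`; monotonicity against `P_0` and the mean ergodic theorem
(`Erg`) make `-∫ P_g ψ` small, so `p_g` is nearly diagonal, nearly increasing along segments, and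
`Seg` gives `min t (1-t) = 0` (`Main`).
-/
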