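import Crest.Agent.R113.Trace

/-!
# Row 113: diagonal and Fourier mass of a projection of `M`
See `R113/Plan.lean` for the whole proof of S0149, `R113/Basic.lean`, `R113/Model.lean` for the
definitions.
-/

set_option autoImplicit false

open MeasureTheory Set Filter Topology
open scoped BigOperators InnerProductSpace

namespace Crest.Agent.R113

/-- the diagonal (clipped to `[0,1]`) -/
noncomputable def dg (q : H →L[ℂ] H) (x : X) : ℝ := max 0 (min 1 ((q vac) (x, 0)).re)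

/-- the Fourier mass -/
noncomputable def ms (q : H →L[ℂ] H) : Measure Y := νY.withDensity fun z => ‖(q vac) z‖ₑ ^ 2

theorem dg_meas (q : H →L[ℂ] H) : Measurable (dg q) :=
  measurable_const.max (measurable_const.min
    (Complex.measurable_re.comp (measurable_slice (q vac) 0)))

theorem dg_nonneg (q : H →L[ℂ] H) (x : X) : 0 ≤ dg q x := le_max_left _ _

theorem dg_le_one (q : H →L[ℂ] H) (x : X) : dg q x ≤ 1 := max_le zero_le_one (min_le_left _ _)

theorem dg_bm (q : H →L[ℂ] H) : BM (dg q) :=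
  ⟨dg_meas q, 1, fun x => abs_le.mpr ⟨by linarith [dg_nonneg q x], dg_le_one q x⟩⟩

theorem ms_fin (q : H →L[ℂ] H) : IsFiniteMeasure (ms q) := by
  have e : (fun z => ‖(q vac) z‖ₑ ^ 2) = fun z => ENNReal.ofReal (‖(q vac) z‖ ^ 2) := by
    funext z
    rw [ENNReal.ofReal_pow (norm_nonneg _), ofReal_norm]
  rw [ms, e]
  exact isFiniteMeasure_withDensity_ofReal (integrable_norm_sq _).2

theorem integral_ms (q : H →L[ℂ] H) {w : Y → ℝ} (hw : Measurable w) {B : ℝ}
    (hB : ∀ z, |w z| ≤ B) :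
    ∫ z, w z ^ 2 ∂(ms q) = ‖mulOp (fun z => (w z : ℂ)) (q vac)‖ ^ 2 := by
  rw [ms, integral_withDensity_eq_integral_toReal_smul
    ((Lp.stronglyMeasurable (q vac)).measurable.enorm.pow_const 2)
    (Eventually.of_forall fun z => ENNReal.pow_lt_top enorm_lt_top), norm_sq_eq_integral]
  refine integral_congr_ae ?_
  filter_upwards [mulOp_ae (BC.ofReal hw hB) (q vac)] with z hz
  rw [hz, norm_mul, mul_pow, Complex.norm_real, Real.norm_eq_abs, sq_abs, ENNReal.toReal_pow,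
    toReal_enorm, smul_eq_mul, mul_comm]

theorem real_ms (q : H →L[ℂ] H) {A : Set Y} (hA : MeasurableSet A) :
    (ms q).real A = ‖mulOp (fun z => ((A.indicator 1 z : ℝ) : ℂ)) (q vac)‖ ^ 2 := by
  rw [← integral_ms q (w := A.indicator 1) (measurable_const.indicator hA) (B := 1) fun z => by
    by_cases h : z ∈ A <;> simp [h], ← integral_indicator_one hA]
  refine integral_congr_ae (Eventually.of_forall fun z => ?_)
  by_cases h : z ∈ A <;> simp [h]

variable {α : X}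

theorem proj_rho_comm {a : H →L[ℂ] H} (ha : a ∈ M α) {g : X → ℂ} (hg : BC g) (ξ : H) :
    a (rho g ξ) = rho g (a ξ) := by
  rw [← mul_apply_eq_comp, ← (mem_M_iff.1 ha).1 g hg, mul_apply_eq_comp]

theorem proj_inner_rho {g : X → ℂ} (hg : BC g) (ξ : H) :
    ⟪vac, rho g ξ⟫_ℂ = ∫ x, g x * ξ (x, 0) ∂μX := by
  rw [inner_vac]
  exact integral_congr_ae (ae_slice (mulOp_ae hg.piR ξ) 0)

theorem proj_inner_left {q : H →L[ℂ] H} (hq : star q = q) (ξ η : H) :
    ⟪q ξ, η⟫_ℂ = ⟪ξ, q η⟫_ℂ := by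
  rw [← ContinuousLinearMap.adjoint_inner_right, ← ContinuousLinearMap.star_eq_adjoint, hq]

theorem proj_inner_self {q : H →L[ℂ] H} (hp : IsStarProjection q) (ξ : H) :
    ⟪ξ, q ξ⟫_ℂ = ((‖q ξ‖ ^ 2 : ℝ) : ℂ) := by
  have h := inner_self_eq_norm_sq_to_K (𝕜 := ℂ) (q ξ)
  rw [proj_inner_left hp.isSelfAdjoint.star_eq, ← mul_apply_eq_comp, hp.isIdempotentElem.eq] at h
  rw [Complex.ofReal_pow]
  exact h

theorem proj_norm_le {q : H →L[ℂ] H} (hp : IsStarProjection q) (ξ : H) : ‖q ξ‖ ≤ ‖ξ‖ :=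
  (q.le_opNorm ξ).trans (mul_le_of_le_one_left (norm_nonneg _) hp.norm_le)

theorem proj_norm_rho_ind {A : Set X} (hA : MeasurableSet A) :
    ‖rho (fun x => ((A.indicator 1 x : ℝ) : ℂ)) vac‖ ^ 2 = μX.real A := by
  rw [norm_rho_vac_sq (BM.ind_one hA).bc, ← integral_indicator_one hA]
  refine integral_congr_ae (Eventually.of_forall fun z => ?_)
  by_cases h : z ∈ A <;> simp [h]

theorem proj_setIntegral {q : H →L[ℂ] H} (hq : q ∈ M α) (hp : IsStarProjection q) {A : Set X}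
    (hA : MeasurableSet A) : ∃ r : ℝ, 0 ≤ r ∧ r ≤ μX.real A ∧
      ∫ x in A, (q vac) (x, 0) ∂μX = r := by
  have hg := (BM.ind_one hA).bc
  set g : X → ℂ := fun x => ((A.indicator 1 x : ℝ) : ℂ) with hgdef
  have h1 : rho g * rho g = rho g := by
    rw [rho_mul hg hg]
    congr 1
    funext x
    by_cases h : x ∈ A <;> simp [hgdef, h]
  have h2 : star (rho g) = rho g := by
    rw [star_rho hg]
    simp only [hgdef, Complex.conj_ofReal]
  refine ⟨‖q (rho g vac)‖ ^ 2, sq_nonneg _, ?_, ?_⟩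
  · rw [← proj_norm_rho_ind hA]
    exact pow_le_pow_left₀ (norm_nonneg _) (proj_norm_le hp _) 2
  · rw [← proj_inner_self hp, proj_inner_left h2, proj_rho_comm hq hg, ← mul_apply_eq_comp, h1,
      proj_inner_rho hg, ← integral_indicator hA]
    refine integral_congr_ae (Eventually.of_forall fun x => ?_)
    by_cases h : x ∈ A <;> simp [hgdef, h]

/-- `[λ u, a] 1₀ = (u(x+dα) - u x) ξ_a` -/
theorem comm_vac {a : H →L[ℂ] H} (ha : a ∈ M α) {u : X → ℝ} (hu : BM u) :
    (lamR α u * a - a * lamR α u) vac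
      = mulOp (fun z => ((u (z.1 + z.2 • α) - u z.1 : ℝ) : ℂ)) (a vac) := by
  rw [sub_apply, mul_apply_eq_comp, mul_apply_eq_comp, lamR, lam_vac α hu.bc,
    proj_rho_comm ha hu.bc, ← sub_apply, lam, rho, mulOp_sub (hu.bc.piL α) hu.bc.piR]
  simp only [Complex.ofReal_sub]

/-- For measurable `A`, with `r = rho 1_A` (a projection commuting with `q`):
`∫_A ξ(x,0) = ⟪1₀, r q 1₀⟫ = ⟪r 1₀, q r 1₀⟫ ∈ [0, μ A]`; hence `ξ(x,0)` is a.e. real and in `[0,1]`
(`ae_eq_zero_of_forall_setIntegral_eq_zero`, `ae_nonneg_of_forall_setIntegral_nonneg`). -/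
theorem dg_ae {q : H →L[ℂ] H} (hq : q ∈ M α) (hp : IsStarProjection q) :
    ∀ᵐ x ∂μX, (q vac) (x, 0) = (dg q x : ℂ) := by
  have hi : Integrable (fun x => (q vac) (x, 0)) μX := (memLp_slice _ 0).integrable one_le_two
  have h1 : (fun x => ((q vac) (x, 0)).im) =ᵐ[μX] 0 := by
    refine hi.im.ae_eq_zero_of_forall_setIntegral_eq_zero fun A hA _ => ?_
    obtain ⟨r, -, -, hr⟩ := proj_setIntegral hq hp hA
    have := integral_im (μ := μX.restrict A) hi.integrableOn
    rw [hr] at this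
    simpa using this
  have hre : ∀ A, MeasurableSet A → 0 ≤ ∫ x in A, ((q vac) (x, 0)).re ∂μX ∧
      ∫ x in A, ((q vac) (x, 0)).re ∂μX ≤ μX.real A := by
    intro A hA
    obtain ⟨r, h0, h1, hr⟩ := proj_setIntegral hq hp hA
    have := integral_re (μ := μX.restrict A) hi.integrableOn
    rw [hr] at this
    have e : ∫ x in A, ((q vac) (x, 0)).re ∂μX = r := by simpa using this
    rw [e]
    exact ⟨h0, h1⟩
  have h2 : 0 ≤ᵐ[μX] fun x => ((q vac) (x, 0)).re :=
    ae_nonneg_of_forall_setIntegral_nonneg hi.re fun A hA _ => (hre A hA).1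
  have h3 : 0 ≤ᵐ[μX] fun x => 1 - ((q vac) (x, 0)).re := by
    refine ae_nonneg_of_forall_setIntegral_nonneg ((integrable_const 1).sub hi.re) fun A hA _ => ?_
    have hA' : IntegrableOn (fun x => ((q vac) (x, 0)).re) A μX := hi.re.integrableOn
    rw [integral_sub (integrable_const 1) hA']
    simpa using (hre A hA).2
  filter_upwards [h1, h2, h3] with x a1 a2 a3
  simp only [Pi.zero_apply] at a1 a2 a3
  rw [dg, min_eq_right (by linarith), max_eq_right a2]
  exact Complex.ext (by simp) (by simp [a1])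

theorem inner_mul_lamR {q : H →L[ℂ] H} (hq : q ∈ M α) (hp : IsStarProjection q) {g : X → ℝ}
    (hg : BM g) : (⟪vac, (q * lamR α g) vac⟫_ℂ).re = ∫ x, dg q x * g x ∂μX := by
  rw [mul_apply_eq_comp, lamR, lam_vac α hg.bc, proj_rho_comm hq hg.bc, proj_inner_rho hg.bc,
    integral_congr_ae (g := fun x => ((dg q x * g x : ℝ) : ℂ)) (by
      filter_upwards [dg_ae hq hp] with x hx
      rw [hx, Complex.ofReal_mul, mul_comm]), integral_complex_ofReal, Complex.ofReal_re]

theorem integral_dg {q : H →L[ℂ] H} (hq : q ∈ M α) (hp : IsStarProjection q) :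
    ∫ x, dg q x ∂μX = (⟪vac, q vac⟫_ℂ).re := by
  have h := inner_mul_lamR hq hp (BM.const 1)
  rw [lamR_one, mul_one] at h
  simp [h]

theorem dg_sub_sq_le {q q' : H →L[ℂ] H} (hq : q ∈ M α) (hp : IsStarProjection q)
    (hq' : q' ∈ M α) (hp' : IsStarProjection q') :
    ∫ x, (dg q x - dg q' x) ^ 2 ∂μX ≤ ‖(q - q') vac‖ ^ 2 := by
  have hm : MeasurableSet {z : Y | z.2 = 0} := measurable_snd (measurableSet_singleton 0)
  rw [norm_sq_eq_integral]
  refine le_trans (le_of_eq ?_) (integral_mono ((integrable_norm_sq ((q - q') vac)).indicator hm)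
    (integrable_norm_sq _) fun z => indicator_le_self' (fun _ _ => sq_nonneg _) z)
  rw [integral_slice _ 0 (Eventually.of_forall fun z hz =>
    indicator_of_notMem (s := {z : Y | z.2 = 0}) hz _)]
  refine integral_congr_ae ?_
  filter_upwards [dg_ae hq hp, dg_ae hq' hp', ae_slice (Lp.coeFn_sub (q vac) (q' vac)) 0]
    with x h1 h2 h3
  rw [indicator_of_mem (by simp), sub_apply, h3, Pi.sub_apply, h1, h2, ← Complex.ofReal_sub,
    Complex.norm_real, Real.norm_eq_abs, sq_abs]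

/-- `‖rho 1_A q 1₀‖ = ‖q rho 1_A 1₀‖ ≤ ‖rho 1_A 1₀‖` -/
theorem ms_fst {q : H →L[ℂ] H} (hq : q ∈ M α) (hp : IsStarProjection q) {A : Set X}
    (hA : MeasurableSet A) : (ms q).real (A ×ˢ univ) ≤ μX.real A := by
  have e : mulOp (fun z : Y => (((A ×ˢ univ).indicator 1 z : ℝ) : ℂ)) =
      rho fun x => ((A.indicator 1 x : ℝ) : ℂ) := by
    rw [rho]
    congr 1
    funext z
    by_cases h : z.1 ∈ A <;> simp [indicator, h]
  rw [real_ms q (hA.prod MeasurableSet.univ), e, ← proj_rho_comm hq (BM.ind_one hA).bc,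
    ← proj_norm_rho_ind hA]
  exact pow_le_pow_left₀ (norm_nonneg _) (proj_norm_le hp _) 2

theorem norm_sub_dg_sq {q : H →L[ℂ] H} (hq : q ∈ M α) (hp : IsStarProjection q) :
    ‖(q - lamR α (dg q)) vac‖ ^ 2 = (ms q).real {z | z.2 ≠ 0} := by
  have hm : MeasurableSet {z : Y | z.2 ≠ 0} := (measurable_snd (measurableSet_singleton 0)).compl
  rw [real_ms q hm, sub_apply, lamR, lam_vac α (dg_bm q).bc]
  congr 2
  refine Lp.ext ?_
  filter_upwards [Lp.coeFn_sub (q vac) (rho (fun x => (dg q x : ℂ)) vac),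
    mulOp_ae (dg_bm q).bc.piR vac, vac_ae, mulOp_ae (BC.ofReal (measurable_const.indicator hm)
      (u := {z : Y | z.2 ≠ 0}.indicator 1) (C := 1) fun z => by
        by_cases h : z.2 = 0 <;> simp [indicator, h]) (q vac),
    Measure.quasiMeasurePreserving_fst.ae (dg_ae hq hp)] with z h1 h2 h3 h4 h5
  rw [h1, h4, Pi.sub_apply, rho, h2, h3]
  obtain ⟨x, d⟩ := z
  by_cases h : d = 0
  · subst h
    simp [h5]
  · simp [indicator, h]

/-- `‖(q - λ Q) 1₀‖² = τ q - 2 τ(q λQ) + ∫ Q² = ∫ Q - ∫ Q²` -/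
theorem dg_diag {q : H →L[ℂ] H} (hq : q ∈ M α) (hp : IsStarProjection q) :
    ∫ x, dg q x * (1 - dg q x) ∂μX ≤ (ms q).real {z | z.2 ≠ 0} := by
  rw [← norm_sub_dg_sq hq hp, sub_apply, @norm_sub_sq ℂ, norm_lamR_vac_sq α (dg_bm q),
    proj_inner_left hp.isSelfAdjoint.star_eq, ← mul_apply_eq_comp]
  have h1 := inner_mul_lamR hq hp (dg_bm q)
  have h2 := integral_dg hq hp
  rw [proj_inner_self hp, Complex.ofReal_re] at h2
  rw [RCLike.re_to_complex, h1, ← h2]
  simp only [mul_sub, mul_one, sq]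
  rw [integral_sub (dg_bm q).integrable ((dg_bm q).mul' (dg_bm q)).integrable]
  linarith

/-- `U^{-n} q U^n 1₀ = U^{-n} ρ_U^n q 1₀` -/
theorem dg_conj {q : H →L[ℂ] H} (hq : q ∈ M α) (n : ℤ) :
    ∀ᵐ x ∂μX, dg (Ud (-n) * q * Ud n) x = dg q (x + n • α) := by
  have e : (Ud (-n) * q * Ud n) vac = shOp (n • α) 0 (q vac) := by
    rw [mul_apply_eq_comp, Ud_vac α, mul_apply_eq_comp, ← mul_apply_eq_comp q,
      ← (mem_M_iff.1 hq).2 n, mul_apply_eq_comp, ← mul_apply_eq_comp, Ud, Rd, shOp_mul, zero_add,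
      neg_add_cancel]
  filter_upwards [ae_slice (shOp_ae (n • α) 0 (q vac)) 0] with x hx
  rw [dg, dg, e, hx, sub_zero]

end Crest.Agent.R113
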