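import Crest.Agent.R113.Basic

/-!
# Row 113: return times of the irrational rotation
See `R113/Plan.lean` for the whole proof of S0149 and `R113/Basic.lean` for the definitions.
-/

set_option autoImplicit false

open MeasureTheory Set Filter Topology
open scoped BigOperators

namespace Crest.Agent.R113

/-- time since the last visit to `I` (`Nat.find`, `measurable_find`) -/
theorem exists_lastVisit {α : X} {I : Set X} (hI : MeasurableSet I)
    (hret : ∀ x, ∃ m : ℕ, 1 ≤ m ∧ x - m • α ∈ I) :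
    ∃ b : X → ℕ, Measurable b ∧ (∀ x, 1 ≤ b x) ∧
      (∀ x (m : ℕ), 1 ≤ m → x - m • α ∈ I → b x ≤ m) ∧
      (∀ x, x ∈ I → b (x + α) = 1) ∧ ∀ x, x ∉ I → b (x + α) = b x + 1 := by
  classical
  have hm : ∀ m : ℕ, MeasurableSet {x : X | 1 ≤ m ∧ x - m • α ∈ I} := by
    intro m
    by_cases h : 1 ≤ m
    · simp only [h, true_and]
      exact (measurable_sub_const (m • α)) hI
    · simp [h]
  have hle : ∀ x (m : ℕ), 1 ≤ m → x - m • α ∈ I → Nat.find (hret x) ≤ m :=
    fun x m h1 h2 => Nat.find_min' (hret x) ⟨h1, h2⟩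
  have h1 : ∀ x, 1 ≤ Nat.find (hret x) := fun x => (Nat.find_spec (hret x)).1
  refine ⟨fun x => Nat.find (hret x), measurable_find hret hm, h1, hle, ?_, ?_⟩
  · intro x hx
    refine le_antisymm (hle _ 1 le_rfl ?_) (h1 _)
    simpa using hx
  · intro x hx
    apply le_antisymm
    · refine hle _ _ (by omega) ?_
      have := (Nat.find_spec (hret x)).2
      rw [succ_nsmul]
      convert this using 1
      abel
    · obtain ⟨a1, a2⟩ := Nat.find_spec (hret (x + α))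
      show Nat.find (hret x) + 1 ≤ Nat.find (hret (x + α))
      generalize Nat.find (hret (x + α)) = m at a1 a2
      obtain ⟨k, rfl⟩ : ∃ k, m = k + 1 := ⟨m - 1, by omega⟩
      have e : x + α - (k + 1) • α = x - k • α := by rw [succ_nsmul]; abel
      rw [e] at a2
      have hk : 1 ≤ k := by
        rcases Nat.eq_zero_or_pos k with rfl | hk
        · exact absurd (by simpa using a2) hx
        · exact hk
      exact Nat.succ_le_succ (hle x k hk a2)

/-- uniform return time (density of `ℕ • α`: `AddCircle.denseRange_zsmul_iff`,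
`denseRange_zsmul_iff_nsmul`; compactness) -/
theorem exists_return {α : X} (hα : addOrderOf α = 0) {δ : ℝ} (hδ : 0 < δ) :
    ∃ Rr : ℕ, ∀ x : X, ∃ m : ℕ, 1 ≤ m ∧ m ≤ Rr ∧ ‖x - m • α‖ < δ := by
  have hd : DenseRange (fun n : ℕ => n • α) :=
    denseRange_zsmul_iff_nsmul.mp (AddCircle.denseRange_zsmul_iff.mpr hα)
  let U : ℕ → Set X := fun n => {x | ‖x - (n + 1) • α‖ < δ}
  have hU : ∀ n, IsOpen (U n) := fun n =>
    isOpen_lt (by fun_prop) continuous_const
  have hc : (univ : Set X) ⊆ ⋃ n, U n := by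
    intro x _
    obtain ⟨n, hn⟩ := Metric.denseRange_iff.mp hd (x - α) δ hδ
    refine mem_iUnion.mpr ⟨n, ?_⟩
    show ‖x - (n + 1) • α‖ < δ
    rw [dist_eq_norm] at hn
    have e : x - (n + 1) • α = x - α - n • α := by rw [succ_nsmul]; abel
    rw [e]; exact hn
  obtain ⟨t, ht⟩ := isCompact_univ.elim_finite_subcover U hU hc
  refine ⟨t.sup id + 1, fun x => ?_⟩
  obtain ⟨n, hn, hx⟩ := mem_iUnion₂.mp (ht (mem_univ x))
  exact ⟨n + 1, by omega, Nat.succ_le_succ (Finset.le_sup (f := id) hn), hx⟩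

/-- arcs shrinking so slowly that the return time at stage `i` is at most `i + 1`
(`‖x‖ ≤ 1/2 < 1`; `Nat.findGreatest`) -/
theorem exists_slow_arcs {α : X} (hα : addOrderOf α = 0) :
    ∃ δ : ℕ → ℝ, Tendsto δ atTop (𝓝 0) ∧
      ∀ (i : ℕ) (x : X), ∃ m : ℕ, 1 ≤ m ∧ m ≤ i + 1 ∧ ‖x - m • α‖ < δ i := by
  classical
  have hR : ∀ k : ℕ, ∃ Rr : ℕ, ∀ x : X, ∃ m : ℕ, 1 ≤ m ∧ m ≤ Rr ∧
      ‖x - m • α‖ < 1 / ((k : ℝ) + 1) := fun k => exists_return hα (by positivity)
  choose R hR using hR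
  let g : ℕ → ℕ := fun i => Nat.findGreatest (fun k => R k ≤ i + 1) i
  have hg : Tendsto g atTop atTop := by
    refine tendsto_atTop_atTop.mpr fun K => ⟨max K (R K), fun i hi => ?_⟩
    have h1 : K ≤ i := (le_max_left _ _).trans hi
    have h2 : R K ≤ i + 1 := ((le_max_right _ _).trans hi).trans (Nat.le_succ _)
    exact Nat.le_findGreatest (P := fun k => R k ≤ i + 1) h1 h2
  refine ⟨fun i => 1 / ((g i : ℝ) + 1), tendsto_one_div_add_atTop_nhds_zero_nat.comp hg, ?_⟩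
  intro i x
  by_cases h0 : g i = 0
  · refine ⟨1, le_rfl, by omega, ?_⟩
    have := AddCircle.norm_le_half_period (1 : ℝ) (x := x - 1 • α) one_ne_zero
    simp only [h0, Nat.cast_zero, zero_add, div_one]
    rw [abs_one] at this
    linarith
  · have hP : R (g i) ≤ i + 1 :=
      Nat.findGreatest_of_ne_zero (P := fun k => R k ≤ i + 1) rfl h0
    obtain ⟨m, h1, h2, h3⟩ := hR (g i) x
    exact ⟨m, h1, h2.trans hP, h3⟩

theorem real_norm_lt_le {r : ℝ} (hr : 0 ≤ r) : μX.real {x : X | ‖x‖ < r} ≤ 2 * r := by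
  have h1 : {x : X | ‖x‖ < r} ⊆ Metric.closedBall 0 r := fun x hx => by
    simpa using le_of_lt hx
  refine (measureReal_mono h1).trans ?_
  have hv : (volume : Measure X) = μX := by
    rw [AddCircle.volume_eq_smul_haarAddCircle]; simp
  rw [← hv, Measure.real, AddCircle.volume_closedBall, ENNReal.toReal_ofReal']
  exact max_le (min_le_right _ _) (by positivity)

/-- an approximate counter -/
theorem exists_counter {α : X} (hα : addOrderOf α = 0) {ε : ℝ} (hε : 0 < ε) :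
    ∃ (j : X → ℕ) (A : Set X), Measurable j ∧ MeasurableSet A ∧ μX.real A ≤ ε ∧
      ∀ x, x ∉ A → j (x + α) = j x + 1 := by
  have hI : MeasurableSet {x : X | ‖x‖ < ε / 2} :=
    (isOpen_lt continuous_norm continuous_const).measurableSet
  obtain ⟨Rr, hR⟩ := exists_return hα (half_pos hε)
  obtain ⟨b, hb, -, -, -, h5⟩ := exists_lastVisit (α := α) hI fun x => by
    obtain ⟨m, h1, -, h3⟩ := hR x
    exact ⟨m, h1, h3⟩
  refine ⟨b, _, hb, hI, ?_, h5⟩
  have := real_norm_lt_le (half_pos hε).le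
  linarith

/-- Urysohn + regularity: compact `K ⊆ Θ ⊆ O ⊆ {‖x‖ < δ}`, `O` open, `μ (O \ K) ≤ ε`. -/
theorem exists_bump {Θ : Set X} (hΘ : MeasurableSet Θ) {δ : ℝ} (hδ : ∀ x ∈ Θ, ‖x‖ < δ)
    {ε : ℝ} (hε : 0 < ε) :
    ∃ (χ : X → ℝ) (B : Set X), Continuous χ ∧ (∀ x, 0 ≤ χ x) ∧ (∀ x, χ x ≤ 1) ∧
      MeasurableSet B ∧ μX.real B ≤ ε ∧ (∀ x, x ∉ B → χ x = Θ.indicator 1 x) ∧
      ∀ x, δ ≤ ‖x‖ → χ x = 0 := by
  have hε2 : ENNReal.ofReal (ε / 2) ≠ 0 := by
    simpa using hε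
  obtain ⟨O, hΘO, hO, -, hO2⟩ := hΘ.exists_isOpen_sdiff_lt (μ := μX) (measure_ne_top _ _) hε2
  obtain ⟨K, hKΘ, hK, hK2⟩ := hΘ.exists_isClosed_sdiff_lt (μ := μX) (measure_ne_top _ _) hε2
  set O' : Set X := O ∩ {x | ‖x‖ < δ} with hO'
  have hO'o : IsOpen O' := hO.inter (isOpen_lt continuous_norm continuous_const)
  have hΘO' : Θ ⊆ O' := fun x hx => ⟨hΘO hx, hδ x hx⟩
  have hdisj : Disjoint O'ᶜ K :=
    Set.disjoint_left.mpr fun x hx hxK => hx (hΘO' (hKΘ hxK))
  obtain ⟨f, hf0, hf1, hf⟩ := exists_continuous_zero_one_of_isClosed hO'o.isClosed_compl hK hdisj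
  refine ⟨f, (O \ Θ) ∪ (Θ \ K), f.continuous, fun x => (hf x).1, fun x => (hf x).2,
    (hO.measurableSet.diff hΘ).union (hΘ.diff hK.measurableSet), ?_, ?_, ?_⟩
  · refine (measureReal_union_le _ _).trans ?_
    have a1 : μX.real (O \ Θ) ≤ ε / 2 :=
      ENNReal.toReal_le_of_le_ofReal (half_pos hε).le hO2.le
    have a2 : μX.real (Θ \ K) ≤ ε / 2 :=
      ENNReal.toReal_le_of_le_ofReal (half_pos hε).le hK2.le
    linarith
  · intro x hx
    by_cases hxΘ : x ∈ Θ
    · have hxK : x ∈ K := by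
        by_contra h
        exact hx (Or.inr ⟨hxΘ, h⟩)
      rw [indicator_of_mem hxΘ]
      exact hf1 hxK
    · have hxO : x ∈ O'ᶜ := fun h => hx (Or.inl ⟨h.1, hxΘ⟩)
      rw [indicator_of_notMem hxΘ]
      exact hf0 hxO
  · intro x hx
    have hxO : x ∈ O'ᶜ := fun h => absurd h.2 (not_lt.mpr hx)
    exact hf0 hxO

end Crest.Agent.R113
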