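import Mathlib

/-!
# Row 113: tilting a projection
See `R113/Plan.lean` for the whole proof of S0149, `R113/Basic.lean`, `R113/Model.lean` for the
definitions.
-/

set_option autoImplicit false

open MeasureTheory Set Filter Topology
open scoped BigOperators InnerProductSpace

namespace Crest.Agent.R113

variable {E : Type*} [NormedAddCommGroup E] [InnerProductSpace ℂ E] [CompleteSpace E]

/-- Kaplansky's formula for the range projection of an idempotent -/
noncomputable def rp (e : E →L[ℂ] E) : E →L[ℂ] E :=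
  e * star e * Ring.inverse (1 + star (e - star e) * (e - star e))

theorem rp_unit (b : E →L[ℂ] E) : IsUnit (1 + star b * b) := by
  have h : (-1 : ℝ) ∉ spectrum ℝ (star b * b) := fun h => by
    have := spectrum_star_mul_self_nonneg _ h
    linarith
  rw [spectrum.notMem_iff] at h
  have e : algebraMap ℝ (E →L[ℂ] E) (-1) - star b * b = -(1 + star b * b) := by
    rw [map_neg, map_one]; abel
  rw [e] at h
  exact (IsUnit.neg_iff _).mp h

theorem rp_spec {e : E →L[ℂ] E} (he : e * e = e) :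
    IsStarProjection (rp e) ∧ rp e * e = e ∧ e * rp e = rp e := by
  set z := 1 + star (e - star e) * (e - star e) with hz
  have hs : star e * star e = star e := by rw [← star_mul, he]
  have hz' : z = 1 + star e * e - star e - e + e * star e := by
    rw [hz, star_sub, star_star, sub_mul, mul_sub, mul_sub, hs, he]; abel
  have h1 : e * z = e * star e * e := by
    rw [hz']
    simp only [mul_add, mul_sub, mul_one, he, ← mul_assoc]; abel
  have h2 : z * e = e * star e * e := by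
    rw [hz']
    simp only [add_mul, sub_mul, one_mul, he, mul_assoc]; abel
  have hzs : star z = z := by
    rw [hz, star_add, star_one, star_mul, star_star]
  have hc : Commute e z := by rw [Commute, SemiconjBy, h1, h2]
  have hc' : Commute (star e) z := by
    have := congrArg star hc.eq
    rw [star_mul, star_mul, hzs] at this
    exact this.symm
  obtain ⟨u, hu⟩ := rp_unit (e - star e)
  rw [← hz] at hu
  have hr : rp e = e * star e * (↑u⁻¹ : E →L[ℂ] E) := by
    rw [rp, ← hz, ← hu, Ring.inverse_unit]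
  rw [← hu] at hc hc' h1
  have hi : Commute e (↑u⁻¹ : E →L[ℂ] E) := hc.units_inv_right
  have hi' : Commute (star e) (↑u⁻¹ : E →L[ℂ] E) := hc'.units_inv_right
  have hus : star (↑u⁻¹ : E →L[ℂ] E) = ↑u⁻¹ := by
    rw [← Units.coe_star_inv]
    congr 2
    ext1
    rw [Units.coe_star, hu, hzs]
  have A : rp e * e = e := by
    rw [hr, mul_assoc, ← hi.eq, ← mul_assoc, ← h1, mul_assoc, Units.mul_inv, mul_one]
  have B : e * rp e = rp e := by
    rw [hr, ← mul_assoc, ← mul_assoc, he]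
  refine ⟨⟨?_, ?_⟩, A, B⟩
  · show rp e * rp e = rp e
    calc rp e * rp e = rp e * e * (star e * (↑u⁻¹ : E →L[ℂ] E)) := by
          nth_rewrite 2 [hr]; simp only [mul_assoc]
      _ = rp e := by rw [A, hr, mul_assoc]
  · show star (rp e) = rp e
    rw [hr, star_mul, star_mul, star_star, hus, ← mul_assoc, ← hi.eq, mul_assoc, ← hi'.eq,
      mul_assoc]

theorem rp_unique {e q : E →L[ℂ] E} (he : e * e = e) (hq : IsStarProjection q) (h1 : q * e = e)
    (h2 : e * q = q) : rp e = q := by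
  obtain ⟨hr, A, B⟩ := rp_spec he
  have h3 : q * rp e = rp e := by rw [← B, ← mul_assoc, h1]
  have h4 : rp e * q = q := by rw [← h2, ← mul_assoc, A]
  have h5 := congrArg star h4
  rw [star_mul, hq.isSelfAdjoint.star_eq, hr.isSelfAdjoint.star_eq, h3] at h5
  exact h5

theorem rp_mem (S : StarSubalgebra ℂ (E →L[ℂ] E))
    (hinv : ∀ a ∈ S, IsUnit a → Ring.inverse a ∈ S) {e : E →L[ℂ] E} (he : e ∈ S) : rp e ∈ S :=
  mul_mem (mul_mem he (star_mem he)) (hinv _ (add_mem (one_mem _)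
    (mul_mem (star_mem (sub_mem he (star_mem he))) (sub_mem he (star_mem he)))) (rp_unit _))

theorem tilt_diff {e : ℝ → E →L[ℂ] E} {s : ℝ} (he : DifferentiableAt ℝ e s) :
    DifferentiableAt ℝ (fun r => rp (e r)) s := by
  have hs : DifferentiableAt ℝ (fun r => star (e r)) s := he.star
  have hb : DifferentiableAt ℝ (fun r => e r - star (e r)) s := he.sub hs
  have hz : DifferentiableAt ℝ (fun r => 1 + star (e r - star (e r)) * (e r - star (e r))) s :=
    (hb.star.mul hb).const_add 1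
  have hi := hz.inverse (rp_unit _)
  exact (he.mul hs).mul hi

/-- the derivative of the tilted projection -/
theorem tilt_deriv {e : ℝ → E →L[ℂ] E} {u : E →L[ℂ] E} (hus : star u = u)
    (hid : ∀ s, e s * e s = e s) {s : ℝ} (he : HasDerivAt e (-(u * e s) + e s * u) s) :
    HasDerivAt (fun r => rp (e r))
      (-((1 - rp (e s)) * u * rp (e s) + rp (e s) * u * (1 - rp (e s)))) s := by
  have hQ := (tilt_diff he.differentiableAt).hasDerivAt
  set Q' := deriv (fun r => rp (e r)) s with hQ'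
  obtain ⟨hp, A, B⟩ := rp_spec (hid s)
  set Q := rp (e s) with hQdef
  have hQQ : Q * Q = Q := hp.isIdempotentElem
  -- differentiate `Q e = e`
  have d1 : Q' * e s + Q * (-(u * e s) + e s * u) = -(u * e s) + e s * u := by
    have h := hQ.mul he
    have e1 : ((fun r => rp (e r)) * e) = e := funext fun r => (rp_spec (hid r)).2.1
    rw [e1] at h
    exact h.unique he
  have d2 : Q' * Q + Q * Q' = Q' := by
    have h := hQ.mul hQ
    have e1 : ((fun r => rp (e r)) * fun r => rp (e r)) = fun r => rp (e r) :=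
      funext fun r => (rp_spec (hid r)).1.isIdempotentElem
    rw [e1] at h
    exact h.unique hQ
  have d3 : star Q' = Q' := by
    have h := hQ.star
    have e1 : (fun r => star (rp (e r))) = fun r => rp (e r) :=
      funext fun r => (rp_spec (hid r)).1.isSelfAdjoint.star_eq
    rw [e1] at h
    exact h.unique hQ
  have d4 : Q' * Q = -((1 - Q) * u * Q) := by
    have h := congrArg (· * Q) d1
    simp only [add_mul, mul_add, mul_neg, neg_mul, mul_assoc, B] at h
    rw [← mul_assoc Q (e s), A] at h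
    have : Q' * Q = Q * (u * Q) - u * Q := by
      have h' : Q' * Q + (-(Q * (u * Q)) + e s * (u * Q)) = -(u * Q) + e s * (u * Q) := h
      calc Q' * Q = (Q' * Q + (-(Q * (u * Q)) + e s * (u * Q))) + Q * (u * Q) - e s * (u * Q) := by
            abel
        _ = Q * (u * Q) - u * Q := by rw [h']; abel
    rw [this, sub_mul, sub_mul, one_mul, mul_assoc]; abel
  have d5 : Q * Q' = -(Q * u * (1 - Q)) := by
    have h := congrArg star d4
    rw [star_mul, d3, hp.isSelfAdjoint.star_eq, star_neg, star_mul, star_mul, star_sub, star_one,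
      hp.isSelfAdjoint.star_eq, hus, ← mul_assoc] at h
    exact h
  rw [← d2, d4, d5, ← neg_add] at hQ
  exact hQ

theorem tilt_norm_sq (ξ : E) (a : E →L[ℂ] E) : ‖a ξ‖ ^ 2 = (⟪ξ, (star a * a) ξ⟫_ℂ).re := by
  rw [mul_apply_eq_comp, ContinuousLinearMap.star_eq_adjoint,
    ContinuousLinearMap.adjoint_inner_right, @norm_sq_eq_re_inner ℂ]
  rfl

/-- the algebra behind the tilt lemma -/
theorem tilt_alg (S : StarSubalgebra ℂ (E →L[ℂ] E)) (ξ : E)
    (htr : ∀ a ∈ S, ∀ b ∈ S, ⟪ξ, (a * b) ξ⟫_ℂ = ⟪ξ, (b * a) ξ⟫_ℂ)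
    {Q u : E →L[ℂ] E} (hQ : Q ∈ S) (hu : u ∈ S) (hp : IsStarProjection Q) (hus : star u = u) :
    ‖(-((1 - Q) * u * Q + Q * u * (1 - Q))) ξ‖ ^ 2
        = - (⟪ξ, ((-((1 - Q) * u * Q + Q * u * (1 - Q))) * u) ξ⟫_ℂ).re ∧
      ‖(u * Q - Q * u) ξ‖ ^ 2
        = - (⟪ξ, ((-((1 - Q) * u * Q + Q * u * (1 - Q))) * u) ξ⟫_ℂ).re := by
  have hQQ : Q * Q = Q := hp.isIdempotentElem
  have hQQ' : ∀ a, Q * (Q * a) = Q * a := fun a => by rw [← mul_assoc, hQQ]
  have hQs : star Q = Q := hp.isSelfAdjoint.star_eq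
  let τ : (E →L[ℂ] E) →ₗ[ℂ] ℂ :=
    { toFun := fun a => ⟪ξ, a ξ⟫_ℂ
      map_add' := fun a b => by simp [inner_add_right]
      map_smul' := fun c a => by simp [inner_smul_right] }
  have hτ : ∀ a, ⟪ξ, a ξ⟫_ℂ = τ a := fun _ => rfl
  have t1 : τ (Q * (u * (u * Q))) = τ (Q * (u * u)) := by
    have := htr (Q * (u * u)) (mul_mem hQ (mul_mem hu hu)) Q hQ
    rw [hτ, hτ, hQQ'] at this
    rw [← this]; simp only [mul_assoc]
  have t2 : τ (u * (u * Q)) = τ (Q * (u * u)) := by
    have := htr (u * u) (mul_mem hu hu) Q hQ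
    rw [hτ, hτ] at this
    rw [← this]; simp only [mul_assoc]
  have t3 : τ (u * (Q * u)) = τ (Q * (u * u)) := by
    have := htr u hu (Q * u) (mul_mem hQ hu)
    rw [hτ, hτ] at this
    rw [this]; simp only [mul_assoc]
  have t4 : τ (Q * (u * (Q * (u * Q)))) = τ (Q * (u * (Q * u))) := by
    have := htr (Q * (u * (Q * u))) (mul_mem hQ (mul_mem hu (mul_mem hQ hu))) Q hQ
    rw [hτ, hτ, hQQ'] at this
    rw [← this]; simp only [mul_assoc]
  have t5 : τ (u * (Q * (u * Q))) = τ (Q * (u * (Q * u))) := by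
    have := htr (u * (Q * u)) (mul_mem hu (mul_mem hQ hu)) Q hQ
    rw [hτ, hτ] at this
    rw [← this]; simp only [mul_assoc]
  rw [tilt_norm_sq, tilt_norm_sq, hτ, hτ, hτ]
  simp only [star_neg, star_add, star_mul, star_sub, star_one, hQs, hus, mul_neg, neg_mul, neg_neg,
    mul_add, add_mul, mul_sub, sub_mul, one_mul, mul_one, mul_assoc, hQQ, hQQ', map_add, map_sub,
    map_neg, t1, t2, t3, t4, t5, Complex.add_re, Complex.sub_re, Complex.neg_re]
  constructor <;> ring

/-- **Tilt lemma.** -/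
theorem tilt (S : StarSubalgebra ℂ (E →L[ℂ] E))
    (hinv : ∀ a ∈ S, IsUnit a → Ring.inverse a ∈ S) (ξ : E)
    (htr : ∀ a ∈ S, ∀ b ∈ S, ⟪ξ, (a * b) ξ⟫_ℂ = ⟪ξ, (b * a) ξ⟫_ℂ)
    {q u : E →L[ℂ] E} (hq : q ∈ S) (hu : u ∈ S) (hqp : IsStarProjection q) (hus : star u = u)
    (y : ℝ → E →L[ℂ] E) (hy : ∀ s, y s ∈ S) (y0 : y 0 = 1)
    (yadd : ∀ s r, y (s + r) = y s * y r) (hcomm : ∀ s, u * y s = y s * u)
    (hder : ∀ s, HasDerivAt y (-(u * y s)) s) :
    ‖(rp (y 1 * q * y (-1)) - q) ξ‖ ^ 2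
        ≤ (⟪ξ, (q * u) ξ⟫_ℂ).re - (⟪ξ, (rp (y 1 * q * y (-1)) * u) ξ⟫_ℂ).re ∧
      ∃ q' ∈ S, ‖(q' - q) ξ‖ ^ 2
          ≤ (⟪ξ, (q * u) ξ⟫_ℂ).re - (⟪ξ, (rp (y 1 * q * y (-1)) * u) ξ⟫_ℂ).re ∧
        ‖(u * q' - q' * u) ξ‖ ^ 2
          ≤ (⟪ξ, (q * u) ξ⟫_ℂ).re - (⟪ξ, (rp (y 1 * q * y (-1)) * u) ξ⟫_ℂ).re := by
  have hqq : q * q = q := hqp.isIdempotentElem
  set e : ℝ → E →L[ℂ] E := fun s => y s * q * y (-s) with he
  have hid : ∀ s, e s * e s = e s := fun s => by
    have h1 : y (-s) * y s = 1 := by rw [← yadd, neg_add_cancel, y0]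
    calc e s * e s = y s * (q * (y (-s) * y s) * q) * y (-s) := by simp only [he, mul_assoc]
      _ = e s := by rw [h1, mul_one, hqq]
  have heS : ∀ s, e s ∈ S := fun s => mul_mem (mul_mem (hy s) hq) (hy _)
  have hed : ∀ s, HasDerivAt e (-(u * e s) + e s * u) s := fun s => by
    have h1 : HasDerivAt (fun r => y (-r)) (u * y (-s)) s := by
      have := (hder (-s)).scomp s (hasDerivAt_neg s)
      simpa [Function.comp_def] using this
    have h2 := ((hder s).mul_const q).mul h1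
    have e2 : -(u * y s) * q * y (-s) + y s * q * (u * y (-s)) = -(u * e s) + e s * u := by
      simp only [he, hcomm (-s), neg_mul, mul_assoc]
    rw [e2] at h2
    exact h2
  set Q : ℝ → E →L[ℂ] E := fun s => rp (e s) with hQ
  set Q' : ℝ → E →L[ℂ] E := fun s => -((1 - Q s) * u * Q s + Q s * u * (1 - Q s)) with hQ'
  have hQd : ∀ s, HasDerivAt Q (Q' s) s := fun s => tilt_deriv hus hid (hed s)
  have hQS : ∀ s, Q s ∈ S := fun s => rp_mem S hinv (heS s)
  have hQp : ∀ s, IsStarProjection (Q s) := fun s => (rp_spec (hid s)).1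
  have hQ0 : Q 0 = q := by
    have : e 0 = q := by simp [he, y0]
    simp only [hQ, this]
    exact rp_unique hqq hqp hqq hqq
  -- evaluation functionals
  have hev : ∀ (W v : E) (s : ℝ), HasDerivAt (fun r => (⟪W, Q r v⟫_ℂ).re) (⟪W, Q' s v⟫_ℂ).re s := by
    intro W v s
    let L : (E →L[ℂ] E) →L[ℝ] ℝ :=
      Complex.reCLM.comp ((((innerSL ℂ W).comp (ContinuousLinearMap.apply ℂ E v)).restrictScalars ℝ))
    exact L.hasFDerivAt.comp_hasDerivAt s (hQd s)
  set φ : ℝ → ℝ := fun s => (⟪ξ, (Q s * u) ξ⟫_ℂ).re with hφ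
  set k : ℝ → ℝ := fun s => ‖Q' s ξ‖ with hk
  have halg := fun s => tilt_alg S ξ htr (hQS s) hu (hQp s) hus
  have hφd : ∀ s, HasDerivAt φ (-(k s ^ 2)) s := fun s => by
    have h1 := hev ξ (u ξ) s
    have h2 := (halg s).1
    simp only [hk]
    rw [h2, neg_neg]
    exact h1
  have hanti : Antitone φ := antitone_of_hasDerivAt_nonpos hφd fun s => by
    simp only [Pi.zero_apply, neg_nonpos]; positivity
  have hclose : ∀ s, 0 ≤ s → s ≤ 1 → ‖(Q s - q) ξ‖ ^ 2 ≤ φ 0 - φ 1 := by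
    intro s hs0 hs1
    set W := (Q s - q) ξ with hW
    have hψ : ∀ r, HasDerivAt (fun r => 2 * (⟪W, Q r ξ⟫_ℂ).re + φ r - r * ‖W‖ ^ 2)
        (2 * (⟪W, Q' r ξ⟫_ℂ).re + -(k r ^ 2) - ‖W‖ ^ 2) r := fun r => by
      have h1 := (((hev W ξ r).const_mul 2).add (hφd r)).sub
        ((hasDerivAt_id r).mul_const (‖W‖ ^ 2))
      rw [one_mul] at h1
      exact h1
    have hanti2 := antitone_of_hasDerivAt_nonpos hψ fun r => by
      have h1 : (⟪W, Q' r ξ⟫_ℂ).re ≤ ‖W‖ * k r :=
        (Complex.re_le_norm _).trans (norm_inner_le_norm _ _)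
      simp only [Pi.zero_apply]
      nlinarith [sq_nonneg (‖W‖ - k r)]
    have h1 := hanti2 hs0
    have h2 : (⟪W, Q s ξ⟫_ℂ).re - (⟪W, Q 0 ξ⟫_ℂ).re = ‖W‖ ^ 2 := by
      rw [← Complex.sub_re, ← inner_sub_right, hQ0, ← sub_apply, ← hW, @norm_sq_eq_re_inner ℂ]
      rfl
    have h3 := hanti hs1
    simp only at h1
    nlinarith [sq_nonneg ‖W‖]
  have hI : (⟪ξ, (q * u) ξ⟫_ℂ).re - (⟪ξ, (rp (y 1 * q * y (-1)) * u) ξ⟫_ℂ).re = φ 0 - φ 1 := by
    simp only [hφ, hQ0]
    rfl
  rw [hI]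
  refine ⟨hclose 1 zero_le_one le_rfl, ?_⟩
  obtain ⟨s, hs, hs'⟩ := exists_hasDerivAt_eq_slope φ (fun s => -(k s ^ 2)) zero_lt_one
    (fun s _ => (hφd s).continuousAt.continuousWithinAt) (fun s _ => hφd s)
  refine ⟨Q s, hQS s, hclose s hs.1.le hs.2.le, ?_⟩
  rw [(halg s).2, ← (halg s).1]
  simp only [hk] at hs'
  simp only [sub_zero, div_one] at hs'
  linarith

end Crest.Agent.R113
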