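import Crest.Agent.R113.Proj
import Crest.Agent.R113.Tilt

/-!
# Row 113: the tilted projections `p_g`
See `R113/Plan.lean` for the whole proof of S0149, `R113/Basic.lean`, `R113/Model.lean` for the
definitions.
-/

set_option autoImplicit false

open MeasureTheory Set Filter Topology
open scoped BigOperators InnerProductSpace

namespace Crest.Agent.R113

/-- `λ(e^{-g})` -/
noncomputable def ex (α : X) (g : X → ℝ) : H →L[ℂ] H := lamR α fun x => Real.exp (- g x)

/-- the idempotent `e^{-g} p e^{g}` -/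
noncomputable def idem (α : X) (p : H →L[ℂ] H) (g : X → ℝ) : H →L[ℂ] H :=
  ex α g * p * ex α (-g)

/-- the projection onto `e^{-g} ran p` -/
noncomputable def pg (α : X) (p : H →L[ℂ] H) (g : X → ℝ) : H →L[ℂ] H := rp (idem α p g)

variable {α : X} {p : H →L[ℂ] H} {g h u : X → ℝ}

theorem ex_mem (hg : BM g) : ex α g ∈ M α := lamR_mem α hg.neg'.exp

theorem ex_add (hg : BM g) (hh : BM h) : ex α (g + h) = ex α g * ex α h := by
  rw [ex, ex, ex, lamR_mul α hg.neg'.exp hh.neg'.exp]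
  congr 1
  funext x
  rw [← Real.exp_add, Pi.add_apply, neg_add]

theorem ex_zero : ex α 0 = 1 := by simpa [ex] using lamR_one α

theorem ex_neg_mul (hg : BM g) : ex α (-g) * ex α g = 1 := by
  rw [← ex_add hg.neg hg, neg_add_cancel, ex_zero]

theorem ex_mul_neg (hg : BM g) : ex α g * ex α (-g) = 1 := by
  rw [← ex_add hg hg.neg, add_neg_cancel, ex_zero]

theorem idem_mem (hp : p ∈ M α) (hg : BM g) : idem α p g ∈ M α :=
  mul_mem (mul_mem (ex_mem hg) hp) (ex_mem hg.neg)

theorem idem_idem (hpp : IsStarProjection p) (hg : BM g) :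
    idem α p g * idem α p g = idem α p g := by
  have h1 : p * p = p := hpp.isIdempotentElem
  calc idem α p g * idem α p g
      = ex α g * (p * (ex α (-g) * ex α g) * p) * ex α (-g) := by simp only [idem, mul_assoc]
    _ = idem α p g := by rw [ex_neg_mul hg, mul_one, h1, idem]

theorem pg_mem (hp : p ∈ M α) (hg : BM g) : pg α p g ∈ M α :=
  rp_mem _ (fun _ => inverse_mem_M) (idem_mem hp hg)

theorem pg_proj (hpp : IsStarProjection p) (hg : BM g) : IsStarProjection (pg α p g) :=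
  (rp_spec (idem_idem hpp hg)).1

theorem pg_mul_idem (hpp : IsStarProjection p) (hg : BM g) :
    pg α p g * idem α p g = idem α p g := (rp_spec (idem_idem hpp hg)).2.1

theorem idem_mul_pg (hpp : IsStarProjection p) (hg : BM g) :
    idem α p g * pg α p g = pg α p g := (rp_spec (idem_idem hpp hg)).2.2

theorem pg_zero (hpp : IsStarProjection p) : pg α p 0 = p := by
  have h1 : p * p = p := hpp.isIdempotentElem
  have h2 : idem α p 0 = p := by simp [idem, ex_zero]
  rw [pg, h2]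
  exact rp_unique h1 hpp h1 h1

/-- `τ(p_g) = τ(e p_g) = τ(p_g e) = τ e = τ p` -/
theorem pg_trace (hp : p ∈ M α) (hpp : IsStarProjection p) (hg : BM g) :
    ⟪vac, pg α p g vac⟫_ℂ = ⟪vac, p vac⟫_ℂ := by
  have h1 := trace_comm (idem_mem hp hg) (pg_mem hp hg)
  rw [idem_mul_pg hpp hg, pg_mul_idem hpp hg] at h1
  rw [h1, idem, trace_comm (mul_mem (ex_mem hg) hp) (ex_mem hg.neg), ← mul_assoc, ex_neg_mul hg,
    one_mul]

/-- `(p_g)_h = p_{g+h}` (by `rp_unique`) -/
theorem pg_pg (hpp : IsStarProjection p) (hg : BM g) (hh : BM h) :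
    pg α (pg α p g) h = pg α p (g + h) := by
  have e1 : idem α p (g + h) = ex α h * idem α p g * ex α (-h) := by
    rw [idem, idem, add_comm g h, ex_add hh hg, neg_add_rev, ex_add hg.neg hh.neg]
    simp only [mul_assoc]
  have hA : idem α p (g + h) * idem α (pg α p g) h = idem α (pg α p g) h := by
    calc idem α p (g + h) * idem α (pg α p g) h
        = ex α h * (idem α p g * (ex α (-h) * ex α h) * pg α p g) * ex α (-h) := by
          rw [e1]; simp only [idem, mul_assoc]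
      _ = idem α (pg α p g) h := by
          rw [ex_neg_mul hh, mul_one, idem_mul_pg hpp hg]; rfl
  have hB : idem α (pg α p g) h * idem α p (g + h) = idem α p (g + h) := by
    calc idem α (pg α p g) h * idem α p (g + h)
        = ex α h * (pg α p g * (ex α (-h) * ex α h) * idem α p g) * ex α (-h) := by
          rw [e1]; simp only [idem, mul_assoc]
      _ = idem α p (g + h) := by
          rw [ex_neg_mul hh, mul_one, pg_mul_idem hpp hg, e1]
  refine rp_unique (idem_idem (pg_proj hpp hg) hh) (pg_proj hpp (hg.add hh)) ?_ ?_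
  · rw [← hA, ← mul_assoc, pg_mul_idem hpp (hg.add hh)]
  · rw [← idem_mul_pg hpp (hg.add hh), ← mul_assoc, hB]

/-- `s ↦ λ(e^{-su})` is differentiable in norm (`Real.abs_exp_sub_one_sub_id_le`,
`norm_lamR_le`, `hasDerivAt_iff_isLittleO_nhds_zero`) -/
theorem hasDerivAt_ex (hu : BM u) (s : ℝ) :
    HasDerivAt (fun r : ℝ => ex α fun x => r * u x) (-(lamR α u * ex α fun x => s * u x)) s := by
  obtain ⟨C, hC⟩ := hu.bdd
  have hC0 : 0 ≤ C := (abs_nonneg _).trans (hC 0)
  have hb : ∀ r : ℝ, BM fun x => Real.exp (-(r * u x)) := fun r => (hu.const_mul r).neg'.exp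
  rw [hasDerivAt_iff_isLittleO_nhds_zero]
  have key : ∀ t : ℝ, |t| * C ≤ 1 →
      ‖(ex α fun x => (s + t) * u x) - (ex α fun x => s * u x)
          - t • (-(lamR α u * ex α fun x => s * u x))‖
        ≤ Real.exp (|s| * C) * C ^ 2 * ‖t ^ 2‖ := by
    intro t ht
    have hsm : ∀ a : H →L[ℂ] H, t • a = (t : ℂ) • a := fun a => by
      ext1 ξ
      rw [smul_apply, smul_apply, Complex.coe_smul]
      rfl
    rw [smul_neg, sub_neg_eq_add, ex, ex, lamR_mul α hu (hb s), hsm,
      lamR_smul α t (hu.mul' (hb s)), lamR_sub α (hb _) (hb s),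
      lamR_add α ((hb _).sub' (hb s)) ((hu.mul' (hb s)).const_mul t)]
    refine norm_lamR_le α (((hb _).sub' (hb s)).add' ((hu.mul' (hb s)).const_mul t)) fun x => ?_
    have h1 : |t * u x| ≤ |t| * C := by
      rw [abs_mul]; exact mul_le_mul_of_nonneg_left (hC x) (abs_nonneg _)
    have h2 : |Real.exp (-(t * u x)) - 1 - (-(t * u x))| ≤ (-(t * u x)) ^ 2 :=
      Real.abs_exp_sub_one_sub_id_le (by rw [abs_neg]; exact h1.trans ht)
    have h3 : Real.exp (-(s * u x)) ≤ Real.exp (|s| * C) := by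
      refine Real.exp_le_exp.mpr ((neg_le_abs _).trans ?_)
      rw [abs_mul]; exact mul_le_mul_of_nonneg_left (hC x) (abs_nonneg _)
    have h4 : (-(t * u x)) ^ 2 ≤ C ^ 2 * ‖t ^ 2‖ := by
      rw [neg_sq, ← sq_abs (t * u x), Real.norm_eq_abs, abs_pow, ← mul_pow, mul_comm C]
      exact pow_le_pow_left₀ (abs_nonneg _) h1 2
    have e : Real.exp (-((s + t) * u x)) - Real.exp (-(s * u x))
          + t * (u x * Real.exp (-(s * u x)))
        = Real.exp (-(s * u x)) * (Real.exp (-(t * u x)) - 1 - (-(t * u x))) := by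
      rw [show -((s + t) * u x) = -(s * u x) + -(t * u x) by ring, Real.exp_add]; ring
    rw [e, abs_mul, abs_of_pos (Real.exp_pos _), mul_assoc]
    exact mul_le_mul h3 (h2.trans h4) (abs_nonneg _) (Real.exp_pos _).le
  have hO : (fun t : ℝ => (ex α fun x => (s + t) * u x) - (ex α fun x => s * u x)
          - t • (-(lamR α u * ex α fun x => s * u x))) =O[𝓝 0] fun t : ℝ => t ^ 2 := by
    refine Asymptotics.IsBigO.of_bound (Real.exp (|s| * C) * C ^ 2) ?_
    have hc : Continuous fun t : ℝ => |t| * C := by fun_prop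
    have : ∀ᶠ t : ℝ in 𝓝 0, |t| * C < 1 :=
      hc.continuousAt.eventually_lt continuousAt_const (by simp)
    filter_upwards [this] with t ht
    exact key t ht.le
  exact hO.trans_isLittleO (Asymptotics.isLittleO_pow_id one_lt_two)

/-- `tilt` with `q = pg g`, `y s = ex (s u)`; `pg_pg`, `inner_mul_lamR` -/
theorem pg_tilt (hp : p ∈ M α) (hpp : IsStarProjection p) (hg : BM g) (hu : BM u) :
    ‖(pg α p (g + u) - pg α p g) vac‖ ^ 2
        ≤ ∫ x, (dg (pg α p g) x - dg (pg α p (g + u)) x) * u x ∂μX ∧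
      ∃ q' ∈ M α, ‖(q' - pg α p g) vac‖ ^ 2
          ≤ ∫ x, (dg (pg α p g) x - dg (pg α p (g + u)) x) * u x ∂μX ∧
        ‖(lamR α u * q' - q' * lamR α u) vac‖ ^ 2
          ≤ ∫ x, (dg (pg α p g) x - dg (pg α p (g + u)) x) * u x ∂μX := by
  have hb : ∀ r : ℝ, BM fun x => Real.exp (-(r * u x)) := fun r => (hu.const_mul r).neg'.exp
  have H := tilt (M α) (fun _ => inverse_mem_M) vac (fun _ ha _ hb => trace_comm ha hb)
    (pg_mem hp hg) (lamR_mem α hu) (pg_proj hpp hg) (star_lamR α hu)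
    (fun r : ℝ => ex α fun x => r * u x) (fun r => ex_mem (hu.const_mul r))
    (by
      have : (fun x => (0 : ℝ) * u x) = 0 := by funext x; simp
      rw [this, ex_zero])
    (fun s r => by
      rw [← ex_add (hu.const_mul s) (hu.const_mul r)]
      congr 1
      funext x
      simp [add_mul])
    (fun s => by
      rw [ex, lamR_mul α hu (hb s), lamR_mul α (hb s) hu]
      simp only [mul_comm])
    (hasDerivAt_ex hu)
  have e1 : (fun x => (1 : ℝ) * u x) = u := by funext x; simp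
  have e2 : (fun x => (-1 : ℝ) * u x) = -u := by funext x; simp
  have e3 : rp (ex α u * pg α p g * ex α (-u)) = pg α p (g + u) := pg_pg hpp hg hu
  have e4 : ∫ x, (dg (pg α p g) x - dg (pg α p (g + u)) x) * u x ∂μX
      = ∫ x, dg (pg α p g) x * u x ∂μX - ∫ x, dg (pg α p (g + u)) x * u x ∂μX := by
    rw [← integral_sub ((dg_bm _).mul' hu).integrable ((dg_bm _).mul' hu).integrable]
    simp only [sub_mul]
  simp only [e1, e2, e3] at H
  rw [inner_mul_lamR (pg_mem hp hg) (pg_proj hpp hg) hu,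
    inner_mul_lamR (pg_mem hp (hg.add hu)) (pg_proj hpp (hg.add hu)) hu, ← e4] at H
  exact H

theorem sys_coco (hp : p ∈ M α) (hpp : IsStarProjection p) (hg : BM g) (hh : BM h) :
    ∫ x, (dg (pg α p g) x - dg (pg α p h) x) ^ 2 ∂μX
      ≤ ∫ x, (dg (pg α p g) x - dg (pg α p h) x) * (h x - g x) ∂μX := by
  have H := (pg_tilt hp hpp hg (hh.sub hg)).1
  rw [add_sub_cancel] at H
  refine (dg_sub_sq_le (pg_mem hp hg) (pg_proj hpp hg) (pg_mem hp hh) (pg_proj hpp hh)).trans ?_
  rw [← neg_sub, neg_apply, norm_neg]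
  exact H

/-- `‖w ξ_q‖ ≤ ‖w ξ_{q'}‖ + B ‖ξ_q - ξ_{q'}‖ ≤ (1 + B) √I` (`integral_ms`, `comm_vac`,
`norm_le_of_ae_le`) -/
theorem sys_comm (hp : p ∈ M α) (hpp : IsStarProjection p) (hg : BM g) (hu : BM u)
    (w : Y → ℝ) (B : ℝ) (hw : Measurable w) (hB : ∀ z, |w z| ≤ B)
    (hwu : ∀ z, |w z| ≤ |u (z.1 + z.2 • α) - u z.1|) :
    ∫ z, w z ^ 2 ∂(ms (pg α p g))
      ≤ (1 + B) ^ 2 * ∫ x, (dg (pg α p g) x - dg (pg α p (g + u)) x) * u x ∂μX := by
  obtain ⟨-, q', hq', h1, h2⟩ := pg_tilt hp hpp hg hu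
  set I := ∫ x, (dg (pg α p g) x - dg (pg α p (g + u)) x) * u x ∂μX
  have hI : 0 ≤ I := (sq_nonneg _).trans h1
  have hB0 : 0 ≤ B := (abs_nonneg _).trans (hB 0)
  have hwc : BC fun z => (w z : ℂ) := BC.ofReal hw hB
  have huc : BC fun z : Y => ((u (z.1 + z.2 • α) - u z.1 : ℝ) : ℂ) := by
    simpa only [Complex.ofReal_sub] using (hu.bc.piL α).sub hu.bc.piR
  have h1' : ‖(q' - pg α p g) vac‖ ≤ √I := Real.le_sqrt_of_sq_le h1
  have h2' : ‖(lamR α u * q' - q' * lamR α u) vac‖ ≤ √I := Real.le_sqrt_of_sq_le h2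
  have h3 : ‖mulOp (fun z => (w z : ℂ)) (q' vac)‖ ≤ √I := by
    refine le_trans (norm_le_of_ae_le ?_) h2'
    rw [comm_vac hq' hu]
    filter_upwards [mulOp_ae hwc (q' vac), mulOp_ae huc (q' vac)] with z e1 e2
    rw [e1, e2, norm_mul, norm_mul, Complex.norm_real, Complex.norm_real]
    exact mul_le_mul_of_nonneg_right (hwu z) (norm_nonneg _)
  have h4 : ‖mulOp (fun z => (w z : ℂ)) ((q' - pg α p g) vac)‖ ≤ B * √I :=
    (norm_mulOp_apply_le hwc (fun z => by simpa using hB z) _).trans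
      (mul_le_mul_of_nonneg_left h1' hB0)
  have h5 : ‖mulOp (fun z => (w z : ℂ)) (pg α p g vac)‖ ≤ (1 + B) * √I := by
    have e : mulOp (fun z => (w z : ℂ)) (pg α p g vac)
        = mulOp (fun z => (w z : ℂ)) (q' vac)
          - mulOp (fun z => (w z : ℂ)) ((q' - pg α p g) vac) := by
      rw [sub_apply, map_sub, sub_sub_cancel]
    rw [e]
    refine (norm_sub_le _ _).trans ?_
    linarith
  rw [integral_ms _ hw hB]
  calc ‖mulOp (fun z => (w z : ℂ)) (pg α p g vac)‖ ^ 2 ≤ ((1 + B) * √I) ^ 2 :=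
        pow_le_pow_left₀ (norm_nonneg _) h5 2
    _ = (1 + B) ^ 2 * I := by rw [mul_pow, Real.sq_sqrt hI]

end Crest.Agent.R113
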