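import Crest.Agent.R113.Sys1

/-!
# Row 113: consequences of invariance
See `R113/Plan.lean` for the whole proof of S0149, `R113/Basic.lean`, `R113/Model.lean` for the
definitions.
-/

set_option autoImplicit false

open MeasureTheory Set Filter Topology
open scoped BigOperators InnerProductSpace

namespace Crest.Agent.R113

variable {α : X} {p : H →L[ℂ] H} {F g h : X → ℝ}

/-- `T^n = U^n λ(f_n)` leaves `ran p` invariant (`lamR_mul_Ud`, induction) -/
theorem inv_pow (hF : BM F) (hpp : IsStarProjection p)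
    (hinv : (1 - p) * (Ud 1 * lamR α F) * p = 0) (n : ℕ) :
    (1 - p) * (Ud n * lamR α (fn α F n)) * p = 0 := by
  induction n with
  | zero =>
    have e : fn α F 0 = fun _ => 1 := by funext x; simp [fn]
    rw [e, lamR_one, Nat.cast_zero, Ud_zero, mul_one, mul_one, sub_mul, one_mul,
      hpp.isIdempotentElem.eq, sub_self]
  | succ n ih =>
    have e : Ud ((n + 1 : ℕ) : ℤ) * lamR α (fn α F (n + 1))
        = (Ud 1 * lamR α F) * (Ud n * lamR α (fn α F n)) := by
      rw [mul_assoc, ← mul_assoc (lamR α F), lamR_mul_Ud α hF, mul_assoc,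
        lamR_mul α (hF.shift _) (hF.fn α n), ← mul_assoc, Ud_mul, Nat.cast_succ, add_comm]
      congr 2
      funext x
      rw [fn, Finset.prod_range_succ, natCast_zsmul, mul_comm]
      rfl
    rw [e]
    calc (1 - p) * (Ud 1 * lamR α F * (Ud n * lamR α (fn α F n))) * p
        = ((1 - p) * (Ud 1 * lamR α F) * p) * (Ud n * lamR α (fn α F n)) * p
          + (1 - p) * (Ud 1 * lamR α F) * ((1 - p) * (Ud n * lamR α (fn α F n)) * p) := by
          noncomm_ring
      _ = 0 := by rw [hinv, ih]; simp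

theorem sys2_norm_sq (a : H →L[ℂ] H) : ‖a vac‖ ^ 2 = (⟪vac, (star a * a) vac⟫_ℂ).re := by
  rw [mul_apply_eq_comp, ContinuousLinearMap.star_eq_adjoint,
    ContinuousLinearMap.adjoint_inner_right, @norm_sq_eq_re_inner ℂ]
  rfl

theorem sys2_proj_sub {a b : H →L[ℂ] H} (ha : a ∈ M α) (hb : b ∈ M α) (hap : IsStarProjection a)
    (hbp : IsStarProjection b) (h : ⟪vac, a vac⟫_ℂ = ⟪vac, b vac⟫_ℂ) :
    ‖(b - a) vac‖ ^ 2 = 2 * ‖((1 - a) * b) vac‖ ^ 2 := by
  have a2 : a * a = a := hap.isIdempotentElem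
  have b2 : b * b = b := hbp.isIdempotentElem
  have e1 : star (b - a) * (b - a) = b + a - b * a - a * b := by
    rw [star_sub, hap.isSelfAdjoint.star_eq, hbp.isSelfAdjoint.star_eq, sub_mul, mul_sub, mul_sub,
      a2, b2]
    abel
  have e2 : star ((1 - a) * b) * ((1 - a) * b) = b - b * (a * b) := by
    rw [star_mul, hap.one_sub.isSelfAdjoint.star_eq, hbp.isSelfAdjoint.star_eq, mul_assoc,
      ← mul_assoc (1 - a), hap.one_sub.isIdempotentElem.eq, sub_mul, one_mul, mul_sub, b2]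
  have t1 := trace_comm hb (mul_mem ha hb)
  rw [mul_assoc a b b, b2] at t1
  have t2 := trace_comm hb ha
  rw [sys2_norm_sq, sys2_norm_sq, e1, e2]
  simp only [sub_apply, add_apply, inner_sub_right, inner_add_right, t1, t2, h, Complex.sub_re,
    Complex.add_re]
  ring

theorem sys2_sandwich {a x b : H →L[ℂ] H} (ha : ‖a‖ ≤ 1) (hx : x ∈ M α) (hb : b ∈ M α)
    (hb1 : ‖b‖ ≤ 1) : ‖(a * (x * b)) vac‖ ≤ ‖x vac‖ :=
  calc ‖(a * (x * b)) vac‖ ≤ ‖a‖ * ‖(x * b) vac‖ := norm_mul_vac_le_left _ _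
    _ ≤ 1 * (‖x vac‖ * 1) :=
      mul_le_mul ha ((norm_mul_vac_le_right hx hb).trans
        (mul_le_mul_of_nonneg_left hb1 (norm_nonneg _))) (norm_nonneg _) zero_le_one
    _ = ‖x vac‖ := by ring

theorem sys2_norm_mul {a b : H →L[ℂ] H} (ha : ‖a‖ ≤ 1) (hb : ‖b‖ ≤ 1) : ‖a * b‖ ≤ 1 :=
  (norm_mul_le _ _).trans (mul_le_one₀ ha (norm_nonneg _) hb)

/-- Let `p' = U^{-n} p U^n`, `r = pg h`, `D = λ(f_n e^{h+k})`.  Then `(1-p') D r = 0`
(`r = idem * r`), `τ p' = τ r`, so `‖(p' - r) 1₀‖² = 2 ‖(1-p') r 1₀‖² = 2 ‖(1-p')(1-D) r 1₀‖²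
≤ 2 ‖(1-D) 1₀‖²` (`norm_mul_vac_le_left/right`, `norm_lamR_vac_sq`); `dg_sub_sq_le`, `dg_conj`,
`pg_zero`. -/
theorem sys_cov (hF : BM F) (hp : p ∈ M α) (hpp : IsStarProjection p)
    (hinv : (1 - p) * (Ud 1 * lamR α F) * p = 0) (hh : BM h) (n : ℕ) (k : ℝ) :
    ∫ x, (dg (pg α p h) x - dg (pg α p 0) (x + n • α)) ^ 2 ∂μX
      ≤ 2 * ∫ x, (1 - fn α F n x * Real.exp (h x + k)) ^ 2 ∂μX := by
  have hU : Ud (-(n : ℤ)) * Ud n = 1 := by rw [Ud_mul, neg_add_cancel, Ud_zero]
  have hU' : Ud (n : ℤ) * Ud (-(n : ℤ)) = 1 := by rw [Ud_mul, add_neg_cancel, Ud_zero]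
  set p' : H →L[ℂ] H := Ud (-(n : ℤ)) * p * Ud n with hp'
  have hp'M : p' ∈ M α := mul_mem (mul_mem (Ud_mem α _) hp) (Ud_mem α _)
  have hp'p : IsStarProjection p' := by
    refine ⟨?_, ?_⟩
    · have h1 : p * p = p := hpp.isIdempotentElem
      calc p' * p' = Ud (-(n : ℤ)) * (p * (Ud n * Ud (-(n : ℤ))) * p) * Ud n := by
            simp only [hp', mul_assoc]
        _ = p' := by rw [hU', mul_one, h1]
    · rw [IsSelfAdjoint, hp', star_mul, star_mul, star_Ud, star_Ud, neg_neg,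
        hpp.isSelfAdjoint.star_eq, mul_assoc]
  have htr : ⟪vac, p' vac⟫_ℂ = ⟪vac, pg α p h vac⟫_ℂ := by
    rw [pg_trace hp hpp hh, hp', trace_comm (mul_mem (Ud_mem α _) hp) (Ud_mem α _), ← mul_assoc,
      hU', one_mul]
  have hD : BM fun x => fn α F n x * Real.exp (h x + k) :=
    (hF.fn α n).mul' (hh.add' (BM.const k)).exp
  have h0 : (1 - p') * (lamR α (fun x => fn α F n x * Real.exp (h x + k)) * pg α p h) = 0 := by
    have e1 : lamR α (fun x => fn α F n x * Real.exp (h x + k)) * ex α h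
        = (Real.exp k : ℂ) • lamR α (fn α F n) := by
      rw [ex, lamR_mul α hD hh.neg'.exp, lamR_smul α _ (hF.fn α n)]
      congr 1
      funext x
      rw [mul_assoc, ← Real.exp_add, mul_comm]
      congr 2
      ring
    have e2 : 1 - p' = Ud (-(n : ℤ)) * (1 - p) * Ud n := by
      rw [mul_sub, sub_mul, mul_one, hU]
    rw [← idem_mul_pg hpp hh, idem, e2]
    calc Ud (-(n : ℤ)) * (1 - p) * Ud n * (lamR α (fun x => fn α F n x * Real.exp (h x + k)) *
          (ex α h * p * ex α (-h) * pg α p h))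
        = Ud (-(n : ℤ)) * (1 - p) * Ud n * (lamR α (fun x => fn α F n x * Real.exp (h x + k)) *
          ex α h) * p * (ex α (-h) * pg α p h) := by simp only [mul_assoc]
      _ = (Real.exp k : ℂ) • (Ud (-(n : ℤ)) * ((1 - p) * (Ud n * lamR α (fn α F n)) * p) *
          (ex α (-h) * pg α p h)) := by
          rw [e1]
          simp only [mul_assoc, mul_smul_comm, smul_mul_assoc]
      _ = 0 := by rw [inv_pow hF hpp hinv n]; simp
  have h1 : (1 - p') * pg α p h = (1 - p') *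
      (lamR α (fun x => 1 - fn α F n x * Real.exp (h x + k)) * pg α p h) := by
    rw [← lamR_sub α (BM.const 1) hD, lamR_one, sub_mul 1 (lamR α _), mul_sub (1 - p'), h0,
      sub_zero, one_mul]
  have h2 : ‖((1 - p') * pg α p h) vac‖ ^ 2
      ≤ ∫ x, (1 - fn α F n x * Real.exp (h x + k)) ^ 2 ∂μX := by
    rw [← norm_lamR_vac_sq α ((BM.const 1).sub' hD), h1]
    exact pow_le_pow_left₀ (norm_nonneg _) (sys2_sandwich hp'p.one_sub.norm_le
      (lamR_mem α ((BM.const 1).sub' hD)) (pg_mem hp hh) (pg_proj hpp hh).norm_le) 2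
  calc ∫ x, (dg (pg α p h) x - dg (pg α p 0) (x + n • α)) ^ 2 ∂μX
      = ∫ x, (dg (pg α p h) x - dg p' x) ^ 2 ∂μX := by
        refine integral_congr_ae ?_
        filter_upwards [dg_conj hp (n : ℤ)] with x hx
        rw [pg_zero hpp, hx, natCast_zsmul]
    _ ≤ ‖(pg α p h - p') vac‖ ^ 2 := dg_sub_sq_le (pg_mem hp hh) (pg_proj hpp hh) hp'M hp'p
    _ = 2 * ‖((1 - p') * pg α p h) vac‖ ^ 2 :=
        sys2_proj_sub hp'M (pg_mem hp hh) hp'p (pg_proj hpp hh) htr
    _ ≤ _ := by linarith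

/-- Let `q = pg g`, `Q = dg q`, `w = e^{k + g - g∘σ^n} f_n`, `A = U^n λ(1_S)`.  Then
`(1-q) U^n λ(w) q = 0`, so `‖(1-q) A q 1₀‖ ≤ ‖w - 1_S‖₂`;
`(1-λQ) A λQ - (1-q) A q = (q - λQ) A λQ + (1-q) A (λQ - q)` has 2-norm `≤ 2 ‖(q - λQ) 1₀‖`
(`norm_sub_dg_sq`); `(1-λQ) A λQ = U^n λ((1 - Q∘σ^n) 1_S Q)` has squared 2-norm
`∫ ((1 - Q∘σ^n) 1_S Q)²`; Cauchy–Schwarz (`BM.integral_mul_le` with `1`). -/
theorem sys_inv (hF : BM F) (hp : p ∈ M α) (hpp : IsStarProjection p)
    (hinv : (1 - p) * (Ud 1 * lamR α F) * p = 0) (hg : BM g) (n : ℕ) (k : ℝ) (S : Set X)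
    (hS : MeasurableSet S) :
    ∫ x in S, dg (pg α p g) x * (1 - dg (pg α p g) (x + n • α)) ∂μX
      ≤ √(∫ x, (Real.exp (k + g x - g (x + n • α)) * fn α F n x - S.indicator 1 x) ^ 2 ∂μX)
        + 2 * √((ms (pg α p g)).real {z | z.2 ≠ 0}) := by
  set q := pg α p g with hq
  have hqM : q ∈ M α := pg_mem hp hg
  have hqp : IsStarProjection q := pg_proj hpp hg
  have hw : BM fun x => Real.exp (k + g x - g (x + n • α)) * fn α F n x :=
    ((((BM.const k).add' hg).sub' (hg.shift _)).exp).mul' (hF.fn α n)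
  have hS1 : BM (S.indicator (1 : X → ℝ)) := BM.ind_one hS
  have hQ : BM (dg q) := dg_bm q
  -- invariance
  have h0 : (1 - q) * Ud n *
      (lamR α (fun x => Real.exp (k + g x - g (x + n • α)) * fn α F n x) * q) = 0 := by
    have e1 : Ud n * (lamR α (fun x => Real.exp (k + g x - g (x + n • α)) * fn α F n x) * ex α g)
        = (Real.exp k : ℂ) • (ex α g * (Ud n * lamR α (fn α F n))) := by
      rw [ex, lamR_mul α hw hg.neg'.exp, ← mul_assoc, lamR_mul_Ud α hg.neg'.exp, mul_assoc,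
        lamR_mul α (hg.neg'.exp.shift _) (hF.fn α n), ← mul_smul_comm,
        lamR_smul α _ ((hg.neg'.exp.shift _).mul' (hF.fn α n))]
      congr 2
      funext x
      rw [natCast_zsmul, mul_right_comm, ← Real.exp_add, ← mul_assoc, ← Real.exp_add]
      congr 2
      ring
    have e2 : Ud n * lamR α (fn α F n) * p = p * (Ud n * lamR α (fn α F n) * p) := by
      have := inv_pow hF hpp hinv n
      rw [mul_assoc, sub_mul, one_mul, sub_eq_zero] at this
      exact this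
    have e3 : (1 - q) * (ex α g * p) = 0 := by
      have : ex α g * p = idem α p g * ex α g := by
        rw [idem, mul_assoc, ex_neg_mul hg, mul_one]
      rw [this, ← mul_assoc, sub_mul, one_mul, hq, pg_mul_idem hpp hg, sub_self, zero_mul]
    have e4 : q = ex α g * p * (ex α (-g) * q) := by
      rw [← mul_assoc]
      exact (idem_mul_pg hpp hg).symm
    calc (1 - q) * Ud n * (lamR α (fun x => Real.exp (k + g x - g (x + n • α)) * fn α F n x) * q)
        = (1 - q) * Ud n * (lamR α (fun x => Real.exp (k + g x - g (x + n • α)) * fn α F n x) *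
          (ex α g * p * (ex α (-g) * q))) := by rw [← e4]
      _ = (1 - q) * (Ud n * (lamR α (fun x => Real.exp (k + g x - g (x + n • α)) * fn α F n x) *
          ex α g)) * p * (ex α (-g) * q) := by simp only [mul_assoc]
      _ = (Real.exp k : ℂ) • ((1 - q) * ex α g * (Ud n * lamR α (fn α F n) * p) *
          (ex α (-g) * q)) := by
          rw [e1]
          simp only [mul_assoc, mul_smul_comm, smul_mul_assoc]
      _ = (Real.exp k : ℂ) • ((1 - q) * (ex α g * p) * (Ud n * lamR α (fn α F n) * p) *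
          (ex α (-g) * q)) := by
          rw [e2]
          simp only [mul_assoc]
          rw [← mul_assoc p p, hpp.isIdempotentElem.eq]
      _ = 0 := by rw [e3]; simp
  have hqU : ‖(1 - q) * Ud n‖ ≤ 1 := sys2_norm_mul hqp.one_sub.norm_le (norm_Ud_le _)
  have h1 : ‖((1 - q) * Ud n * (lamR α (S.indicator 1) * q)) vac‖
      ≤ √(∫ x, (Real.exp (k + g x - g (x + n • α)) * fn α F n x - S.indicator 1 x) ^ 2 ∂μX) := by
    rw [← norm_lamR_vac_sq α (hw.sub' hS1), Real.sqrt_sq (norm_nonneg _)]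
    refine le_trans (le_of_eq ?_) (sys2_sandwich hqU (lamR_mem α (hw.sub' hS1)) hqM hqp.norm_le)
    rw [← lamR_sub α hw hS1, sub_mul _ _ q, mul_sub ((1 - q) * Ud n), h0, zero_sub, neg_apply,
      norm_neg]
  have hL : ‖lamR α (dg q)‖ ≤ 1 := norm_lamR_le α hQ fun x =>
    abs_le.2 ⟨by linarith [dg_nonneg q x], dg_le_one q x⟩
  have hI : ‖lamR α (S.indicator 1)‖ ≤ 1 := norm_lamR_le α hS1 fun x => by
    by_cases hx : x ∈ S <;> simp [hx]
  have hm : ‖(q - lamR α (dg q)) vac‖ = √((ms q).real {z | z.2 ≠ 0}) := by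
    rw [← norm_sub_dg_sq hqM hqp, Real.sqrt_sq (norm_nonneg _)]
  have hdM : q - lamR α (dg q) ∈ M α := sub_mem hqM (lamR_mem α hQ)
  have h2 : ‖((q - lamR α (dg q)) * (Ud n * lamR α (S.indicator 1) * lamR α (dg q))) vac‖
      ≤ √((ms q).real {z | z.2 ≠ 0}) := by
    rw [← hm]
    refine (norm_mul_vac_le_right hdM (mul_mem (mul_mem (Ud_mem α _) (lamR_mem α hS1))
      (lamR_mem α hQ))).trans ?_
    exact mul_le_of_le_one_right (norm_nonneg _)
      (sys2_norm_mul (sys2_norm_mul (norm_Ud_le _) hI) hL)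
  have h3 : ‖((1 - q) * Ud n * lamR α (S.indicator 1) * (q - lamR α (dg q))) vac‖
      ≤ √((ms q).real {z | z.2 ≠ 0}) := by
    rw [← hm]
    exact (norm_mul_vac_le_left _ _).trans
      (mul_le_of_le_one_left (norm_nonneg _) (sys2_norm_mul hqU hI))
  have hW : BM fun x => (1 - dg q (x + n • α)) * (S.indicator 1 x * dg q x) :=
    ((BM.const 1).sub' (hQ.shift _)).mul' (hS1.mul' hQ)
  have e5 : Ud n * lamR α (fun x => (1 - dg q (x + n • α)) * (S.indicator 1 x * dg q x))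
      = (1 - q) * Ud n * (lamR α (S.indicator 1) * q)
        + (q - lamR α (dg q)) * (Ud n * lamR α (S.indicator 1) * lamR α (dg q))
        - (1 - q) * Ud n * lamR α (S.indicator 1) * (q - lamR α (dg q)) := by
    have e6 : (1 - lamR α (dg q)) * Ud n = Ud n * lamR α (fun x => 1 - dg q (x + n • α)) := by
      rw [← lamR_one α, lamR_sub α (BM.const 1) hQ, lamR_mul_Ud α ((BM.const 1).sub' hQ)]
      simp only [natCast_zsmul]
    rw [← lamR_mul α ((BM.const 1).sub' (hQ.shift _)) (hS1.mul' hQ), ← lamR_mul α hS1 hQ,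
      ← mul_assoc, ← e6]
    noncomm_ring
  have h4 : √(∫ x, ((1 - dg q (x + n • α)) * (S.indicator 1 x * dg q x)) ^ 2 ∂μX)
      ≤ √(∫ x, (Real.exp (k + g x - g (x + n • α)) * fn α F n x - S.indicator 1 x) ^ 2 ∂μX)
        + 2 * √((ms q).real {z | z.2 ≠ 0}) := by
    rw [← norm_lamR_vac_sq α hW, Real.sqrt_sq (norm_nonneg _), ← norm_Ud_apply (n : ℤ),
      ← mul_apply_eq_comp, e5, sub_apply, add_apply]
    refine (norm_sub_le _ _).trans ((add_le_add (norm_add_le _ _) le_rfl).trans ?_)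
    linarith
  have h5 := hW.integral_mul_le (BM.const 1)
  simp only [mul_one, one_pow, integral_const, probReal_univ, smul_eq_mul, Real.sqrt_one] at h5
  refine le_trans (le_of_eq ?_) ((le_abs_self _).trans (h5.trans h4))
  rw [← integral_indicator hS]
  refine integral_congr_ae (Eventually.of_forall fun x => ?_)
  by_cases hx : x ∈ S <;> simp [hx, mul_comm]

/-- the tilt system of an invariant projection -/
noncomputable def tiltSys (hF : BM F) (hp : p ∈ M α) (hpp : IsStarProjection p)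
    (hinv : (1 - p) * (Ud 1 * lamR α F) * p = 0) : TiltSys α F (⟪vac, p vac⟫_ℂ).re where
  P g := dg (pg α p g)
  m g := ms (pg α p g)
  P_meas _ := dg_meas _
  P_nonneg _ := dg_nonneg _
  P_le_one _ := dg_le_one _
  m_fin _ := ms_fin _
  P_int _ hg := by rw [integral_dg (pg_mem hp hg) (pg_proj hpp hg), pg_trace hp hpp hg]
  m_fst _ hg _ hA := ms_fst (pg_mem hp hg) (pg_proj hpp hg) hA
  diag _ hg := dg_diag (pg_mem hp hg) (pg_proj hpp hg)
  coco _ _ hg hh := sys_coco hp hpp hg hh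
  comm _ _ hg hu := sys_comm hp hpp hg hu
  cov _ hh := sys_cov hF hp hpp hinv hh
  inv _ hg := sys_inv hF hp hpp hinv hg

end Crest.Agent.R113
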