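/- Row 113, S0150: the 2-adic block enumeration `aa x j`. -/
import Crest.Prelude.Def_TwoAdicShift

set_option autoImplicit false

namespace Crest.Agent.R113

open Crest.AnalysisR.TwoAdic MeasureTheory

attribute [local instance] Crest.AnalysisR.TwoAdic.borelTwoAdic
  Crest.AnalysisR.TwoAdic.borelSpace_twoAdic

/-- residue of `x` modulo `2 ^ n` -/
noncomputable def taR (n : ℕ) (x : ℤ_[2]) : ℤ := (x.appr n : ℤ)

theorem taR_nonneg (n : ℕ) (x : ℤ_[2]) : 0 ≤ taR n x := Int.natCast_nonneg _

theorem taR_lt (n : ℕ) (x : ℤ_[2]) : taR n x < 2 ^ n := by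
  unfold taR
  exact_mod_cast PadicInt.appr_lt x n

theorem taR_zero (x : ℤ_[2]) : taR 0 x = 0 := by
  have h1 := taR_nonneg 0 x
  have h2 := taR_lt 0 x
  omega

theorem taR_spec (n : ℕ) (x : ℤ_[2]) : (2 : ℤ_[2]) ^ n ∣ x - (taR n x : ℤ_[2]) := by
  have := PadicInt.appr_spec n x
  rw [Ideal.mem_span_singleton] at this
  simpa [taR] using this

theorem ta_int_dvd {n : ℕ} {k : ℤ} (h : (2 : ℤ_[2]) ^ n ∣ (k : ℤ_[2])) : (2 : ℤ) ^ n ∣ k := by
  have h1 : ‖(k : ℤ_[2])‖ ≤ ((2 : ℕ) : ℝ) ^ (-n : ℤ) := by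
    rw [PadicInt.norm_le_pow_iff_mem_span_pow, Ideal.mem_span_singleton]
    simpa using h
  have := (PadicInt.norm_int_le_pow_iff_dvd (p := 2) (k := k) (n := n)).1 h1
  simpa using this

theorem taR_unique {n : ℕ} {x : ℤ_[2]} {k : ℤ} (h0 : 0 ≤ k) (h1 : k < 2 ^ n)
    (h : (2 : ℤ_[2]) ^ n ∣ x - (k : ℤ_[2])) : taR n x = k := by
  have h2 : (2 : ℤ_[2]) ^ n ∣ ((taR n x - k : ℤ) : ℤ_[2]) := by
    have := dvd_sub h (taR_spec n x)
    push_cast
    convert this using 1
    ring
  have h3 := ta_int_dvd h2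
  have h4 := taR_nonneg n x
  have h5 := taR_lt n x
  have : taR n x - k = 0 := Int.eq_zero_of_abs_lt_dvd h3 (by rw [abs_lt]; constructor <;> omega)
  omega

theorem taR_succ (n : ℕ) (x : ℤ_[2]) :
    taR (n + 1) x = taR n x ∨ taR (n + 1) x = taR n x + 2 ^ n := by
  have h2 : (2 : ℤ_[2]) ^ n ∣ ((taR (n + 1) x - taR n x : ℤ) : ℤ_[2]) := by
    have h1 : (2 : ℤ_[2]) ^ n ∣ x - (taR (n + 1) x : ℤ_[2]) :=
      (pow_dvd_pow 2 (Nat.le_succ n)).trans (taR_spec (n + 1) x)
    have := dvd_sub (taR_spec n x) h1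
    push_cast
    convert this using 1
    ring
  obtain ⟨c, hc⟩ := ta_int_dvd h2
  have h4 := taR_nonneg n x
  have h5 := taR_lt n x
  have h6 := taR_nonneg (n + 1) x
  have h7 := taR_lt (n + 1) x
  rw [pow_succ] at h7
  have hp : (0 : ℤ) < 2 ^ n := by positivity
  have c1 : -1 < c := by
    by_contra hh
    have : c ≤ -1 := by omega
    nlinarith
  have c2 : c < 2 := by
    by_contra hh
    have : 2 ≤ c := by omega
    nlinarith
  rcases (by omega : c = 0 ∨ c = 1) with rfl | rfl
  · left; omega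
  · right; omega

theorem taR_mono (x : ℤ_[2]) {m n : ℕ} (h : m ≤ n) : taR m x ≤ taR n x := by
  unfold taR
  exact_mod_cast PadicInt.appr_mono x h

theorem taS_mono (x : ℤ_[2]) {m n : ℕ} (h : m ≤ n) : 2 ^ m - taR m x ≤ 2 ^ n - taR n x := by
  induction n, h using Nat.le_induction with
  | base => exact le_rfl
  | succ n _ ih =>
    have hp : (0 : ℤ) < 2 ^ n := by positivity
    rcases taR_succ n x with h | h <;> rw [h, pow_succ] <;> omega

theorem measurable_taR (n : ℕ) : Measurable (taR n) := by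
  have hc : Continuous (taR n) := by
    rw [continuous_iff_continuousAt]
    intro x
    have : ∀ᶠ y in nhds x, taR n y = taR n x := by
      have hb : Metric.closedBall x (((2 : ℕ) : ℝ) ^ (-n : ℤ)) ∈ nhds x :=
        Metric.closedBall_mem_nhds x (by positivity)
      filter_upwards [hb] with y hy
      refine taR_unique (taR_nonneg n x) (taR_lt n x) ?_
      rw [Metric.mem_closedBall, dist_eq_norm, PadicInt.norm_le_pow_iff_mem_span_pow,
        Ideal.mem_span_singleton] at hy
      have := dvd_add hy (taR_spec n x)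
      convert this using 1
      · simp
      · ring
    exact (continuousAt_const.congr (this.mono fun y hy => hy.symm))
  exact hc.measurable

/-- `x + j` lies in the level `n` block of `x` -/
def taP (n : ℕ) (x : ℤ_[2]) (j : ℤ) : Prop := 0 ≤ taR n x + j ∧ taR n x + j < 2 ^ n

theorem taP_mono {x : ℤ_[2]} {j : ℤ} {m n : ℕ} (h : m ≤ n) (hm : taP m x j) : taP n x j := by
  have h1 := taR_mono x h
  have h2 := taS_mono x h
  obtain ⟨h3, h4⟩ := hm
  constructor <;> omega

theorem measurableSet_taP (n : ℕ) (j : ℤ) : MeasurableSet {x | taP n x j} :=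
  measurable_taR n (MeasurableSet.of_discrete (s := {r : ℤ | 0 ≤ r + j ∧ r + j < 2 ^ n}))

/-- the good points: the blocks exhaust the orbit -/
def taG : Set ℤ_[2] := {x | ∀ j : ℤ, ∃ n, taP n x j}

theorem measurableSet_taG : MeasurableSet taG := by
  have : taG = ⋂ j : ℤ, ⋃ n : ℕ, {x | taP n x j} := by
    ext x; simp [taG]
  rw [this]
  exact MeasurableSet.iInter fun j => MeasurableSet.iUnion fun n => measurableSet_taP n j

theorem ta_eq_of_dvd {y : ℤ_[2]} (h : ∀ n : ℕ, ∃ m, n ≤ m ∧ (2 : ℤ_[2]) ^ m ∣ y) : y = 0 := by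
  rw [← norm_eq_zero]
  refine le_antisymm ?_ (norm_nonneg _)
  have h1 : ∀ n : ℕ, ‖y‖ ≤ (1 / 2 : ℝ) ^ n := by
    intro n
    obtain ⟨m, hm, hd⟩ := h n
    have : ‖y‖ ≤ ((2 : ℕ) : ℝ) ^ (-n : ℤ) := by
      rw [PadicInt.norm_le_pow_iff_mem_span_pow, Ideal.mem_span_singleton]
      simpa using (pow_dvd_pow 2 hm).trans hd
    simpa using this
  exact ge_of_tendsto' (tendsto_pow_atTop_nhds_zero_of_lt_one (by norm_num) (by norm_num)) h1

theorem compl_taG_subset : taGᶜ ⊆ Set.range (Int.cast : ℤ → ℤ_[2]) := by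
  intro x hx
  simp only [taG, Set.mem_compl_iff, Set.mem_ofPred_eq, not_forall, not_exists] at hx
  obtain ⟨j, hj⟩ := hx
  by_cases h0 : j ≤ 0
  · -- the residues are bounded
    have hb : ∀ n, taR n x < -j := fun n => by
      have := hj n
      have := taR_lt n x
      unfold taP at *
      omega
    obtain ⟨k, hk⟩ : ∃ k : ℤ, ∀ n, ∃ m, n ≤ m ∧ taR m x = k := by
      by_contra hh
      push Not at hh
      choose N hN using hh
      set M := (Finset.Ico 0 (-j)).sup N
      exact hN (taR M x) M (Finset.le_sup (f := N)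
        (Finset.mem_Ico.2 ⟨taR_nonneg _ _, hb M⟩)) rfl
    refine ⟨k, ?_⟩
    have : x - k = 0 := ta_eq_of_dvd fun n => by
      obtain ⟨m, hm, e⟩ := hk n
      exact ⟨m, hm, e ▸ taR_spec m x⟩
    exact (sub_eq_zero.1 this).symm
  · have hb : ∀ n, 2 ^ n - taR n x ≤ j := fun n => by
      have := hj n
      have := taR_nonneg n x
      unfold taP at *
      omega
    obtain ⟨k, hk⟩ : ∃ k : ℤ, ∀ n, ∃ m, n ≤ m ∧ 2 ^ m - taR m x = k := by
      by_contra hh
      push Not at hh
      choose N hN using hh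
      set M := (Finset.Icc 0 j).sup N
      have := taR_lt M x
      exact hN (2 ^ M - taR M x) M (Finset.le_sup (f := N)
        (Finset.mem_Icc.2 ⟨by omega, hb M⟩)) rfl
    refine ⟨-k, ?_⟩
    have : x - (-k : ℤ) = 0 := ta_eq_of_dvd fun n => by
      obtain ⟨m, hm, e⟩ := hk n
      refine ⟨m, hm, ?_⟩
      have := dvd_add (taR_spec m x) (dvd_refl ((2 : ℤ_[2]) ^ m))
      convert this using 1
      rw [← e]; push_cast; ring
    exact (sub_eq_zero.1 this).symm

instance ta_isAddHaar : (haarTwoAdic).IsAddHaarMeasure := by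
  unfold haarTwoAdic; infer_instance

instance ta_isProb : IsProbabilityMeasure haarTwoAdic :=
  ⟨by simpa [haarTwoAdic] using Measure.addHaarMeasure_self (K₀ := (⊤ : TopologicalSpace.PositiveCompacts ℤ_[2]))⟩

instance ta_neBot : (nhdsWithin (0 : ℤ_[2]) {0}ᶜ).NeBot := by
  rw [← mem_closure_iff_nhdsWithin_neBot, mem_closure_iff_seq_limit]
  refine ⟨fun n => (2 : ℤ_[2]) ^ n, fun n => ?_, ?_⟩
  · simp
  · refine tendsto_pow_atTop_nhds_zero_of_norm_lt_one ?_
    have := PadicInt.norm_p (p := 2)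
    simp only [Nat.cast_ofNat] at this
    rw [this]; norm_num

theorem ae_taG : ∀ᵐ x ∂haarTwoAdic, x ∈ taG := by
  have : haarTwoAdic taGᶜ = 0 :=
    measure_mono_null compl_taG_subset ((Set.countable_range _).measure_zero _)
  exact this

/-- merging level -/
noncomputable def taL (x : ℤ_[2]) (j : ℤ) : ℕ := sInf {n | taP n x j}

theorem taL_spec {x : ℤ_[2]} (hx : x ∈ taG) (j : ℤ) : taP (taL x j) x j :=
  Nat.sInf_mem (s := {n | taP n x j}) (hx j)

theorem taL_le {x : ℤ_[2]} {j : ℤ} {n : ℕ} (h : taP n x j) : taL x j ≤ n :=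
  Nat.sInf_le (s := {n | taP n x j}) h

theorem measurable_taL (j : ℤ) : Measurable fun x => taL x j := by
  refine measurable_to_countable' fun n => ?_
  have : (fun x => taL x j) ⁻¹' {n} = ({x | taP n x j} ∩ ⋂ m ∈ Finset.range n, {x | taP m x j}ᶜ) ∪
      ((⋂ m : ℕ, {x | taP m x j}ᶜ) ∩ {x | n = 0}) := by
    ext x
    simp only [Set.mem_preimage, Set.mem_singleton_iff, Set.mem_union, Set.mem_inter_iff,
      Set.mem_ofPred_eq, Set.mem_iInter, Set.mem_compl_iff, Finset.mem_range]
    by_cases hne : ∃ m, taP m x j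
    · have hs : taP (taL x j) x j := Nat.sInf_mem (s := {n | taP n x j}) hne
      constructor
      · rintro rfl
        exact Or.inl ⟨hs, fun m hm hP => absurd (taL_le hP) (by omega)⟩
      · rintro (⟨h1, h2⟩ | ⟨h1, -⟩)
        · refine le_antisymm (taL_le h1) ?_
          by_contra hh
          exact h2 _ (by omega) hs
        · exact absurd hs (h1 _)
    · have h0 : taL x j = 0 := by
        unfold taL
        rw [Nat.sInf_eq_zero]
        right
        ext m
        simpa using fun h => hne ⟨m, h⟩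
      constructor
      · intro h
        exact Or.inr ⟨fun m hm => hne ⟨m, hm⟩, by omega⟩
      · rintro (⟨h1, -⟩ | ⟨-, h2⟩)
        · exact absurd ⟨n, h1⟩ hne
        · omega
  rw [this]
  refine MeasurableSet.union ((measurableSet_taP n j).inter
    (MeasurableSet.biInter (Finset.countable_toSet _) fun m _ => (measurableSet_taP m j).compl))
    ((MeasurableSet.iInter fun m => (measurableSet_taP m j).compl).inter ?_)
  by_cases h : n = 0 <;> simp [h]

open Classical in
/-- the extra part of the exponent -/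
noncomputable def taE (x : ℤ_[2]) (j : ℤ) : ℤ :=
  if x ∈ taG then (if 0 ≤ j then taR (taL x j) x else 2 ^ (taL x j) - 1 - taR (taL x j) x) else 0

theorem taE_nonneg (x : ℤ_[2]) (j : ℤ) : 0 ≤ taE x j := by
  unfold taE
  have h1 := taR_nonneg (taL x j) x
  have h2 := taR_lt (taL x j) x
  split_ifs <;> omega

theorem taE_zero (x : ℤ_[2]) : taE x 0 = 0 := by
  unfold taE
  have h0 : taL x 0 = 0 := Nat.le_zero.1 (taL_le (by simp [taP, taR_zero]))
  split_ifs with h1 h2
  · rw [h0, taR_zero]
  · omega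
  · rfl

theorem taE_mono (x : ℤ_[2]) {j k : ℤ} (h0 : 0 ≤ j) (h : j ≤ k) : taE x j ≤ taE x k := by
  unfold taE
  split_ifs with hx h1
  · refine taR_mono x (taL_le ?_)
    obtain ⟨h2, h3⟩ := taL_spec hx k
    have := taR_nonneg (taL x k) x
    constructor <;> omega
  · omega
  · exact le_rfl

theorem taE_anti (x : ℤ_[2]) {j k : ℤ} (h0 : k ≤ 0) (h : j ≤ k) : taE x k ≤ taE x j := by
  rcases h0.lt_or_eq with h0 | rfl
  · unfold taE
    split_ifs with hx h1 h2 h3
    · omega
    · omega
    · omega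
    · have : taL x k ≤ taL x j := by
        refine taL_le ?_
        obtain ⟨h2, h3⟩ := taL_spec hx j
        have := taR_lt (taL x j) x
        constructor <;> omega
      have := taS_mono x this
      omega
    · exact le_rfl
  · rw [taE_zero]; exact taE_nonneg x j

theorem measurable_taE (j : ℤ) : Measurable fun x => taE x j := by
  have h1 : Measurable fun x => taR (taL x j) x := by
    have : Measurable fun p : ℤ_[2] × ℕ => taR p.2 p.1 :=
      measurable_from_prod_countable_left fun n => measurable_taR n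
    exact this.comp (measurable_id.prodMk (measurable_taL j))
  have h2 : Measurable fun x => (2 : ℤ) ^ (taL x j) :=
    (measurable_of_countable fun n : ℕ => (2 : ℤ) ^ n).comp (measurable_taL j)
  unfold taE
  refine Measurable.ite measurableSet_taG ?_ measurable_const
  split_ifs
  · exact h1
  · exact (h2.sub measurable_const).sub h1

/-- the exponents -/
noncomputable def taA (x : ℤ_[2]) (j : ℤ) : ℕ :=
  (if 0 ≤ j then 2 * (taE x j + j) + 1 else 2 * (taE x j - j)).toNat

theorem taA_cast (x : ℤ_[2]) (j : ℤ) :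
    (taA x j : ℤ) = if 0 ≤ j then 2 * (taE x j + j) + 1 else 2 * (taE x j - j) := by
  unfold taA
  have := taE_nonneg x j
  rw [Int.toNat_of_nonneg]
  split_ifs <;> omega

theorem taA_zero (x : ℤ_[2]) : taA x 0 = 1 := by
  have := taA_cast x 0
  rw [taE_zero] at this
  simp at this
  exact_mod_cast this

theorem one_le_taA (x : ℤ_[2]) (j : ℤ) : 1 ≤ taA x j := by
  have h1 := taA_cast x j
  have := taE_nonneg x j
  split_ifs at h1 <;> omega

theorem taA_strictMonoOn (x : ℤ_[2]) : StrictMonoOn (taA x) {j | 0 ≤ j} := by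
  intro j hj k hk hjk
  simp only [Set.mem_ofPred_eq] at hj hk
  have h1 := taA_cast x j
  have h2 := taA_cast x k
  have := taE_mono x hj hjk.le
  rw [if_pos hj] at h1
  rw [if_pos hk] at h2
  omega

theorem taA_strictAntiOn (x : ℤ_[2]) : StrictAntiOn (taA x) {j | j ≤ 0} := by
  intro j hj k hk hjk
  simp only [Set.mem_ofPred_eq] at hj hk
  have h1 := taA_cast x j
  have h2 := taA_cast x k
  have := taE_anti x hk hjk.le
  have h3 := taE_zero x
  rw [if_neg (by omega)] at h1
  split_ifs at h2 with h4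
  · have : k = 0 := by omega
    subst this
    omega
  · omega

theorem taA_injective (x : ℤ_[2]) : Function.Injective (taA x) := by
  intro j k hjk
  have h1 := taA_cast x j
  have h2 := taA_cast x k
  by_cases hj : 0 ≤ j <;> by_cases hk : 0 ≤ k
  · exact (taA_strictMonoOn x).injOn hj hk hjk
  · rw [if_pos hj] at h1; rw [if_neg hk] at h2; omega
  · rw [if_neg hj] at h1; rw [if_pos hk] at h2; omega
  · exact (taA_strictAntiOn x).injOn (show j ≤ 0 by omega) (show k ≤ 0 by omega) hjk

theorem measurable_taA (j : ℤ) : Measurable fun x => taA x j :=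
  (measurable_of_countable fun e : ℤ =>
    (if 0 ≤ j then 2 * (e + j) + 1 else 2 * (e - j)).toNat).comp (measurable_taE j)

theorem taR_add_one {x : ℤ_[2]} {n : ℕ} (h : taP n x 1) : taR n (x + 1) = taR n x + 1 := by
  refine taR_unique h.1 h.2 ?_
  have := taR_spec n x
  convert this using 1
  push_cast; ring

/-- moving the base point changes only finitely many exponents -/
theorem taA_add_one {x : ℤ_[2]} (hx : x ∈ taG) :
    ∃ M : ℤ, ∀ j, (j < -M ∨ M < j) → taA (x + 1) (j - 1) = taA x j := by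
  obtain ⟨m, hm⟩ := hx 1
  have hiff : ∀ n, m ≤ n → ∀ j, (taP n (x + 1) (j - 1) ↔ taP n x j) := by
    intro n hn j
    unfold taP
    rw [taR_add_one (taP_mono hn hm)]
    constructor <;> rintro ⟨h1, h2⟩ <;> constructor <;> omega
  have hx1 : x + 1 ∈ taG := by
    intro j
    obtain ⟨n, hn⟩ := hx (j + 1)
    refine ⟨max m n, ?_⟩
    have := (hiff (max m n) (le_max_left _ _) (j + 1)).2 (taP_mono (le_max_right _ _) hn)
    simpa using this
  refine ⟨2 ^ m, fun j hj => ?_⟩
  have hp : (0 : ℤ) < 2 ^ m := by positivity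
  have hnot : ¬ taP m x j := by
    have h1 := taR_nonneg m x
    have h2 := taR_lt m x
    rintro ⟨h3, h4⟩
    omega
  have hL : taL (x + 1) (j - 1) = taL x j := by
    unfold taL
    congr 1
    ext n
    simp only [Set.mem_ofPred_eq]
    by_cases hn : m ≤ n
    · exact hiff n hn j
    · constructor
      · intro h
        exact absurd ((hiff m le_rfl j).1 (taP_mono (by omega) h)) hnot
      · intro h
        exact absurd (taP_mono (by omega) h) hnot
  have hmL : m ≤ taL x j := by
    by_contra hh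
    exact hnot (taP_mono (by omega) (taL_spec hx j))
  have hR := taR_add_one (taP_mono hmL hm)
  have h1 := taA_cast (x + 1) (j - 1)
  have h2 := taA_cast x j
  unfold taE at h1 h2
  rw [if_pos hx1, hL, hR] at h1
  rw [if_pos hx] at h2
  split_ifs at h1 h2 <;> omega

end Crest.Agent.R113
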