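import Mathlib

/-! Row 113: real-variable core of the unicellularity proof (maximisers of `B v * exp (s v)`). -/

set_option autoImplicit false

open Filter Topology

namespace Crest.Agent.R113

/-- `v` maximises `w ↦ B w * exp (s w)`. -/
def IsMaxAt (B : ℕ → ℝ) (s : ℝ) (v : ℕ) : Prop :=
  ∀ w : ℕ, B w * Real.exp (s * w) ≤ B v * Real.exp (s * v)

theorem IsMaxAt.zero_le {B : ℕ → ℝ} {s : ℝ} {v : ℕ} (h : IsMaxAt B s v) :
    B 0 ≤ B v * Real.exp (s * v) := by
  simpa using h 0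

theorem IsMaxAt.pos {B : ℕ → ℝ} {s : ℝ} {v : ℕ} (h : IsMaxAt B s v) (h0 : 0 < B 0) :
    0 < B v := by
  have h1 := h.zero_le
  have h2 := Real.exp_pos (s * v)
  by_contra hv
  push Not at hv
  nlinarith

theorem IsMaxAt.le {B : ℕ → ℝ} {s : ℝ} {v : ℕ} (h : IsMaxAt B s v) (w : ℕ) :
    B w ≤ B v * Real.exp (s * v - s * w) := by
  have h1 := h w
  rw [Real.exp_sub, ← mul_div_assoc, le_div_iff₀ (Real.exp_pos _)]
  exact h1

theorem exists_isMaxAt {B : ℕ → ℝ} {Y : ℝ} (hB0 : 0 < B 0)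
    (hB : ∀ v : ℕ, B v ≤ Y * Real.exp (-(5 * v * (v + 1)))) :
    ∃ K : ℝ, 0 ≤ K ∧ ∀ s : ℝ, 0 ≤ s → ∃ v : ℕ, 5 * (v : ℝ) ≤ s + K ∧ IsMaxAt B s v := by
  have hY : B 0 ≤ Y := by simpa using hB 0
  have hYpos : 0 < Y := hB0.trans_le hY
  have hK : 0 ≤ Real.log (Y / B 0) := Real.log_nonneg ((one_le_div hB0).2 hY)
  refine ⟨Real.log (Y / B 0), hK, fun s hs => ?_⟩
  set K := Real.log (Y / B 0) with hKdef
  have key : ∀ v : ℕ, B 0 ≤ B v * Real.exp (s * v) → 5 * (v : ℝ) ≤ s + K := by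
    intro v hv
    rcases Nat.eq_zero_or_pos v with rfl | hv0
    · simp; linarith
    have h1 : (1 : ℝ) ≤ v := by exact_mod_cast hv0
    have h2 : B 0 ≤ Y * Real.exp (-(5 * v * (v + 1)) + s * v) := by
      rw [Real.exp_add, ← mul_assoc]
      exact hv.trans (mul_le_mul_of_nonneg_right (hB v) (Real.exp_pos _).le)
    have h3 : Real.exp (5 * v * (v + 1) - s * v) ≤ Y / B 0 := by
      rw [le_div_iff₀ hB0]
      have h4 : Real.exp (5 * v * (v + 1) - s * v) * Real.exp (-(5 * v * (v + 1)) + s * v) = 1 := by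
        rw [← Real.exp_add]; simp
      have h5 := mul_le_mul_of_nonneg_left h2 (Real.exp_pos (5 * v * (v + 1) - s * v)).le
      calc _ ≤ _ := h5
        _ = Y * (Real.exp (5 * v * (v + 1) - s * v) * Real.exp (-(5 * v * (v + 1)) + s * v)) := by
          ring
        _ = Y := by rw [h4, mul_one]
    have h6 : 5 * v * (v + 1) - s * v ≤ K := by
      rw [hKdef, Real.le_log_iff_exp_le (div_pos hYpos hB0)]
      exact h3
    by_contra hcon
    push Not at hcon
    nlinarith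
  obtain ⟨V, hV⟩ := exists_nat_gt (s + K)
  obtain ⟨v, hvmem, hvmax⟩ := Finset.exists_max_image (Finset.range (V + 1))
    (fun w : ℕ => B w * Real.exp (s * w)) ⟨0, by simp⟩
  have h0 : B 0 ≤ B v * Real.exp (s * v) := by simpa using hvmax 0 (by simp)
  refine ⟨v, key v h0, fun w => ?_⟩
  by_cases hw : w ∈ Finset.range (V + 1)
  · exact hvmax w hw
  · have hw' : (V : ℝ) + 1 ≤ w := by
      have : V + 1 ≤ w := by simpa using hw
      exact_mod_cast this
    by_contra hcon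
    push Not at hcon
    have := key w (h0.trans hcon.le)
    have hV0 : (0 : ℝ) ≤ V := Nat.cast_nonneg V
    linarith

theorem IsMaxAt.mono {B : ℕ → ℝ} (hB0 : 0 < B 0) {s s' : ℝ} (hss : s < s') {v v' : ℕ}
    (hv : IsMaxAt B s v) (hv' : IsMaxAt B s' v') : v ≤ v' := by
  have h1 := hv.le v'
  have h2 := hv'.le v
  have p1 := hv.pos hB0
  have p2 := hv'.pos hB0
  have h3 : B v ≤ B v * (Real.exp (s * v - s * v') * Real.exp (s' * v' - s' * v)) := by
    calc B v ≤ B v' * Real.exp (s' * v' - s' * v) := h2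
      _ ≤ B v * Real.exp (s * v - s * v') * Real.exp (s' * v' - s' * v) :=
        mul_le_mul_of_nonneg_right h1 (Real.exp_pos _).le
      _ = _ := by ring
  rw [← Real.exp_add, le_mul_iff_one_le_right p1, Real.one_le_exp_iff] at h3
  by_contra hcon
  push Not at hcon
  have : (v' : ℝ) < v := by exact_mod_cast hcon
  nlinarith

theorem exists_same_max {A B : ℕ → ℝ} {X Y : ℝ} (hA0 : 0 < A 0) (hB0 : 0 < B 0)
    (hA : ∀ v : ℕ, A v ≤ X * Real.exp (-(5 * v * (v + 1))))
    (hB : ∀ v : ℕ, B v ≤ Y * Real.exp (-(5 * v * (v + 1)))) (s0 : ℝ) :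
    ∃ s : ℝ, s0 ≤ s ∧ ∃ u v : ℕ, IsMaxAt A s u ∧ IsMaxAt A (s + 2) u ∧
      IsMaxAt B s v ∧ IsMaxAt B (s + 2) v := by
  obtain ⟨K, hK, hK'⟩ := exists_isMaxAt hA0 hA
  obtain ⟨L, hL, hL'⟩ := exists_isMaxAt hB0 hB
  choose u hu hu' using fun m : ℕ => hK' (2 * m) (by positivity)
  choose v hv hv' using fun m : ℕ => hL' (2 * m) (by positivity)
  have hlt : ∀ m : ℕ, (2 * (m : ℝ)) < 2 * ((m + 1 : ℕ) : ℝ) := by
    intro m; push_cast; linarith
  have hum : ∀ m, u m ≤ u (m + 1) := fun m => IsMaxAt.mono hA0 (hlt m) (hu' m) (hu' (m + 1))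
  have hvm : ∀ m, v m ≤ v (m + 1) := fun m => IsMaxAt.mono hB0 (hlt m) (hv' m) (hv' (m + 1))
  obtain ⟨m0, hm0⟩ := exists_nat_ge s0
  by_contra hcon
  push Not at hcon
  have hstep : ∀ m, m0 ≤ m → u m + v m + 1 ≤ u (m + 1) + v (m + 1) := by
    intro m hm
    by_contra h
    have e1 : u (m + 1) = u m := by have := hum m; have := hvm m; omega
    have e2 : v (m + 1) = v m := by have := hum m; have := hvm m; omega
    have hm' : (m0 : ℝ) ≤ m := by exact_mod_cast hm
    have hm0' : (0 : ℝ) ≤ m := Nat.cast_nonneg m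
    have e : (2 * (m : ℝ)) + 2 = 2 * ((m + 1 : ℕ) : ℝ) := by push_cast; ring
    refine hcon (2 * m) (by linarith) (u m) (v m) (hu' m) ?_ (hv' m) ?_
    · rw [e, ← e1]; exact hu' _
    · rw [e, ← e2]; exact hv' _
  have hk : ∀ k, k ≤ u (m0 + k) + v (m0 + k) := by
    intro k
    induction k with
    | zero => omega
    | succ k ih =>
      have := hstep (m0 + k) (by omega)
      rw [← add_assoc]; omega
  obtain ⟨k, hk'⟩ := exists_nat_gt (4 * (m0 : ℝ) + K + L)
  have h1 := hu (m0 + k)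
  have h2 := hv (m0 + k)
  have h3 : (k : ℝ) ≤ u (m0 + k) + v (m0 + k) := by exact_mod_cast hk k
  push_cast at h1 h2
  linarith

theorem exp_neg_two_le : Real.exp (-2) ≤ 1 / 7 := by
  have h := Real.exp_one_gt_d9
  have h2 : Real.exp 2 = Real.exp 1 * Real.exp 1 := by rw [← Real.exp_add]; norm_num
  rw [Real.exp_neg, one_div]
  apply inv_anti₀ (by norm_num)
  rw [h2]; nlinarith

theorem middle_le {A B : ℕ → ℝ} (hA : ∀ u, 0 ≤ A u) (hB : ∀ u, 0 ≤ B u) {s : ℝ} {u v : ℕ}
    (hu : IsMaxAt A s u) (hv : IsMaxAt B (s + 2) v) {d : ℕ} (hd : d ≤ u) :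
    A (u - d) * B (v + d) ≤ A u * B v * (1 / 7) ^ d := by
  have h1 := hu.le (u - d)
  have h2 := hv.le (v + d)
  calc A (u - d) * B (v + d)
      ≤ (A u * Real.exp (s * u - s * (u - d : ℕ))) *
          (B v * Real.exp ((s + 2) * v - (s + 2) * (v + d : ℕ))) :=
        mul_le_mul h1 h2 (hB _) (mul_nonneg (hA _) (Real.exp_pos _).le)
    _ = A u * B v * Real.exp (-2) ^ d := by
        rw [← Real.exp_nat_mul, mul_mul_mul_comm, ← Real.exp_add]
        congr 2
        push_cast [Nat.cast_sub hd]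
        ring
    _ ≤ A u * B v * (1 / 7) ^ d := by
        gcongr
        · exact mul_nonneg (hA _) (hB _)
        · exact exp_neg_two_le

theorem sum_geom_seven (k : ℕ) : ∑ d ∈ Finset.range k, (1 / 7 : ℝ) ^ (d + 1) ≤ 1 / 6 := by
  have : ∑ d ∈ Finset.range k, (1 / 7 : ℝ) ^ (d + 1) = 1 / 6 - 1 / 6 * (1 / 7) ^ k := by
    induction k with
    | zero => simp
    | succ k ih => rw [Finset.sum_range_succ, ih]; ring
  rw [this]
  have : (0 : ℝ) ≤ (1 / 7) ^ k := by positivity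
  linarith

theorem far_le {γ p y : ℕ → ℝ} (hγ : ∀ i, 0 ≤ γ i) {i0 : ℕ}
    (hmono : ∀ i i', i0 ≤ i → i ≤ i' → γ i ≤ γ i') (hp0 : ∀ t, 0 ≤ p t) (hy0 : ∀ t, 0 ≤ y t)
    (hp : Summable fun t => p t ^ 2) (hy : Summable fun t => y t ^ 2) (hy00 : 0 < y 0)
    {A B : ℕ → ℝ} (hA0 : 0 < A 0)
    (hB : ∀ v, B v = y v * Real.exp (-∑ i ∈ Finset.range v, γ i)) {ε : ℝ} (hε : 0 < ε) :
    ∃ s0 : ℝ, ∀ s, s0 ≤ s → ∀ u v : ℕ, IsMaxAt A s u → IsMaxAt A (s + 2) u →
      IsMaxAt B s v → IsMaxAt B (s + 2) v → ∀ z : ℕ → ℂ,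
      (∀ t, ‖z t‖ ≤ p t * y (t + 1 + (u + v)) *
        Real.exp (-∑ i ∈ Finset.range (u + v), γ (t + 1 + i))) →
      ‖∑' t, z t‖ ≤ ε * (A u * B v) := by
  have hB0 : B 0 = y 0 := by simp [hB]
  set x0 := A 0 with hx0
  set Y := ∑' t, y t ^ 2 with hY
  have hY0 : 0 ≤ Y := tsum_nonneg fun t => sq_nonneg _
  set Γ : ℕ → ℝ := fun v => ∑ i ∈ Finset.range v, γ i with hΓ
  -- δ with (δ * Y) / (x0 * y 0) ≤ ε / 2
  set δ : ℝ := ε / 2 * (x0 * y 0) / (Y + 1) with hδ
  have hδpos : 0 < δ := by positivity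
  set D : ℕ → ℝ := fun t => (p t ^ 2 + Real.exp (-t)) / x0 + p t ^ 2 / δ / (x0 * y 0) with hD
  have hDsum : Summable D :=
    ((hp.add Real.summable_exp_neg_nat).div_const _).add ((hp.div_const _).div_const _)
  have hD0 : ∀ t, 0 ≤ D t := fun t => by positivity
  set E : ℝ → ℕ → ℝ := fun s t => min (p t * Real.exp (Γ (t + 1) - s * (t + 1)) / x0) (D t) with hE
  have hE0 : ∀ s t, 0 ≤ E s t := fun s t =>
    le_min (div_nonneg (mul_nonneg (hp0 t) (Real.exp_pos _).le) hA0.le) (hD0 t)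
  have hEsum : ∀ s, Summable (E s) := fun s =>
    Summable.of_nonneg_of_le (hE0 s) (fun t => min_le_right _ _) hDsum
  have hlim : Tendsto (fun s => ∑' t, E s t) atTop (𝓝 (∑' _ : ℕ, (0 : ℝ))) := by
    refine tendsto_tsum_of_dominated_convergence hDsum (fun t => ?_)
      (Eventually.of_forall fun s t => ?_)
    · have h1 : Tendsto (fun s : ℝ => Γ (t + 1) - s * (t + 1)) atTop atBot := by
        have : Tendsto (fun s : ℝ => s * ((t : ℝ) + 1)) atTop atTop :=
          tendsto_id.atTop_mul_const (by positivity)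
        exact tendsto_atBot_add_const_left _ _ (tendsto_neg_atTop_atBot.comp this)
      have h2 : Tendsto (fun s : ℝ => p t * Real.exp (Γ (t + 1) - s * (t + 1)) / x0) atTop
          (𝓝 (p t * 0 / x0)) :=
        ((Real.tendsto_exp_atBot.comp h1).const_mul _).div_const _
      rw [mul_zero, zero_div] at h2
      exact squeeze_zero (fun s => hE0 s t) (fun s => min_le_left _ _) h2
    · rw [Real.norm_of_nonneg (hE0 s t)]; exact min_le_right _ _
  rw [tsum_zero] at hlim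
  obtain ⟨s1, hs1⟩ := eventually_atTop.1 (hlim.eventually (ge_mem_nhds (half_pos hε)))
  refine ⟨max s1 (∑ i ∈ Finset.range i0, γ i), fun s hs u v hu hu' hv hv' z hz => ?_⟩
  have hs1' : s1 ≤ s := (le_max_left _ _).trans hs
  have hs2 : ∀ i < i0, γ i ≤ s := fun i hi =>
    (Finset.single_le_sum (f := γ) (fun j _ => hγ j) (Finset.mem_range.2 hi)).trans
      ((le_max_right _ _).trans hs)
  have hAu := hu.pos hA0
  have hBv := hv.pos (hB0 ▸ hy00)
  set M := A u * B v with hM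
  have hMpos : 0 < M := mul_pos hAu hBv
  set n := u + v with hn
  have hysum : Summable fun t => y (t + 1 + n) ^ 2 := by
    have := (summable_nat_add_iff (1 + n)).2 hy
    simpa [add_assoc] using this
  have hytail : ∑' t, y (t + 1 + n) ^ 2 ≤ Y := by
    have h1 := hy.sum_add_tsum_nat_add (1 + n)
    have h2 : 0 ≤ ∑ i ∈ Finset.range (1 + n), y i ^ 2 := Finset.sum_nonneg fun i _ => sq_nonneg _
    simp only [add_assoc]
    linarith
  have hbound : ∀ t, ‖z t‖ ≤ M * (E s t + δ * y (t + 1 + n) ^ 2 / (x0 * y 0)) := by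
    intro t
    refine (hz t).trans ?_
    set T := p t * y (t + 1 + n) * Real.exp (-∑ i ∈ Finset.range n, γ (t + 1 + i)) with hT
    have hsplit : Γ (t + 1 + n) = Γ (t + 1) + ∑ i ∈ Finset.range n, γ (t + 1 + i) := by
      simp only [hΓ]; rw [Finset.sum_range_add]
    -- (I)
    have hI : T ≤ M * (p t * Real.exp (Γ (t + 1) - (s + 2) * (t + 1)) / x0) := by
      have h1 := hv'.le (t + 1 + n)
      have h2 := hu'.zero_le
      have h3 : T = p t * Real.exp (Γ (t + 1)) * B (t + 1 + n) := by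
        rw [hT, hB]
        change _ = p t * Real.exp (Γ (t + 1)) * (y (t + 1 + n) * Real.exp (-Γ (t + 1 + n)))
        rw [hsplit, mul_mul_mul_comm, ← Real.exp_add]
        congr 2; ring
      rw [h3, ← mul_div_assoc, le_div_iff₀ hA0]
      calc p t * Real.exp (Γ (t + 1)) * B (t + 1 + n) * x0
          ≤ p t * Real.exp (Γ (t + 1)) *
              (B v * Real.exp ((s + 2) * v - (s + 2) * (t + 1 + n : ℕ))) *
              (A u * Real.exp ((s + 2) * u)) := by
            have := hp0 t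
            gcongr
        _ = M * (p t * (Real.exp (Γ (t + 1)) * Real.exp ((s + 2) * v - (s + 2) * (t + 1 + n : ℕ)) *
              Real.exp ((s + 2) * u))) := by rw [hM]; ring
        _ = _ := by
            rw [← Real.exp_add, ← Real.exp_add]
            congr 3
            rw [hn]; push_cast; ring
    have hextra : 0 ≤ δ * y (t + 1 + n) ^ 2 / (x0 * y 0) := by positivity
    have ht1 : (0 : ℝ) ≤ t := Nat.cast_nonneg t
    have hI' : T ≤ M * (p t * Real.exp (Γ (t + 1) - s * (t + 1)) / x0 +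
        δ * y (t + 1 + n) ^ 2 / (x0 * y 0)) := by
      refine hI.trans (mul_le_mul_of_nonneg_left ?_ hMpos.le)
      refine le_trans ?_ (le_add_of_nonneg_right hextra)
      have := hp0 t
      gcongr
      linarith
    have hII : T ≤ M * (D t + δ * y (t + 1 + n) ^ 2 / (x0 * y 0)) := by
      by_cases hcase : ∀ i < t + 1, γ i ≤ s
      · have h1 : Γ (t + 1) ≤ s * (t + 1) := by
          have := Finset.sum_le_card_nsmul (Finset.range (t + 1)) γ s
            (fun i hi => hcase i (Finset.mem_range.1 hi))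
          simpa [mul_comm] using this
        refine hI.trans (mul_le_mul_of_nonneg_left ?_ hMpos.le)
        refine le_trans ?_ (le_add_of_nonneg_right hextra)
        refine le_trans ?_ (le_add_of_nonneg_right (by positivity))
        apply div_le_div_of_nonneg_right _ hA0.le
        set e := Real.exp (Γ (t + 1) - (s + 2) * (t + 1)) with he
        have he0 : 0 < e := Real.exp_pos _
        have he1 : e ≤ Real.exp (-t) := Real.exp_le_exp.2 (by linarith)
        have he2 : e ≤ 1 := Real.exp_le_one_iff.2 (by linarith)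
        nlinarith [sq_nonneg (p t - e), hp0 t]
      · push Not at hcase
        obtain ⟨i, hi, hi'⟩ := hcase
        have hii : i0 ≤ i := by
          by_contra h
          exact absurd (hs2 i (by omega)) (not_le.2 hi')
        have h1 : s * n ≤ ∑ k ∈ Finset.range n, γ (t + 1 + k) := by
          have := Finset.card_nsmul_le_sum (Finset.range n) (fun k => γ (t + 1 + k)) s
            (fun k _ => hi'.le.trans (hmono i _ hii (by omega)))
          simpa [mul_comm] using this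
        have h2 : x0 * y 0 ≤ M * Real.exp (s * n) := by
          calc x0 * y 0 ≤ (A u * Real.exp (s * u)) * (B v * Real.exp (s * v)) :=
                mul_le_mul hu.zero_le (hB0 ▸ hv.zero_le) hy00.le (by positivity)
            _ = _ := by
                rw [mul_mul_mul_comm, ← Real.exp_add, hn, Nat.cast_add, mul_add]
        have h3 : Real.exp (-∑ k ∈ Finset.range n, γ (t + 1 + k)) ≤ M / (x0 * y 0) := by
          rw [le_div_iff₀ (by positivity)]
          calc Real.exp (-∑ k ∈ Finset.range n, γ (t + 1 + k)) * (x0 * y 0)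
              ≤ Real.exp (-(s * n)) * (M * Real.exp (s * n)) := by gcongr
            _ = M := by rw [Real.exp_neg]; field_simp
        have h4 : p t * y (t + 1 + n) ≤ p t ^ 2 / δ + δ * y (t + 1 + n) ^ 2 := by
          rw [div_add' _ _ _ hδpos.ne', le_div_iff₀ hδpos]
          nlinarith [sq_nonneg (p t - δ * y (t + 1 + n)), mul_nonneg (hp0 t) (hy0 (t + 1 + n))]
        calc T ≤ (p t ^ 2 / δ + δ * y (t + 1 + n) ^ 2) * (M / (x0 * y 0)) :=
              mul_le_mul h4 h3 (Real.exp_pos _).le (by positivity)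
          _ = M * (p t ^ 2 / δ / (x0 * y 0) + δ * y (t + 1 + n) ^ 2 / (x0 * y 0)) := by ring
          _ ≤ _ := by
              gcongr
              exact le_add_of_nonneg_left (by positivity)
    rcases le_total (p t * Real.exp (Γ (t + 1) - s * (t + 1)) / x0) (D t) with h | h
    · have : E s t = p t * Real.exp (Γ (t + 1) - s * (t + 1)) / x0 := min_eq_left h
      rw [this]; exact hI'
    · have : E s t = D t := min_eq_right h
      rw [this]; exact hII
  have hsum := (((hEsum s).hasSum.add ((hysum.hasSum.mul_left δ).div_const (x0 * y 0))).mul_left M)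
  refine (tsum_of_norm_bounded hsum hbound).trans ?_
  rw [mul_comm ε]
  refine mul_le_mul_of_nonneg_left ?_ hMpos.le
  have h1 := hs1 s hs1'
  have h2 : δ * (∑' t, y (t + 1 + n) ^ 2) / (x0 * y 0) ≤ ε / 2 := by
    rw [div_le_iff₀ (by positivity)]
    calc δ * (∑' t, y (t + 1 + n) ^ 2) ≤ δ * (Y + 1) := by gcongr; linarith
      _ = ε / 2 * (x0 * y 0) := by rw [hδ]; field_simp
  linarith

theorem not_hasSum_zero {α γ x y p q : ℕ → ℝ} (hα : ∀ i, 0 ≤ α i) (hγ : ∀ i, 0 ≤ γ i) {i0 : ℕ}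
    (hαm : ∀ i i', i0 ≤ i → i ≤ i' → α i ≤ α i') (hγm : ∀ i i', i0 ≤ i → i ≤ i' → γ i ≤ γ i')
    (hαs : ∀ v : ℕ, 5 * (v : ℝ) * (v + 1) ≤ ∑ i ∈ Finset.range v, α i)
    (hγs : ∀ v : ℕ, 5 * (v : ℝ) * (v + 1) ≤ ∑ i ∈ Finset.range v, γ i)
    (hx0 : ∀ t, 0 ≤ x t) (hy0 : ∀ t, 0 ≤ y t) (hp0 : ∀ t, 0 ≤ p t) (hq0 : ∀ t, 0 ≤ q t)
    (hx : Summable fun t => x t ^ 2) (hy : Summable fun t => y t ^ 2)
    (hp : Summable fun t => p t ^ 2) (hq : Summable fun t => q t ^ 2)
    {X Y : ℝ} (hX : ∀ t, x t ≤ X) (hY : ∀ t, y t ≤ Y) (hx00 : 0 < x 0) (hy00 : 0 < y 0) :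
    ∃ n : ℕ, ∀ z : ℤ → ℂ,
      (∀ t : ℕ, ‖z (t + 1)‖ ≤ p t * y (t + 1 + n) *
        Real.exp (-∑ i ∈ Finset.range n, γ (t + 1 + i))) →
      (∀ u v : ℕ, u + v = n → ‖z (-u)‖ = (x u * Real.exp (-∑ i ∈ Finset.range u, α i)) *
        (y v * Real.exp (-∑ i ∈ Finset.range v, γ i))) →
      (∀ t : ℕ, ‖z (-(t + 1 + n))‖ ≤ q t * x (t + 1 + n) *
        Real.exp (-∑ i ∈ Finset.range n, α (t + 1 + i))) → ¬ HasSum z 0 := by
  set A : ℕ → ℝ := fun u => x u * Real.exp (-∑ i ∈ Finset.range u, α i) with hA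
  set B : ℕ → ℝ := fun v => y v * Real.exp (-∑ i ∈ Finset.range v, γ i) with hB
  have hA0 : 0 < A 0 := by simpa [hA] using hx00
  have hB0 : 0 < B 0 := by simpa [hB] using hy00
  have hAn : ∀ u, 0 ≤ A u := fun u => mul_nonneg (hx0 u) (Real.exp_pos _).le
  have hBn : ∀ u, 0 ≤ B u := fun u => mul_nonneg (hy0 u) (Real.exp_pos _).le
  have hAb : ∀ v : ℕ, A v ≤ X * Real.exp (-(5 * v * (v + 1))) := fun v =>
    mul_le_mul (hX v) (Real.exp_le_exp.2 (neg_le_neg (hαs v))) (Real.exp_pos _).le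
      ((hx0 0).trans (hX 0))
  have hBb : ∀ v : ℕ, B v ≤ Y * Real.exp (-(5 * v * (v + 1))) := fun v =>
    mul_le_mul (hY v) (Real.exp_le_exp.2 (neg_le_neg (hγs v))) (Real.exp_pos _).le
      ((hy0 0).trans (hY 0))
  obtain ⟨s1, hs1⟩ := far_le hγ hγm hp0 hy0 hp hy hy00 (A := A) (B := B) hA0 (fun _ => rfl)
    (ε := 1 / 6) (by norm_num)
  obtain ⟨s2, hs2⟩ := far_le hα hαm hq0 hx0 hq hx hx00 (A := B) (B := A) hB0 (fun _ => rfl)
    (ε := 1 / 6) (by norm_num)
  obtain ⟨s, hs, u, v, hu, hu', hv, hv'⟩ := exists_same_max hA0 hB0 hAb hBb (max s1 s2)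
  refine ⟨u + v, fun z hz1 hz2 hz3 hz => ?_⟩
  have hR := hs1 s ((le_max_left _ _).trans hs) u v hu hu' hv hv' (fun t => z (t + 1)) hz1
  have hL := hs2 s ((le_max_right _ _).trans hs) v u hv hv' hu hu'
    (fun t => z (-(t + 1 + (u + v : ℕ)))) (by rw [add_comm v u]; exact hz3)
  have hMpos : 0 < A u * B v := mul_pos (hu.pos hA0) (hv.pos hB0)
  set M := A u * B v with hM
  have hz' : HasSum (fun j : ℤ => z (j + 1)) 0 := (Equiv.addRight (1 : ℤ)).hasSum_iff.2 hz
  have hsum1 : Summable fun t : ℕ => z (t + 1) :=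
    hz'.summable.comp_injective (i := fun t : ℕ => (t : ℤ)) Nat.cast_injective
  have hsum2 : Summable fun t : ℕ => z (-t) :=
    hz.summable.comp_injective (i := fun t : ℕ => -(t : ℤ)) (fun a b h => by simpa using h)
  have e1 : (0 : ℂ) = ∑' t : ℕ, z (t + 1) + ∑' t : ℕ, z (-t) := by
    have := tsum_of_nat_of_neg_add_one (f := fun j : ℤ => z (j + 1)) hsum1 (by simpa using hsum2)
    rw [hz'.tsum_eq] at this
    simpa using this
  have e2 := hsum2.sum_add_tsum_nat_add (u + (1 + v))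
  rw [Finset.sum_range_add, Finset.sum_range_add, Finset.sum_range_one,
    ← Finset.sum_range_reflect] at e2
  have e3 : ∑' t : ℕ, z (-((t + (u + (1 + v)) : ℕ) : ℤ)) =
      ∑' t : ℕ, z (-(t + 1 + (u + v : ℕ))) := by
    congr 1; ext t; congr 1; push_cast; ring
  rw [e3] at e2
  have hm1 : ‖∑ d ∈ Finset.range u, z (-((u - 1 - d : ℕ) : ℤ))‖ ≤ M * (1 / 6) := by
    refine (norm_sum_le _ _).trans ?_
    refine le_trans (Finset.sum_le_sum (g := fun d => M * (1 / 7) ^ (d + 1)) fun d hd => ?_) ?_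
    · have hd' := Finset.mem_range.1 hd
      rw [hz2 (u - 1 - d) (v + (d + 1)) (by omega)]
      have := middle_le hAn hBn hu hv' (d := d + 1) (by omega)
      rwa [show u - (d + 1) = u - 1 - d by omega] at this
    · rw [← Finset.mul_sum]
      exact mul_le_mul_of_nonneg_left (sum_geom_seven u) hMpos.le
  have hm2 : ‖∑ d ∈ Finset.range v, z (-((u + (1 + d) : ℕ) : ℤ))‖ ≤ M * (1 / 6) := by
    refine (norm_sum_le _ _).trans ?_
    refine le_trans (Finset.sum_le_sum (g := fun d => M * (1 / 7) ^ (d + 1)) fun d hd => ?_) ?_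
    · have hd' := Finset.mem_range.1 hd
      rw [hz2 (u + (1 + d)) (v - (d + 1)) (by omega)]
      have := middle_le hBn hAn hv hu' (d := d + 1) (by omega)
      rw [mul_comm (B v), mul_comm (B _), add_comm d 1] at this
      rw [add_comm d 1]
      exact this
    · rw [← Finset.mul_sum]
      exact mul_le_mul_of_nonneg_left (sum_geom_seven v) hMpos.le
  have hmain : ‖z (-((u + 0 : ℕ) : ℤ))‖ = M := hz2 u v rfl
  rw [← e2] at e1
  have e4 : z (-((u + 0 : ℕ) : ℤ)) = -(∑' t : ℕ, z (t + 1) +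
      ∑ d ∈ Finset.range u, z (-((u - 1 - d : ℕ) : ℤ)) +
      ∑ d ∈ Finset.range v, z (-((u + (1 + d) : ℕ) : ℤ)) +
      ∑' t : ℕ, z (-(t + 1 + (u + v : ℕ)))) := by
    linear_combination -e1
  rw [e4, norm_neg] at hmain
  have h1 := norm_add_le (∑' t : ℕ, z (t + 1) +
      ∑ d ∈ Finset.range u, z (-((u - 1 - d : ℕ) : ℤ)) +
      ∑ d ∈ Finset.range v, z (-((u + (1 + d) : ℕ) : ℤ))) (∑' t : ℕ, z (-(t + 1 + (u + v : ℕ))))
  have h2 := norm_add₃_le (a := ∑' t : ℕ, z (t + 1))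
    (b := ∑ d ∈ Finset.range u, z (-((u - 1 - d : ℕ) : ℤ)))
    (c := ∑ d ∈ Finset.range v, z (-((u + (1 + d) : ℕ) : ℤ)))
  rw [mul_comm (B v)] at hL
  linarith

end Crest.Agent.R113
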