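import Crest.Prelude.Def_TwoAdicShift
import Crest.Agent.R113.UnicellCore

/-! Row 113: weighted shifts on `ℓ²(ℤ)`; unicellularity for unimodal super-exponential weights. -/

set_option autoImplicit false

open Crest.AnalysisR.TwoAdic
open scoped InnerProductSpace

namespace Crest.Agent.R113

theorem basisVec_apply (j k : ℤ) : basisVec j k = if k = j then 1 else 0 := by
  simp [basisVec, Pi.single_apply]

theorem hasSum_basisVec (v : seqHilbert) : HasSum (fun j => v j • basisVec j) v := by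
  have := lp.hasSum_single (p := 2) (by norm_num) v
  convert this using 2 with j
  rw [basisVec, ← lp.single_smul, smul_eq_mul, mul_one]

theorem hasSum_norm_sq (v : seqHilbert) : HasSum (fun j => ‖v j‖ ^ 2) (‖v‖ ^ 2) := by
  have := lp.hasSum_norm (p := 2) (by norm_num) v
  simpa using this

theorem summable_norm_sq (v : seqHilbert) : Summable fun j => ‖v j‖ ^ 2 :=
  (hasSum_norm_sq v).summable

theorem summable_norm_sq_comp (v : seqHilbert) {i : ℕ → ℤ} (hi : Function.Injective i) :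
    Summable fun u => ‖v (i u)‖ ^ 2 :=
  (summable_norm_sq v).comp_injective hi

/-- coordinates of a weighted shift -/
theorem shift_apply {S : seqHilbert →L[ℂ] seqHilbert} {w : ℤ → ℂ} {d : ℤ}
    (hS : ∀ j, S (basisVec j) = w j • basisVec (j + d)) (v : seqHilbert) (j : ℤ) :
    (S v) (j + d) = w j * v j := by
  have h1 := (hasSum_basisVec v).mapL ((lp.evalCLM ℂ (fun _ : ℤ => ℂ) 2 (j + d)).comp S)
  have h2 : HasSum (fun i => ((lp.evalCLM ℂ (fun _ : ℤ => ℂ) 2 (j + d)).comp S) (v i • basisVec i))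
      (w j * v j) := by
    convert hasSum_ite_eq j (w j * v j) using 2 with i
    rw [map_smul, ContinuousLinearMap.comp_apply, hS, map_smul]
    change v i • w i • basisVec (i + d) (j + d) = _
    rw [basisVec_apply]
    by_cases h : i = j
    · subst h; simp [mul_comm]
    · have : ¬ (j + d = i + d) := fun h' => h (by omega)
      simp [h, this]
  exact h1.unique h2

theorem norm_le_of_coord {u v : seqHilbert} {w : ℤ → ℂ} {d : ℤ} {C : ℝ}
    (h : ∀ j, u (j + d) = w j * v j) (hw : ∀ j, ‖w j‖ ≤ C) : ‖u‖ ≤ C * ‖v‖ := by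
  have hC : 0 ≤ C := (norm_nonneg _).trans (hw 0)
  have h1 : HasSum (fun j => ‖u (j + d)‖ ^ 2) (‖u‖ ^ 2) :=
    (Equiv.addRight d).hasSum_iff.2 (hasSum_norm_sq u)
  have h2 := (hasSum_norm_sq v).mul_left (C ^ 2)
  have h3 : ‖u‖ ^ 2 ≤ C ^ 2 * ‖v‖ ^ 2 := by
    refine hasSum_le (fun j => ?_) h1 h2
    rw [h, norm_mul, mul_pow]
    gcongr
    exact hw j
  rw [← mul_pow] at h3
  exact (pow_le_pow_iff_left₀ (norm_nonneg _) (by positivity) two_ne_zero).1 h3

/-- norm bound for a weighted shift given by its coordinates -/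
theorem shift_norm_le {S : seqHilbert →L[ℂ] seqHilbert} {w : ℤ → ℂ} {d : ℤ} {C : ℝ}
    (hS : ∀ (v : seqHilbert) (j : ℤ), (S v) (j + d) = w j * v j) (hw : ∀ j, ‖w j‖ ≤ C) :
    ‖S‖ ≤ C :=
  S.opNorm_le_bound ((norm_nonneg _).trans (hw 0)) fun v => norm_le_of_coord (hS v) hw

/-- existence of weighted shifts -/
theorem exists_shift (w : ℤ → ℝ) {C : ℝ} (hw : ∀ j, |w j| ≤ C) (d : ℤ) :
    ∃ S : seqHilbert →L[ℂ] seqHilbert, (∀ j, S (basisVec j) = (w j : ℂ) • basisVec (j + d)) ∧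
      ‖S‖ ≤ C ∧ ∀ (v : seqHilbert) (j : ℤ), (S v) (j + d) = (w j : ℂ) * v j := by
  have hw' : ∀ j, ‖(w j : ℂ)‖ ≤ C := fun j => by simpa using hw j
  have hmem : ∀ v : seqHilbert, Memℓp (fun k => (w (k - d) : ℂ) * v (k - d)) 2 := by
    intro v
    apply memℓp_gen
    have h1 : Summable fun k => C ^ 2 * ‖v (k - d)‖ ^ 2 :=
      ((Equiv.subRight d).summable_iff.2 (summable_norm_sq v)).mul_left _
    refine Summable.of_nonneg_of_le (fun k => by positivity) (fun k => ?_) h1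
    simp only [ENNReal.toReal_ofNat, Real.rpow_ofNat]
    rw [norm_mul, mul_pow]
    gcongr
    exact hw' _
  let L : seqHilbert →ₗ[ℂ] seqHilbert :=
    { toFun := fun v => ⟨fun k => (w (k - d) : ℂ) * v (k - d), hmem v⟩
      map_add' := fun u v => by
        ext k
        change (w (k - d) : ℂ) * (u (k - d) + v (k - d)) =
          (w (k - d) : ℂ) * u (k - d) + (w (k - d) : ℂ) * v (k - d)
        ring
      map_smul' := fun c v => by
        ext k
        change (w (k - d) : ℂ) * (c * v (k - d)) = c * ((w (k - d) : ℂ) * v (k - d))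
        ring }
  have hL : ∀ (v : seqHilbert) (j : ℤ), (L v) (j + d) = (w j : ℂ) * v j := by
    intro v j
    change (w (j + d - d) : ℂ) * v (j + d - d) = _
    rw [add_sub_cancel_right]
  let S := L.mkContinuous C fun v => norm_le_of_coord (hL v) hw'
  have hS : ∀ (v : seqHilbert) (j : ℤ), (S v) (j + d) = (w j : ℂ) * v j := hL
  refine ⟨S, fun j => ?_, shift_norm_le hS hw', hS⟩
  ext k
  obtain ⟨i, rfl⟩ : ∃ i, k = i + d := ⟨k - d, by ring⟩
  rw [hS]
  change _ = (w j : ℂ) * basisVec (j + d) (i + d)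
  rw [basisVec_apply, basisVec_apply]
  by_cases h : i = j
  · subst h; simp
  · have : ¬ (i + d = j + d) := fun h' => h (by omega)
    simp [h]

theorem isClosed_tailSpace (h : ℤ) : IsClosed (tailSpace h : Set seqHilbert) :=
  Submodule.isClosed_topologicalClosure _

theorem mem_tailSpace {h : ℤ} {v : seqHilbert} : v ∈ tailSpace h ↔ ∀ j < h, v j = 0 := by
  constructor
  · intro hv j hj
    have : tailSpace h ≤ LinearMap.ker (lp.evalCLM ℂ (fun _ : ℤ => ℂ) 2 j).toLinearMap := by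
      refine Submodule.topologicalClosure_minimal _ ?_
        (ContinuousLinearMap.isClosed_ker (lp.evalCLM ℂ (fun _ : ℤ => ℂ) 2 j))
      rw [Submodule.span_le]
      rintro _ ⟨i, rfl⟩
      change basisVec i j = 0
      rw [basisVec_apply, if_neg]
      have := i.2
      omega
    exact this hv
  · intro hv
    refine (isClosed_tailSpace h).mem_of_tendsto (hasSum_basisVec v)
      (Filter.Eventually.of_forall fun s => ?_)
    refine Submodule.sum_mem _ fun j _ => ?_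
    by_cases hj : j < h
    · rw [hv j hj, zero_smul]; exact Submodule.zero_mem _
    · exact Submodule.smul_mem _ _ (Submodule.le_topologicalClosure _
        (Submodule.subset_span ⟨⟨j, not_lt.1 hj⟩, rfl⟩))

theorem pow_apply {a : ℤ → ℕ} {S : seqHilbert →L[ℂ] seqHilbert}
    (hS : ∀ j, S (basisVec j) = ((Real.exp (-10 * a j) : ℝ) : ℂ) • basisVec (j + 1))
    (n : ℕ) (v : seqHilbert) (j : ℤ) :
    ((S ^ n) v) (j + n) =
      ((Real.exp (-10 * ∑ i ∈ Finset.range n, (a (j + i) : ℝ)) : ℝ) : ℂ) * v j := by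
  induction n with
  | zero => simp
  | succ n ih =>
    rw [pow_succ', mul_apply_eq_comp, Nat.cast_succ, ← add_assoc, shift_apply hS, ih,
      Finset.sum_range_succ, mul_add, Real.exp_add]
    push_cast
    ring

theorem sum_ge_of_injOn {b : ℕ → ℕ} (hinj : Function.Injective b) (h1 : ∀ j, 1 ≤ b j) (n : ℕ) :
    (n : ℝ) * (n + 1) / 2 ≤ ∑ i ∈ Finset.range n, (b i : ℝ) := by
  have hinj' : Function.Injective fun i => (b i : ℤ) := fun i j h => hinj (by simpa using h)
  have h2 := Finset.sum_range_le_sum (s := (Finset.range n).image fun i => (b i : ℤ)) (c := 1)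
    (by
      intro x hx
      obtain ⟨i, -, rfl⟩ := Finset.mem_image.1 hx
      exact_mod_cast h1 i)
  rw [Finset.card_image_of_injective _ hinj', Finset.card_range,
    Finset.sum_image fun i _ j _ h => hinj' h] at h2
  have h3 : ∀ m : ℕ, ∑ i ∈ Finset.range m, ((1 : ℝ) + i) = (m : ℝ) * (m + 1) / 2 := by
    intro m
    induction m with
    | zero => simp
    | succ m ih => rw [Finset.sum_range_succ, ih]; push_cast; ring
  rw [← h3]
  exact_mod_cast h2

theorem norm_pow_le {a : ℤ → ℕ} (hinj : Function.Injective a) (h1 : ∀ j, 1 ≤ a j)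
    {S : seqHilbert →L[ℂ] seqHilbert}
    (hS : ∀ j, S (basisVec j) = ((Real.exp (-10 * a j) : ℝ) : ℂ) • basisVec (j + 1)) (n : ℕ) :
    ‖S ^ n‖ ≤ Real.exp (-10 * (((n + 1) ^ 2 / 4 : ℕ) : ℝ)) := by
  refine shift_norm_le (pow_apply hS n) fun j => ?_
  rw [Complex.norm_real, Real.norm_of_nonneg (Real.exp_pos _).le, Real.exp_le_exp]
  have h2 := sum_ge_of_injOn (b := fun i : ℕ => a (j + i))
    (fun i k h => by simpa using hinj h) (fun i => h1 _) n
  have h3 : (((n + 1) ^ 2 / 4 : ℕ) : ℝ) ≤ (n : ℝ) * (n + 1) / 2 := by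
    rcases Nat.eq_zero_or_pos n with rfl | hn
    · simp
    · have h4 : (((n + 1) ^ 2 / 4 : ℕ) : ℝ) ≤ (((n + 1) ^ 2 : ℕ) : ℝ) / ((4 : ℕ) : ℝ) :=
        Nat.cast_div_le
      have h5 : (1 : ℝ) ≤ n := by exact_mod_cast hn
      push_cast at h4
      nlinarith
  linarith

theorem exists_hasSum_inner_pow {a : ℤ → ℕ} {S : seqHilbert →L[ℂ] seqHilbert}
    (hS : ∀ j, S (basisVec j) = ((Real.exp (-10 * a j) : ℝ) : ℂ) • basisVec (j + 1))
    (f g : seqHilbert) (c : ℤ) (n : ℕ) :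
    ∃ z : ℤ → ℂ, HasSum z ⟪g, (S ^ n) f⟫_ℂ ∧ ∀ j, ‖z j‖ = ‖f (c + j)‖ * ‖g (c + j + n)‖ *
        Real.exp (-∑ i ∈ Finset.range n, 10 * (a (c + j + i) : ℝ)) := by
  have hsum := lp.hasSum_inner (𝕜 := ℂ) g ((S ^ n) f)
  refine ⟨_, (Equiv.addRight (c + n)).hasSum_iff.2 hsum, fun j => ?_⟩
  change ‖⟪g (j + (c + n)), ((S ^ n) f) (j + (c + n))⟫_ℂ‖ = _
  rw [show j + (c + n) = c + j + n by ring, pow_apply hS, ← Finset.mul_sum, ← neg_mul]
  simp only [RCLike.inner_apply, norm_mul, RCLike.norm_conj, Complex.norm_real,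
    Real.norm_of_nonneg (Real.exp_pos _).le]
  ring

theorem exists_inner_pow_ne_zero_same {a : ℤ → ℕ} {j0 : ℤ} (hinj : Function.Injective a)
    (hmono : StrictMonoOn a {j | j0 ≤ j}) (hanti : StrictAntiOn a {j | j ≤ j0})
    (h1 : ∀ j, 1 ≤ a j) {S : seqHilbert →L[ℂ] seqHilbert}
    (hS : ∀ j, S (basisVec j) = ((Real.exp (-10 * a j) : ℝ) : ℂ) • basisVec (j + 1))
    {f g : seqHilbert} {c : ℤ} (hf : f c ≠ 0) (hg : g c ≠ 0) :
    ∃ n : ℕ, ⟪g, (S ^ n) f⟫_ℂ ≠ 0 := by
  have s1 : Summable fun u : ℕ => ‖f (c - u)‖ ^ 2 :=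
    summable_norm_sq_comp f (i := fun u : ℕ => c - u) fun i k h => by simpa using h
  have s2 : Summable fun u : ℕ => ‖g (c + u)‖ ^ 2 :=
    summable_norm_sq_comp g (i := fun u : ℕ => c + u) fun i k h => by simpa using h
  have s3 : Summable fun u : ℕ => ‖f (c + (u + 1))‖ ^ 2 :=
    summable_norm_sq_comp f (i := fun u : ℕ => c + (u + 1)) fun i k h => by simpa using h
  have s4 : Summable fun u : ℕ => ‖g (c - (u + 1))‖ ^ 2 :=
    summable_norm_sq_comp g (i := fun u : ℕ => c - (u + 1)) fun i k h => by simpa using h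
  have m1 : ∀ i i' : ℕ, (c - j0).natAbs ≤ i → i ≤ i' →
      10 * (a (c - 1 - i) : ℝ) ≤ 10 * (a (c - 1 - i') : ℝ) := fun i i' hi hii => by
    have : a (c - 1 - i) ≤ a (c - 1 - i') :=
      hanti.antitoneOn (show c - 1 - i' ≤ j0 by omega) (show c - 1 - i ≤ j0 by omega) (by omega)
    have : (a (c - 1 - i) : ℝ) ≤ a (c - 1 - i') := by exact_mod_cast this
    linarith
  have m2 : ∀ i i' : ℕ, (c - j0).natAbs ≤ i → i ≤ i' →
      10 * (a (c + i) : ℝ) ≤ 10 * (a (c + i') : ℝ) := fun i i' hi hii => by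
    have : a (c + i) ≤ a (c + i') :=
      hmono.monotoneOn (show j0 ≤ c + i by omega) (show j0 ≤ c + i' by omega) (by omega)
    have : (a (c + i) : ℝ) ≤ a (c + i') := by exact_mod_cast this
    linarith
  have g1 : ∀ v : ℕ, 5 * (v : ℝ) * (v + 1) ≤ ∑ i ∈ Finset.range v, 10 * (a (c - 1 - i) : ℝ) := by
    intro v
    have := sum_ge_of_injOn (b := fun i : ℕ => a (c - 1 - i))
      (fun i k h => by simpa using hinj h) (fun i => h1 _) v
    rw [← Finset.mul_sum]; linarith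
  have g2 : ∀ v : ℕ, 5 * (v : ℝ) * (v + 1) ≤ ∑ i ∈ Finset.range v, 10 * (a (c + i) : ℝ) := by
    intro v
    have := sum_ge_of_injOn (b := fun i : ℕ => a (c + i))
      (fun i k h => by simpa using hinj h) (fun i => h1 _) v
    rw [← Finset.mul_sum]; linarith
  have b1 : ∀ j, ‖f j‖ ≤ ‖f‖ := fun _ => lp.norm_apply_le_norm (by norm_num) f _
  have b2 : ∀ j, ‖g j‖ ≤ ‖g‖ := fun _ => lp.norm_apply_le_norm (by norm_num) g _
  obtain ⟨n, hn⟩ := not_hasSum_zero (α := fun i => 10 * (a (c - 1 - i) : ℝ))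
    (γ := fun i => 10 * (a (c + i) : ℝ)) (x := fun u => ‖f (c - u)‖) (y := fun v => ‖g (c + v)‖)
    (p := fun t => ‖f (c + (t + 1))‖) (q := fun t => ‖g (c - (t + 1))‖)
    (fun i => by positivity) (fun i => by positivity) m1 m2 g1 g2
    (fun _ => norm_nonneg _) (fun _ => norm_nonneg _) (fun _ => norm_nonneg _)
    (fun _ => norm_nonneg _) s1 s2 s3 s4
    (X := ‖f‖) (Y := ‖g‖) (fun _ => b1 _) (fun _ => b2 _) (by simpa using hf) (by simpa using hg)
  refine ⟨n, fun h0 => ?_⟩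
  obtain ⟨z, hsum', hnorm⟩ := exists_hasSum_inner_pow hS f g c n
  rw [h0] at hsum'
  refine hn z (fun t => ?_) (fun u v huv => ?_) (fun t => ?_) hsum'
  · rw [hnorm]
    apply le_of_eq
    push_cast
    simp only [add_assoc]
  · rw [hnorm, mul_mul_mul_comm, ← Real.exp_add, ← huv, Finset.sum_range_add,
      ← Finset.sum_range_reflect (fun i : ℕ => 10 * (a (c - 1 - i) : ℝ))]
    congr 2
    · congr 2 <;> (push_cast; ring)
    · rw [neg_add]
      congr 2
      · refine Finset.sum_congr rfl fun i hi => ?_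
        have := Finset.mem_range.1 hi
        congr 3
        omega
      · refine Finset.sum_congr rfl fun i hi => ?_
        congr 3
        push_cast; ring
  · rw [hnorm, ← Finset.sum_range_reflect (fun i : ℕ => 10 * (a (c - 1 - (t + 1 + i : ℕ)) : ℝ))]
    apply le_of_eq
    have e1 : c + -((t : ℤ) + 1 + n) + n = c - (t + 1) := by ring
    have e2 : c + -((t : ℤ) + 1 + n) = c - (t + 1 + n : ℕ) := by push_cast; ring
    have e3 : ∑ i ∈ Finset.range n, 10 * (a (c + -((t : ℤ) + 1 + n) + i) : ℝ) =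
        ∑ i ∈ Finset.range n, 10 * (a (c - 1 - (t + 1 + (n - 1 - i) : ℕ)) : ℝ) := by
      refine Finset.sum_congr rfl fun i hi => ?_
      have := Finset.mem_range.1 hi
      congr 3
      omega
    rw [e3, e1, e2, mul_comm ‖f _‖]

theorem exists_inner_pow_ne_zero {a : ℤ → ℕ} {j0 : ℤ} (hinj : Function.Injective a)
    (hmono : StrictMonoOn a {j | j0 ≤ j}) (hanti : StrictAntiOn a {j | j ≤ j0})
    (h1 : ∀ j, 1 ≤ a j) {S : seqHilbert →L[ℂ] seqHilbert}
    (hS : ∀ j, S (basisVec j) = ((Real.exp (-10 * a j) : ℝ) : ℂ) • basisVec (j + 1))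
    {f g : seqHilbert} {c c' : ℤ} (hf : f c ≠ 0) (hg : g c' ≠ 0) (hcc : c ≤ c') :
    ∃ n : ℕ, ⟪g, (S ^ n) f⟫_ℂ ≠ 0 := by
  obtain ⟨m, rfl⟩ : ∃ m : ℕ, c' = c + m := ⟨(c' - c).toNat, by omega⟩
  have hf' : ((S ^ m) f) (c + m) ≠ 0 := by
    rw [pow_apply hS]
    exact mul_ne_zero (Complex.ofReal_ne_zero.2 (Real.exp_pos _).ne') hf
  obtain ⟨n, hn⟩ := exists_inner_pow_ne_zero_same hinj hmono hanti h1 hS hf' hg
  exact ⟨n + m, by rwa [pow_add, mul_apply_eq_comp]⟩

theorem unicellular {a : ℤ → ℕ} {j0 : ℤ} (hinj : Function.Injective a)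
    (hmono : StrictMonoOn a {j | j0 ≤ j}) (hanti : StrictAntiOn a {j | j ≤ j0})
    (h1 : ∀ j, 1 ≤ a j) {S : seqHilbert →L[ℂ] seqHilbert}
    (hS : ∀ j, S (basisVec j) = ((Real.exp (-10 * a j) : ℝ) : ℂ) • basisVec (j + 1))
    (W : Submodule ℂ seqHilbert) (hW : IsClosed (W : Set seqHilbert)) :
    (∀ v ∈ W, S v ∈ W) ↔ (W = ⊥ ∨ W = ⊤ ∨ ∃ h : ℤ, W = tailSpace h) := by
  constructor
  · intro hinv
    have hpow : ∀ n : ℕ, ∀ v ∈ W, (S ^ n) v ∈ W := by
      intro n
      induction n with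
      | zero => simp
      | succ n ih => intro v hv; rw [pow_succ', mul_apply_eq_comp]; exact hinv _ (ih v hv)
    have : CompleteSpace W := hW.completeSpace_coe
    have key : ∀ f ∈ W, ∀ g ∈ Wᗮ, ∀ c c' : ℤ, f c ≠ 0 → g c' ≠ 0 → c' < c := by
      intro f hf g hg c c' hfc hgc
      by_contra hcc
      obtain ⟨n, hn⟩ := exists_inner_pow_ne_zero hinj hmono hanti h1 hS hfc hgc (not_lt.1 hcc)
      exact hn (Submodule.inner_left_of_mem_orthogonal (hpow n f hf) hg)
    by_cases hbot : W = ⊥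
    · exact Or.inl hbot
    by_cases htop : W = ⊤
    · exact Or.inr (Or.inl htop)
    right; right
    have hne : ∀ v : seqHilbert, v ≠ 0 → ∃ c, v c ≠ 0 := by
      intro v hv
      by_contra h
      push Not at h
      exact hv (lp.ext (funext h))
    obtain ⟨f0, hf0, hf0'⟩ := (Submodule.ne_bot_iff W).1 hbot
    have hperp : Wᗮ ≠ ⊥ := fun h => htop (Submodule.orthogonal_eq_bot_iff.1 h)
    obtain ⟨g0, hg0, hg0'⟩ := (Submodule.ne_bot_iff _).1 hperp
    obtain ⟨c0, hc0⟩ := hne f0 hf0'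
    obtain ⟨c1, hc1⟩ := hne g0 hg0'
    obtain ⟨h, ⟨f1, hf1, hf1'⟩, hmin⟩ := Int.exists_least_of_bdd
      (P := fun c => ∃ f ∈ W, f c ≠ 0)
      ⟨c1, fun c ⟨f, hf, hfc⟩ => (key f hf g0 hg0 c c1 hfc hc1).le⟩ ⟨c0, f0, hf0, hc0⟩
    refine ⟨h, le_antisymm (fun v hv => mem_tailSpace.2 fun j hj => ?_) fun v hv => ?_⟩
    · by_contra hvj
      exact absurd (hmin j ⟨v, hv, hvj⟩) (not_le.2 hj)
    · rw [← W.orthogonal_orthogonal, Submodule.mem_orthogonal]
      intro g hg
      have hsum := lp.hasSum_inner (𝕜 := ℂ) g v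
      have hz : (fun i => ⟪g i, v i⟫_ℂ) = fun _ => 0 := by
        funext i
        by_cases hi : i < h
        · rw [mem_tailSpace.1 hv i hi, inner_zero_right]
        · have : g i = 0 := by
            by_contra hgi
            exact hi (key f1 hf1 g hg h i hf1' hgi)
          rw [this, inner_zero_left]
      rw [hz] at hsum
      exact hsum.unique hasSum_zero
  · rintro (rfl | rfl | ⟨h, rfl⟩) v hv
    · rw [Submodule.mem_bot] at hv ⊢
      rw [hv, map_zero]
    · trivial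
    · rw [mem_tailSpace] at hv ⊢
      intro j hj
      obtain ⟨i, rfl⟩ : ∃ i, j = i + 1 := ⟨j - 1, by ring⟩
      rw [shift_apply hS, hv i (by omega), mul_zero]

end Crest.Agent.R113
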