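/- Row 113, S0150: the backward weights, fibred operators, transitivity. -/
import Crest.Agent.R113.TA1
import Crest.Agent.R113.Unicell

set_option autoImplicit false

namespace Crest.Agent.R113

open Crest.AnalysisR.TwoAdic MeasureTheory Filter
open scoped InnerProductSpace

attribute [local instance] Crest.AnalysisR.TwoAdic.borelTwoAdic
  Crest.AnalysisR.TwoAdic.borelSpace_twoAdic

/-- the defect -/
noncomputable def taD (x : ℤ_[2]) (i : ℤ) : ℤ := (taA (x + 1) (i - 1) : ℤ) - taA x i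

theorem measurable_taD (i : ℤ) : Measurable fun x => taD x i := by
  have h1 : Measurable fun x : ℤ_[2] => (taA (x + 1) (i - 1) : ℤ) :=
    (measurable_of_countable (Nat.cast : ℕ → ℤ)).comp
      ((measurable_taA (i - 1)).comp (measurable_add_const 1))
  have h2 : Measurable fun x : ℤ_[2] => (taA x i : ℤ) :=
    (measurable_of_countable (Nat.cast : ℕ → ℤ)).comp (measurable_taA i)
  exact h1.sub h2

/-- nonnegative summands -/
noncomputable def taT (j : ℤ) (x : ℤ_[2]) (i : ℤ) : NNReal :=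
  ((|taD x i| + if i < j then taD x i else 0).toNat : ℕ)

theorem taT_cast (j : ℤ) (x : ℤ_[2]) (i : ℤ) :
    (taT j x i : ℝ) = ((|taD x i| + if i < j then taD x i else 0 : ℤ) : ℝ) := by
  unfold taT
  have : 0 ≤ |taD x i| + if i < j then taD x i else 0 := by
    have := neg_abs_le (taD x i)
    have := abs_nonneg (taD x i)
    split_ifs <;> omega
  rw [NNReal.coe_natCast, ← Int.cast_natCast, Int.toNat_of_nonneg this]

/-- exponent of the backward weight -/
noncomputable def taF (j : ℤ) (x : ℤ_[2]) : ℝ := ((∑' i, taT j x i : NNReal) : ℝ)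

theorem taF_nonneg (j : ℤ) (x : ℤ_[2]) : 0 ≤ taF j x := NNReal.coe_nonneg _

theorem measurable_taF (j : ℤ) : Measurable (taF j) := by
  refine (Measurable.tsum fun i => ?_).coe_nnreal_real
  exact (measurable_of_countable fun d : ℤ =>
    (((|d| + if i < j then d else 0).toNat : ℕ) : NNReal)).comp (measurable_taD i)

theorem taF_succ {x : ℤ_[2]} (hx : x ∈ taG) (j : ℤ) : taF (j + 1) x = taF j x + taD x j := by
  obtain ⟨M, hM⟩ := taA_add_one hx
  have hD : ∀ i, i ∉ insert j (Finset.Icc (-M) M) → taD x i = 0 := by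
    intro i hi
    simp only [Finset.mem_insert, Finset.mem_Icc, not_or, not_and_or, not_le] at hi
    unfold taD
    rw [hM i (by omega), sub_self]
  have hF : ∀ k, taF k x = ∑ i ∈ insert j (Finset.Icc (-M) M), (taT k x i : ℝ) := by
    intro k
    unfold taF
    rw [tsum_eq_sum (s := insert j (Finset.Icc (-M) M)), NNReal.coe_sum]
    intro i hi
    unfold taT
    simp [hD i hi]
  rw [hF, hF]
  have : (taD x j : ℝ) = ∑ i ∈ insert j (Finset.Icc (-M) M), if i = j then (taD x j : ℝ) else 0 := by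
    rw [Finset.sum_ite_eq']
    simp
  rw [this, ← Finset.sum_add_distrib]
  refine Finset.sum_congr rfl fun i _ => ?_
  rw [taT_cast, taT_cast]
  by_cases h1 : i = j
  · subst h1
    simp
  · by_cases h2 : i < j
    · rw [if_pos h2, if_pos (by omega), if_neg h1, add_zero]
    · rw [if_neg h2, if_neg (by omega), if_neg h1, add_zero, add_zero]

/-- forward weights -/
noncomputable def taBeta (j : ℤ) (x : ℤ_[2]) : ℝ := Real.exp (-10 * taA x j)

/-- backward weights -/
noncomputable def taB (j : ℤ) (x : ℤ_[2]) : ℝ := Real.exp (-10 * taF j x)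

theorem measurable_taBeta (j : ℤ) : Measurable (taBeta j) :=
  (measurable_of_countable fun n : ℕ => Real.exp (-10 * n)).comp (measurable_taA j)

theorem measurable_taB (j : ℤ) : Measurable (taB j) :=
  Real.measurable_exp.comp ((measurable_taF j).const_mul _)

theorem taBeta_pos (j : ℤ) (x : ℤ_[2]) : 0 < taBeta j x := Real.exp_pos _
theorem taB_pos (j : ℤ) (x : ℤ_[2]) : 0 < taB j x := Real.exp_pos _

theorem taBeta_le (j : ℤ) (x : ℤ_[2]) : taBeta j x ≤ 1 := by
  unfold taBeta
  rw [Real.exp_le_one_iff]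
  have : (0 : ℝ) ≤ taA x j := Nat.cast_nonneg _
  linarith

theorem taB_le (j : ℤ) (x : ℤ_[2]) : taB j x ≤ 1 := by
  unfold taB
  rw [Real.exp_le_one_iff]
  have := taF_nonneg j x
  linarith

theorem ta_cocycle {x : ℤ_[2]} (hx : x ∈ taG) (j : ℤ) :
    taB (j + 1) x * taBeta j x = taBeta (j - 1) (x + 1) * taB j x := by
  unfold taB taBeta
  rw [← Real.exp_add, ← Real.exp_add, taF_succ hx]
  unfold taD
  push_cast
  congr 1
  ring

theorem ta_coord_measurable {F : ℤ_[2] → seqHilbert} (hF : StronglyMeasurable F) (j : ℤ) :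
    Measurable fun x => F x j := by
  have : Continuous fun v : seqHilbert => v j :=
    (continuous_apply j).comp (lp.uniformContinuous_coe (E := fun _ : ℤ => ℂ) (p := 2)).continuous
  exact (this.comp_stronglyMeasurable hF).measurable

theorem ta_stronglyMeasurable {F : ℤ_[2] → seqHilbert} (h : ∀ j, Measurable fun x => F x j) :
    StronglyMeasurable F := by
  refine stronglyMeasurable_of_tendsto (atTop : Filter (Finset ℤ))
    (f := fun s x => ∑ j ∈ s, (F x j) • basisVec j) (fun s => ?_) ?_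
  · refine Finset.stronglyMeasurable_fun_sum s fun j _ => ?_
    exact (h j).stronglyMeasurable.smul_const _
  · rw [tendsto_pi_nhds]
    intro x
    have := lp.hasSum_single (E := fun _ : ℤ => ℂ) (p := 2) (by simp) (F x)
    have e : ∀ j, (lp.single 2 j (F x j) : seqHilbert) = (F x j) • basisVec j := by
      intro j
      unfold basisVec
      rw [← lp.single_smul]
      simp
    simp only [e] at this
    exact this

/-- fibred operators -/
theorem exists_fibred (T : ℤ_[2] → (seqHilbert →L[ℂ] seqHilbert)) (w : ℤ → ℤ_[2] → ℝ) (d : ℤ)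
    (hw : ∀ j, Measurable (w j)) (hT : ∀ x (v : seqHilbert) j, (T x v) (j + d) = (w j x : ℂ) * v j)
    (hn : ∀ x, ‖T x‖ ≤ 1) :
    ∃ S : fibreSpace →L[ℂ] fibreSpace, ‖S‖ ≤ 1 ∧ ∀ f : fibreSpace, ∀ᵐ x ∂haarTwoAdic,
      (S f : ℤ_[2] → seqHilbert) x = T x ((f : ℤ_[2] → seqHilbert) x) := by
  have hm : ∀ f : fibreSpace, StronglyMeasurable fun x => T x ((f : ℤ_[2] → seqHilbert) x) := by
    intro f
    refine ta_stronglyMeasurable fun j => ?_
    have : (fun x => (T x ((f : ℤ_[2] → seqHilbert) x)) j) =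
        fun x => (w (j - d) x : ℂ) * ((f : ℤ_[2] → seqHilbert) x) (j - d) := by
      funext x
      rw [← hT, sub_add_cancel]
    rw [this]
    exact (Complex.measurable_ofReal.comp (hw _)).mul
      (ta_coord_measurable (Lp.stronglyMeasurable f) _)
  have hle : ∀ (f : fibreSpace) x, ‖T x ((f : ℤ_[2] → seqHilbert) x)‖ ≤
      ‖(f : ℤ_[2] → seqHilbert) x‖ := fun f x =>
    ((T x).le_opNorm _).trans (mul_le_of_le_one_left (norm_nonneg _) (hn x))
  have hL : ∀ f : fibreSpace, MemLp (fun x => T x ((f : ℤ_[2] → seqHilbert) x)) 2 haarTwoAdic :=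
    fun f => (Lp.memLp f).of_le (hm f).aestronglyMeasurable (Eventually.of_forall (hle f))
  let S0 : fibreSpace →ₗ[ℂ] fibreSpace :=
    { toFun := fun f => (hL f).toLp _
      map_add' := fun f g => by
        rw [← MemLp.toLp_add]
        refine MemLp.toLp_congr _ _ ?_
        filter_upwards [Lp.coeFn_add f g] with x hx
        rw [hx]; simp
      map_smul' := fun c f => by
        simp only [RingHom.id_apply]
        rw [← MemLp.toLp_const_smul]
        refine MemLp.toLp_congr _ _ ?_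
        filter_upwards [Lp.coeFn_smul c f] with x hx
        rw [hx]; simp }
  have hS0 : ∀ f : fibreSpace, ∀ᵐ x ∂haarTwoAdic,
      (S0 f : ℤ_[2] → seqHilbert) x = T x ((f : ℤ_[2] → seqHilbert) x) :=
    fun f => (hL f).coeFn_toLp
  have hb : ∀ f, ‖S0 f‖ ≤ 1 * ‖f‖ := by
    intro f
    rw [one_mul]
    refine Lp.norm_le_norm_of_ae_le ?_
    filter_upwards [hS0 f] with x hx
    rw [hx]; exact hle f x
  exact ⟨S0.mkContinuous 1 hb, S0.mkContinuous_norm_le zero_le_one hb, hS0⟩

theorem ta_mp (t : ℤ_[2]) : MeasurePreserving (fun x : ℤ_[2] => x + t) haarTwoAdic haarTwoAdic :=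
  measurePreserving_add_right haarTwoAdic t

theorem ta_ae_shift {p : ℤ_[2] → Prop} (t : ℤ_[2]) (h : ∀ᵐ x ∂haarTwoAdic, p x) :
    ∀ᵐ x ∂haarTwoAdic, p (x + t) :=
  (ta_mp t).quasiMeasurePreserving.ae h

theorem ta_ergodic : Ergodic (fun x : ℤ_[2] => x + 1) haarTwoAdic := by
  have h : DenseRange (fun n : ℕ => n • (1 : ℤ_[2])) := by
    simpa using PadicInt.denseRange_natCast (p := 2)
  have := ergodic_add_left_of_denseRange_nsmul h haarTwoAdic
  simpa [add_comm] using this

theorem ta_exists_pos {f : fibreSpace} (hf : f ≠ 0) :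
    ∃ c : ℤ, haarTwoAdic {x | (f : ℤ_[2] → seqHilbert) x c ≠ 0} ≠ 0 := by
  by_contra hh
  push Not at hh
  apply hf
  have : ∀ᵐ x ∂haarTwoAdic, ∀ c : ℤ, (f : ℤ_[2] → seqHilbert) x c = 0 :=
    ae_all_iff.2 fun c => hh c
  ext1
  filter_upwards [this, Lp.coeFn_zero seqHilbert 2 haarTwoAdic] with x hx h0
  rw [h0]
  exact lp.ext (funext hx)

/-- recurrence: a set of positive measure visits another one at arbitrarily late times -/
theorem ta_recur {A B : Set ℤ_[2]} (hA : MeasurableSet A) (hA0 : haarTwoAdic A ≠ 0)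
    (hB0 : haarTwoAdic B ≠ 0) (m0 : ℕ) :
    ¬ ∀ᵐ (x : ℤ_[2]) ∂haarTwoAdic, ∀ m : ℕ, m0 ≤ m → x - m ∈ A → x ∉ B := by
  intro h
  set U : Set ℤ_[2] := ⋃ m : ℕ, ⋃ _ : m0 ≤ m, (fun x => x + (-(m : ℤ_[2]))) ⁻¹' A with hU
  have hUm : MeasurableSet U :=
    MeasurableSet.iUnion fun m => MeasurableSet.iUnion fun _ => (ta_mp _).measurable hA
  have hsub : U ⊆ (fun x : ℤ_[2] => x + 1) ⁻¹' U := by
    intro x hx
    simp only [hU, Set.mem_iUnion, Set.mem_preimage] at hx ⊢
    obtain ⟨m, hm, hx⟩ := hx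
    refine ⟨m + 1, by omega, ?_⟩
    convert hx using 1
    push_cast; ring
  rcases ta_ergodic.ae_empty_or_univ_of_ae_le_preimage hUm.nullMeasurableSet
    (LE.le.eventuallyLE hsub) with h1 | h1
  · rw [ae_eq_empty] at h1
    apply hA0
    rw [← (ta_mp (-(m0 : ℤ_[2]))).measure_preimage hA.nullMeasurableSet]
    refine measure_mono_null (fun x hx => ?_) h1
    simp only [hU, Set.mem_iUnion]
    exact ⟨m0, le_rfl, hx⟩
  · apply hB0
    rw [ae_eq_univ] at h1
    have h2 : ∀ᵐ x ∂haarTwoAdic, x ∈ U := h1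
    have h3 : ∀ᵐ x ∂haarTwoAdic, x ∉ B := by
      filter_upwards [h, h2] with x hx hxU
      simp only [hU, Set.mem_iUnion, Set.mem_preimage] at hxU
      obtain ⟨m, hm, hxm⟩ := hxU
      exact hx m hm (by rwa [sub_eq_add_neg])
    exact measure_eq_zero_iff_ae_notMem.2 h3

theorem ta_inner_ae {W : Submodule ℂ fibreSpace}
    (hM : ∀ g : ℤ_[2] → ℂ, Measurable g → (∃ C : ℝ, ∀ x, ‖g x‖ ≤ C) →
          ∀ f ∈ W, ∀ f' : fibreSpace,
            (∀ᵐ x ∂haarTwoAdic, (f' : ℤ_[2] → seqHilbert) x = g x • (f : ℤ_[2] → seqHilbert) x) →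
              f' ∈ W)
    {g : fibreSpace} (hg : g ∈ Wᗮ) {F : fibreSpace} (hF : F ∈ W) :
    ∀ᵐ x ∂haarTwoAdic, ⟪(g : ℤ_[2] → seqHilbert) x, (F : ℤ_[2] → seqHilbert) x⟫_ℂ = 0 := by
  refine (L2.integrable_inner (𝕜 := ℂ) g F).ae_eq_zero_of_forall_setIntegral_eq_zero ?_
  intro s hs _
  have hL : MemLp (s.indicator (F : ℤ_[2] → seqHilbert)) 2 haarTwoAdic :=
    (Lp.memLp F).indicator hs
  have hW : hL.toLp _ ∈ W := by
    refine hM (s.indicator fun _ => 1) (measurable_const.indicator hs) ⟨1, fun x => ?_⟩ F hF _ ?_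
    · by_cases hx : x ∈ s <;> simp [hx]
    · filter_upwards [hL.coeFn_toLp] with x hx
      rw [hx]
      by_cases hxs : x ∈ s <;> simp [hxs]
  have h0 := Submodule.inner_left_of_mem_orthogonal hW hg
  rw [L2.inner_def] at h0
  rw [← integral_indicator hs, ← h0]
  refine integral_congr_ae ?_
  filter_upwards [hL.coeFn_toLp] with x hx
  rw [hx]
  by_cases hxs : x ∈ s <;> simp [hxs]

theorem ta_pow_ae {S : fibreSpace →L[ℂ] fibreSpace} {T : ℤ_[2] → (seqHilbert →L[ℂ] seqHilbert)}
    (hS : ∀ f : fibreSpace, ∀ᵐ x ∂haarTwoAdic,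
      (S f : ℤ_[2] → seqHilbert) x = T x ((f : ℤ_[2] → seqHilbert) x)) (n : ℕ) (f : fibreSpace) :
    ∀ᵐ x ∂haarTwoAdic,
      ((S ^ n) f : ℤ_[2] → seqHilbert) x = (T x ^ n) ((f : ℤ_[2] → seqHilbert) x) := by
  induction n with
  | zero => simp
  | succ n ih =>
    filter_upwards [ih, hS ((S ^ n) f)] with x h1 h2
    rw [pow_succ', pow_succ']
    exact h2.trans (congrArg (T x) h1)

end Crest.Agent.R113
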