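import Crest.Agent.R113.Model

/-!
# Row 113: Hilbert basis, trace property, faithfulness
See `R113/Plan.lean` for the whole proof of S0149, `R113/Basic.lean`, `R113/Model.lean` for the
definitions.
-/

set_option autoImplicit false

open MeasureTheory Set Filter Topology
open scoped BigOperators InnerProductSpace

namespace Crest.Agent.R113

/-- `e_b (x) = exp (2πi b x)` -/
noncomputable def ch (b : ℤ) : X → ℂ := fourier (T := 1) b

theorem ch_bc (b : ℤ) : BC (ch b) := BC.of_continuous (fourier (T := 1) b).continuous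

/-- the basis vector `1[d = a] e_b(x)` -/
noncomputable def ebas (i : ℤ × ℤ) : H := rho (ch i.2) (Ud i.1 vac)

theorem ebas_ae (i : ℤ × ℤ) :
    (ebas i : Y → ℂ) =ᵐ[νY] fun z => if z.2 = i.1 then ch i.2 z.1 else 0 := by
  filter_upwards [mulOp_ae (ch_bc i.2).piR (Ud i.1 vac), shOp_ae 0 i.1 vac,
    (mp_shift 0 i.1).quasiMeasurePreserving.ae vac_ae] with z h1 h2 h3
  rw [ebas, rho, h1, Ud, h2, h3]
  by_cases h : z.2 = i.1
  · simp [h]
  · simp [h, sub_eq_zero]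

/-- `⟪ebas (a,b), ξ⟫ = ∫ conj (e_b x) ξ(x,a)` (`integral_slice`) -/
theorem inner_ebas (i : ℤ × ℤ) (ξ : H) :
    ⟪ebas i, ξ⟫_ℂ = ∫ x, (starRingEnd ℂ) (ch i.2 x) * ξ (x, i.1) ∂μX := by
  rw [L2.inner_def, integral_slice _ i.1]
  · refine integral_congr_ae ?_
    filter_upwards [ae_slice (ebas_ae i) i.1] with x hx
    simp [hx, mul_comm]
  · filter_upwards [ebas_ae i] with z hz h
    simp [hz, h]

theorem Trace_integral_ch (b c : ℤ) :
    ∫ x, (starRingEnd ℂ) (ch b x) * ch c x ∂μX = if b = c then 1 else 0 := by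
  have h := (orthonormal_iff_ite.mp (orthonormal_fourier (T := 1))) b c
  rw [ContinuousMap.inner_toLp μX (fourier b) (fourier c)] at h
  rw [← h]
  simp only [ch, mul_comm]

theorem orthonormal_ebas : Orthonormal ℂ ebas := by
  classical
  rw [orthonormal_iff_ite]
  intro i j
  rw [inner_ebas]
  have h1 : ∫ x, (starRingEnd ℂ) (ch i.2 x) * (ebas j : Y → ℂ) (x, i.1) ∂μX
      = ∫ x, (starRingEnd ℂ) (ch i.2 x) * (if i.1 = j.1 then ch j.2 x else 0) ∂μX := by
    refine integral_congr_ae ?_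
    filter_upwards [ae_slice (ebas_ae j) i.1] with x hx
    rw [hx]
  rw [h1]
  by_cases h : i.1 = j.1
  · simp only [h, if_true, Trace_integral_ch, Prod.ext_iff, true_and]
  · have h2 : i ≠ j := fun e => h (congrArg Prod.fst e)
    simp [h, h2]

/-- completeness: the slices `ξ(·,a) ∈ L²(X)` (`memLp_slice`) are orthogonal to `fourierBasis`,
so vanish a.e. (`ae_of_slices`) -/
theorem eq_zero_of_inner_ebas {ξ : H} (h : ∀ i, ⟪ebas i, ξ⟫_ℂ = 0) : ξ = 0 := by
  refine Lp.ext ?_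
  refine EventuallyEq.trans (ae_of_slices fun a => ?_) (Lp.coeFn_zero ℂ 2 νY).symm
  have hm := memLp_slice ξ a
  have h1 : fourierBasis.repr (hm.toLp _) = 0 := by
    ext b
    rw [fourierBasis_repr, fourierCoeff]
    refine Eq.trans (integral_congr_ae ?_) ((inner_ebas (a, b) ξ).symm.trans (h (a, b)))
    filter_upwards [hm.coeFn_toLp] with x hx
    rw [hx, fourier_neg, smul_eq_mul, ch]
  have h2 : hm.toLp _ = 0 := by simpa using h1
  have h3 := hm.coeFn_toLp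
  rw [h2] at h3
  filter_upwards [h3, Lp.coeFn_zero ℂ 2 μX] with x h4 h5
  rw [← h4, h5]
  rfl

noncomputable def hb : HilbertBasis (ℤ × ℤ) ℂ H :=
  HilbertBasis.mkOfOrthogonalEqBot orthonormal_ebas (by
    rw [Submodule.eq_bot_iff]
    intro ξ hξ
    exact eq_zero_of_inner_ebas fun i =>
      Submodule.inner_right_of_mem_orthogonal (Submodule.subset_span (mem_range_self i)) hξ)

theorem hb_apply (i : ℤ × ℤ) : hb i = ebas i := by
  simp [hb]

theorem Trace_apply_ebas {α : X} {a : H →L[ℂ] H} (ha : a ∈ M α) (i : ℤ × ℤ) :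
    a (ebas i) = (rho (ch i.2) * Rd α i.1) (a vac) := by
  obtain ⟨h1, h2⟩ := mem_M_iff.mp ha
  have e : a * (rho (ch i.2) * Rd α i.1) = rho (ch i.2) * Rd α i.1 * a := by
    rw [← mul_assoc, ← h1 _ (ch_bc i.2), mul_assoc, ← h2, mul_assoc]
  have e2 : ebas i = (rho (ch i.2) * Rd α i.1) vac := by
    rw [ebas, Ud_vac α]; rfl
  rw [e2, ← mul_apply_eq_comp, e]
  rfl

theorem Trace_ch_add (b : ℤ) (x y : X) : ch b (x + y) = ch b x * ch b y := by
  simp only [ch, fourier_apply, smul_add, AddCircle.toCircle_add, Circle.coe_mul]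

theorem Trace_ch_unit (b : ℤ) (x : X) : (starRingEnd ℂ) (ch b x) * ch b x = 1 := by
  rw [ch, ← fourier_neg, ← fourier_add, neg_add_cancel, fourier_zero]

theorem Trace_star_W (α : X) (i : ℤ × ℤ) :
    star (rho (ch i.2) * Rd α i.1) vac = ch (-i.2) ((-i.1) • α) • ebas (-i) := by
  have e : (fun x => (starRingEnd ℂ) (ch i.2 x)) = ch (-i.2) := by
    funext x
    rw [ch, ch, fourier_neg]
  rw [star_mul, star_Rd, star_rho (ch_bc _), e, Rd_mul_rho α (ch_bc _)]
  have e2 : rho (fun x => ch (-i.2) (x + (-i.1) • α))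
      = ch (-i.2) ((-i.1) • α) • rho (ch (-i.2)) := by
    rw [rho, rho, mulOp_smul _ (ch_bc _).piR]
    congr 1
    funext z
    rw [Trace_ch_add, mul_comm]
  rw [e2, ebas, Ud_vac α]
  rfl

theorem Trace_inner_star {α : X} {a : H →L[ℂ] H} (ha : a ∈ M α) (i : ℤ × ℤ) :
    ⟪ebas i, star a vac⟫_ℂ = ch (-i.2) ((-i.1) • α) * ⟪a vac, ebas (-i)⟫_ℂ := by
  rw [ContinuousLinearMap.star_eq_adjoint, ContinuousLinearMap.adjoint_inner_right,
    Trace_apply_ebas ha, ← ContinuousLinearMap.adjoint_inner_right,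
    ← ContinuousLinearMap.star_eq_adjoint, Trace_star_W, inner_smul_right]

theorem Trace_inner_star_star {α : X} {a b : H →L[ℂ] H} (ha : a ∈ M α) (hb' : b ∈ M α) :
    ⟪star a vac, star b vac⟫_ℂ = ⟪b vac, a vac⟫_ℂ := by
  rw [← hb.tsum_inner_mul_inner, ← hb.tsum_inner_mul_inner (b vac),
    ← (Equiv.neg (ℤ × ℤ)).tsum_eq fun i => ⟪b vac, hb i⟫_ℂ * ⟪hb i, a vac⟫_ℂ]
  refine tsum_congr fun i => ?_
  rw [Equiv.neg_apply, hb_apply, hb_apply, ← inner_conj_symm (star a vac), Trace_inner_star ha,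
    Trace_inner_star hb', map_mul, inner_conj_symm]
  linear_combination (⟪b vac, ebas (-i)⟫_ℂ * ⟪ebas (-i), a vac⟫_ℂ) *
    Trace_ch_unit (-i.2) ((-i.1) • α)

/-- `‖a* 1₀‖² = ∑ |⟪e_i, a* 1₀⟫|² = ∑ |⟪W_i a 1₀, 1₀⟫|² = ∑ |⟪a 1₀, W_i* 1₀⟫|²` with
`W_i = rho (ch b) * Rd α a` (`Ud_vac`), and `W_i* 1₀` is a unimodular multiple of `e_{-i}`
(`Rd_mul_rho`, `fourier_neg`, `fourier_apply`). -/
theorem norm_star_vac {α : X} {a : H →L[ℂ] H} (ha : a ∈ M α) : ‖star a vac‖ = ‖a vac‖ := by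
  rw [@norm_eq_sqrt_re_inner ℂ, Trace_inner_star_star ha ha, ← @norm_eq_sqrt_re_inner ℂ]

/-- polarisation of `norm_star_vac` -/
theorem trace_comm {α : X} {a b : H →L[ℂ] H} (ha : a ∈ M α) (hb : b ∈ M α) :
    ⟪vac, (a * b) vac⟫_ℂ = ⟪vac, (b * a) vac⟫_ℂ := by
  have h := Trace_inner_star_star ha (star_mem hb)
  rw [star_star, ContinuousLinearMap.star_eq_adjoint, ContinuousLinearMap.star_eq_adjoint,
    ContinuousLinearMap.adjoint_inner_left, ContinuousLinearMap.adjoint_inner_left] at h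
  exact h

/-- `a e_i = W_i a 1₀ = 0` on a Hilbert basis -/
theorem faithful {α : X} {a : H →L[ℂ] H} (ha : a ∈ M α) (h : a vac = 0) : a = 0 := by
  ext1 ξ
  have h1 := (hb.hasSum_repr ξ).mapL a
  simp only [map_smul, hb_apply, Trace_apply_ebas ha, h, map_zero, smul_zero] at h1
  exact h1.unique hasSum_zero

theorem norm_mul_vac_le_left (a b : H →L[ℂ] H) : ‖(a * b) vac‖ ≤ ‖a‖ * ‖b vac‖ :=
  a.le_opNorm _

theorem norm_mul_vac_le_right {α : X} {a b : H →L[ℂ] H} (ha : a ∈ M α) (hb : b ∈ M α) :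
    ‖(a * b) vac‖ ≤ ‖a vac‖ * ‖b‖ := by
  rw [← norm_star_vac (mul_mem ha hb), star_mul, ← norm_star_vac ha, mul_comm, ← norm_star b]
  exact norm_mul_vac_le_left _ _

end Crest.Agent.R113
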