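import Crest.Agent.R113.Trace
import Crest.Prelude.Def_RotationRep

/-!
# Row 113: transfer from `ℓ²(ℤ × ℤ)` to the model
See `R113/Plan.lean` for the whole proof of S0149, `R113/Basic.lean`, `R113/Model.lean` for the
definitions.
-/

set_option autoImplicit false

open MeasureTheory Set Filter Topology
open scoped BigOperators InnerProductSpace

namespace Crest.Agent.R113

open Crest.AnalysisR.RotationRep

/-- the representation of `C(X, ℂ)` -/
noncomputable def transferLam (α : X) : C(X, ℂ) →⋆ₐ[ℂ] (H →L[ℂ] H) where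
  toFun g := lam α g
  map_one' := lam_one α
  map_mul' g h := (lam_mul α (.of_continuous g.continuous) (.of_continuous h.continuous)).symm
  map_zero' := by
    have := lam_smul α 0 (BC.const (Z := X) 0)
    rw [zero_smul, zero_mul] at this
    exact this.symm
  map_add' g h := (lam_add α (.of_continuous g.continuous) (.of_continuous h.continuous)).symm
  commutes' c := by
    have := lam_smul α c (BC.const (Z := X) 1)
    rw [lam_one, mul_one] at this
    rw [Algebra.algebraMap_eq_smul_one (A := H →L[ℂ] H), this]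
    rfl
  map_star' g := (star_lam α (.of_continuous g.continuous)).symm

theorem transfer_normal (α : X) : IsStarNormal (lam α (ch 1)) :=
  IsStarNormal.map (transferLam α) (fourier (T := 1) 1)

/-- `g ↦ lam α g` is a continuous `StarAlgHom` `C(X, ℂ) →⋆ₐ[ℂ] (H →L[ℂ] H)`; use
`StarAlgHom.map_cfc` (and evaluation homs, or `cfcHom_eq_of_continuous_of_map_id`). -/
theorem cfc_lam (α : X) {f : ℂ → ℂ} (hf : Continuous f) :
    cfc f (lam α (ch 1)) = lam α fun x => f (ch 1 x) := by
  have h1 : cfc f (fourier (T := 1) 1) = (⟨f, hf⟩ : C(ℂ, ℂ)).comp (fourier (T := 1) 1) := by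
    ext x
    have h2 := (ContinuousMap.evalStarAlgHom ℂ ℂ x).map_cfc f (fourier (T := 1) 1) hf.continuousOn
      (map_continuous _)
    exact h2.trans (cfc_algebraMap (A := ℂ) (fourier (T := 1) 1 x) f)
  have hc : Continuous (transferLam α) :=
    AddMonoidHomClass.continuous_of_bound (transferLam α) 1 fun g => by
      rw [one_mul]
      exact norm_lam_le α (.of_continuous g.continuous) g.norm_coe_le_norm
  have h3 := (transferLam α).map_cfc f (fourier (T := 1) 1) hf.continuousOn hc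
    inferInstance (transfer_normal α)
  rw [h1] at h3
  exact h3.symm

theorem Ud_ebas (a b : ℤ) : Ud 1 (ebas (a, b)) = ebas (a + 1, b) := by
  show Ud 1 (rho (ch b) (Ud a vac)) = rho (ch b) (Ud (a + 1) vac)
  rw [← mul_apply_eq_comp, ← rho_Ud (ch_bc b), mul_apply_eq_comp, ← mul_apply_eq_comp (Ud 1),
    Ud_mul, add_comm]

theorem lam_ebas (θ : ℝ) (a b : ℤ) :
    lam (θ : X) (ch 1) (ebas (a, b))
      = Complex.exp (2 * Real.pi * Complex.I * θ * a) • ebas (a, b + 1) := by
  refine Lp.ext ?_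
  filter_upwards [mulOp_ae ((ch_bc 1).piL (θ : X)) (ebas (a, b)), ebas_ae (a, b),
    ebas_ae (a, b + 1), Lp.coeFn_smul (Complex.exp (2 * Real.pi * Complex.I * θ * a))
      (ebas (a, b + 1))] with z h1 h2 h3 h4
  rw [lam, h1, h2, h4, Pi.smul_apply, h3, smul_eq_mul]
  split_ifs with h
  · have e1 : ch 1 (z.1 + z.2 • (θ : X)) = ch 1 z.1 * ch 1 (((a * θ : ℝ)) : X) := by
      rw [show z.2 = a from h, ← zsmul_eq_mul, AddCircle.coe_zsmul]
      simp only [ch, fourier_apply, smul_add, AddCircle.toCircle_add, Circle.coe_mul]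
    have e2 : ch 1 (((a * θ : ℝ)) : X) = Complex.exp (2 * Real.pi * Complex.I * θ * a) := by
      rw [ch, fourier_coe_apply]
      congr 1
      push_cast
      ring
    have e3 : ch (b + 1) z.1 = ch b z.1 * ch 1 z.1 := fourier_add
    rw [e1, e2, e3]
    ring
  · rw [mul_zero, mul_zero]

/-- Conjugate by `hb.repr : H ≃ₗᵢ[ℂ] ℓ²(ℤ × ℤ)` (`LinearIsometryEquiv.conjStarAlgEquiv`;
`hb.repr (ebas i) = lp.single 2 i 1`).  `U`, `V` correspond to `Ud 1`, `lam θ (ch 1)` (agree on the
basis); the images of `rho g`, `Rd k` commute with `U, V, U*, V*`, hence with `p`. -/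
theorem transfer (θ : ℝ) {f : ℂ → ℝ} (hf : Continuous f)
    {U V : lp (fun _ : ℤ × ℤ => ℂ) 2 →L[ℂ] lp (fun _ : ℤ × ℤ => ℂ) 2} (h : IsRotationPair θ U V)
    {p : lp (fun _ : ℤ × ℤ => ℂ) 2 →L[ℂ] lp (fun _ : ℤ × ℤ => ℂ) 2}
    (hp : p ∈ vonNeumannGenerated {U, V}) (hpp : IsStarProjection p)
    (hinv : (1 - p) * (U * cfc (fun z : ℂ => (f z : ℂ)) V) * p = 0) :
    ∃ p' : H →L[ℂ] H, p' ∈ M (θ : X) ∧ IsStarProjection p' ∧
      (1 - p') * (Ud 1 * lamR (θ : X) fun x => f (ch 1 x)) * p' = 0 ∧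
      (p' = 0 → p = 0) ∧ (p' = 1 → p = 1) := by
  let Ψ := hb.repr.conjStarAlgEquiv
  have hext : ∀ {A B : H →L[ℂ] H}, (∀ a b, A (ebas (a, b)) = B (ebas (a, b))) → A = B := by
    intro A B hAB
    refine ContinuousLinearMap.ext_on (s := range hb)
      (Submodule.dense_iff_topologicalClosure_eq_top.2 hb.dense_span) ?_
    rintro _ ⟨⟨a, b⟩, rfl⟩
    rw [hb_apply]
    exact hAB a b
  have hU : Ψ.symm U = Ud 1 := hext fun a b => by
    rw [LinearIsometryEquiv.symm_conjStarAlgEquiv_apply_apply, Ud_ebas, ← hb_apply, ← hb_apply,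
      hb.repr_self, h.1, hb.repr_symm_single]
  have hV : Ψ.symm V = lam (θ : X) (ch 1) := hext fun a b => by
    rw [LinearIsometryEquiv.symm_conjStarAlgEquiv_apply_apply, lam_ebas, ← hb_apply, ← hb_apply,
      hb.repr_self, h.2, map_smul, hb.repr_symm_single]
  have hS : ∀ m ∈ ({U, V} ∪ star '' {U, V} : Set _), Ψ.symm m ∈ M (θ : X) := by
    have h1 : ∀ m ∈ ({U, V} : Set _), Ψ.symm m ∈ M (θ : X) := by
      rintro m (rfl | rfl)
      · exact hU ▸ Ud_mem _ _
      · exact hV ▸ lam_mem _ (ch_bc 1)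
    rintro m (hm | ⟨m, hm, rfl⟩)
    · exact h1 m hm
    · rw [map_star]
      exact star_mem (h1 m hm)
  have hcomm : ∀ r : H →L[ℂ] H, (∀ a ∈ M (θ : X), r * a = a * r) →
      r * Ψ.symm p = Ψ.symm p * r := by
    intro r hr
    have h1 := hp (Ψ r) fun m hm => EquivLike.injective Ψ.symm (by
      rw [map_mul, map_mul, StarAlgEquiv.symm_apply_apply, hr _ (hS m hm)])
    simpa only [map_mul, StarAlgEquiv.symm_apply_apply] using congrArg Ψ.symm h1
  have hVn : IsStarNormal V := by
    have := transfer_normal (θ : X)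
    rw [← Ψ.apply_symm_apply V, hV]
    exact IsStarNormal.map Ψ _
  have hF : Continuous fun z : ℂ => (f z : ℂ) := Complex.continuous_ofReal.comp hf
  have hc : Ψ.symm (cfc (fun z : ℂ => (f z : ℂ)) V) = lamR (θ : X) fun x => f (ch 1 x) := by
    rw [StarAlgHomClass.map_cfc (S := ℂ) Ψ.symm _ V hF.continuousOn (map_continuous _) hVn
      (hV ▸ transfer_normal _), hV, cfc_lam _ hF]
    rfl
  refine ⟨Ψ.symm p, mem_M_iff.2 ⟨fun g hg => hcomm _ fun a ha => (mem_M_iff.1 ha).1 g hg,
    fun k => hcomm _ fun a ha => (mem_M_iff.1 ha).2 k⟩, hpp.map Ψ.symm, ?_,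
    fun h0 => Ψ.symm.injective (h0.trans (map_zero _).symm),
    fun h0 => Ψ.symm.injective (h0.trans (map_one _).symm)⟩
  simpa only [map_mul, map_sub, map_one, map_zero, hU, hc] using congrArg Ψ.symm hinv

end Crest.Agent.R113
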