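import Crest.Agent.R113.Basic

/-!
# Row 113: approximate variational inequality
See `R113/Plan.lean` for the whole proof of S0149 and `R113/Basic.lean` for the definitions.
-/

set_option autoImplicit false

open MeasureTheory Set Filter Topology
open scoped BigOperators

namespace Crest.Agent.R113

/-- Abstract approximate variational inequality for a cocoercive map on a bounded closed convex
set.  Proof: let `proj` be the metric projection on `K`
(`exists_norm_eq_iInf_of_complete_convex`, `norm_eq_iInf_iff_real_inner_le_zero`; it is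
1-Lipschitz).  `a ↦ a + R a` is nonexpansive on `K` (expand `‖Δa + ΔR‖²` and use `hR`), so
`a ↦ proj ((1-η) • (a + R a))` is a contraction of the complete space `K`
(`ContractingWith.exists_fixedPoint` / `fixedPoint`).  The fixed point satisfies
`(1-η) ⟪R a, b - a⟫ ≤ η ⟪a, b - a⟫ ≤ 2 η C²`; take `η ≤ 1/2` small. -/
theorem exists_vi_abstract {E : Type*} [NormedAddCommGroup E] [InnerProductSpace ℝ E]
    [CompleteSpace E] (K : Set E) (hne : K.Nonempty) (hcl : IsClosed K) (hcv : Convex ℝ K)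
    (C : ℝ) (hC : ∀ a ∈ K, ‖a‖ ≤ C) (R : E → E)
    (hR : ∀ a ∈ K, ∀ b ∈ K, ‖R a - R b‖ ^ 2 ≤ inner ℝ (R a - R b) (b - a))
    {ε : ℝ} (hε : 0 < ε) : ∃ a ∈ K, ∀ b ∈ K, inner ℝ (R a) (b - a) ≤ ε := by
  choose proj hpK hp using exists_norm_eq_iInf_of_complete_convex hne hcl.isComplete hcv
  have hp' : ∀ u, ∀ w ∈ K, inner ℝ (u - proj u) (w - proj u) ≤ 0 := fun u =>
    (norm_eq_iInf_iff_real_inner_le_zero hcv (hpK u)).1 (hp u)
  have hlip : ∀ u v, ‖proj u - proj v‖ ≤ ‖u - v‖ := by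
    intro u v
    have h1 := hp' u _ (hpK v)
    have h2 := hp' v _ (hpK u)
    have h3 : ‖proj u - proj v‖ ^ 2 ≤ inner ℝ (u - v) (proj u - proj v) := by
      rw [← real_inner_self_eq_norm_sq]
      simp only [inner_sub_left, inner_sub_right] at h1 h2 ⊢
      linarith
    have h4 := real_inner_le_norm (u - v) (proj u - proj v)
    rcases (norm_nonneg (proj u - proj v)).eq_or_lt with h | h
    · rw [← h]; exact norm_nonneg _
    · nlinarith
  have hne' : ∀ a ∈ K, ∀ b ∈ K, ‖(a + R a) - (b + R b)‖ ≤ ‖a - b‖ := by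
    intro a ha b hb
    have h1 := hR a ha b hb
    have h2 : (a + R a) - (b + R b) = (a - b) + (R a - R b) := by abel
    have h3 : inner ℝ (R a - R b) (b - a) = -inner ℝ (a - b) (R a - R b) := by
      rw [real_inner_comm, ← neg_sub a b, inner_neg_left]
    have h4 := norm_add_sq_real (a - b) (R a - R b)
    rw [h2]
    refine (pow_le_pow_iff_left₀ (norm_nonneg _) (norm_nonneg _) two_ne_zero).1 ?_
    nlinarith [sq_nonneg ‖R a - R b‖]
  obtain ⟨a0, ha0⟩ := hne
  have hC0 : 0 ≤ C := (norm_nonneg _).trans (hC a0 ha0)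
  set η : ℝ := min (1 / 2) (ε / (4 * C ^ 2 + 1)) with hη
  have hη0 : 0 < η := lt_min (by norm_num) (by positivity)
  have hη1 : η ≤ 1 / 2 := min_le_left _ _
  have hη2 : η * (4 * C ^ 2 + 1) ≤ ε := (le_div_iff₀ (by positivity)).1 (min_le_right _ _)
  have := hcl.isComplete.completeSpace_coe
  have : Nonempty K := ⟨⟨a0, ha0⟩⟩
  set f : K → K := fun a => ⟨proj ((1 - η) • (a.1 + R a.1)), hpK _⟩ with hf
  have hcon : ContractingWith ⟨1 - η, by linarith⟩ f := by
    refine ⟨?_, LipschitzWith.of_dist_le_mul fun a b => ?_⟩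
    · rw [← NNReal.coe_lt_coe]
      change 1 - η < 1
      linarith
    · rw [Subtype.dist_eq, Subtype.dist_eq, dist_eq_norm, dist_eq_norm]
      refine (hlip _ _).trans ?_
      rw [← smul_sub, norm_smul, Real.norm_of_nonneg (by linarith)]
      exact mul_le_mul_of_nonneg_left (hne' _ a.2 _ b.2) (by linarith)
  obtain ⟨⟨a, ha⟩, hfix⟩ : ∃ a, f a = a := ⟨_, hcon.fixedPoint_isFixedPt⟩
  have hfix' : proj ((1 - η) • (a + R a)) = a := congrArg Subtype.val hfix
  refine ⟨a, ha, fun b hb => ?_⟩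
  have h1 := hp' ((1 - η) • (a + R a)) b hb
  rw [hfix', inner_sub_left, inner_smul_left, inner_add_left] at h1
  simp only [conj_trivial] at h1
  have h2 : inner ℝ a (b - a) ≤ C * (C + C) :=
    (real_inner_le_norm _ _).trans (mul_le_mul (hC a ha)
      ((norm_sub_le _ _).trans (add_le_add (hC b hb) (hC a ha))) (norm_nonneg _) hC0)
  by_contra hcon
  push Not at hcon
  have h3 : η * inner ℝ a (b - a) ≤ η * (C * (C + C)) := mul_le_mul_of_nonneg_left h2 hη0.le
  nlinarith

/-- The variational inequality for the tilt system.  Proof: `E = Lp ℝ 2 μX`,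
`K = {a | ∃ κ, Adm α Cs C κ ∧ a =ᵐ κ}`.  `K` is closed: an `L²`-convergent sequence has an a.e.
convergent subsequence (`tendstoInMeasure_of_tendsto_Lp`, `TendstoInMeasure.exists_seq_tendsto_ae`);
the pointwise `limsup` of the admissible representatives along it is admissible.  For `a ∈ K`
choose a representative `κ a` and put `R a = toLp (T.P (g₀ + κ a) - t)`; `T.coco` gives `hR`. -/
theorem TiltSys.exists_vi {α : X} {F : X → ℝ} {t : ℝ} (T : TiltSys α F t) {g₀ : X → ℝ}
    (hg₀ : BM g₀) (Cs : Set X) {C : ℝ} (hC : 0 ≤ C) {ε : ℝ} (hε : 0 < ε) :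
    ∃ κ : X → ℝ, Adm α Cs C κ ∧ ∀ κ' : X → ℝ, Adm α Cs C κ' →
      ∫ x, (T.P (g₀ + κ) x - t) * (κ' x - κ x) ∂μX ≤ ε := by
  classical
  set K : Set (Lp ℝ 2 μX) := {a | ∃ κ, Adm α Cs C κ ∧ a =ᵐ[μX] κ} with hK
  have hmem : ∀ κ (h : Adm α Cs C κ), (h.bm.memLp 2).toLp κ ∈ K := fun κ h =>
    ⟨κ, h, MemLp.coeFn_toLp _⟩
  have h0 : Adm α Cs C 0 := ⟨measurable_const, fun _ => by simpa using hC, fun _ _ => rfl⟩
  have hcl : IsClosed K := by
    refine IsSeqClosed.isClosed fun a b ha hab => ?_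
    choose κ hκ hκ' using ha
    obtain ⟨ns, -, hns⟩ := (tendstoInMeasure_of_tendsto_Lp hab).exists_seq_tendsto_ae
    refine ⟨fun x => limsup (fun i => κ (ns i) x) atTop,
      ⟨Measurable.limsup fun i => (hκ _).meas, fun x => abs_le.2 ⟨?_, ?_⟩, fun x hx => ?_⟩, ?_⟩
    · exact le_limsup_of_frequently_le
        (Frequently.of_forall fun i => (abs_le.1 ((hκ (ns i)).bdd x)).1)
        (isBoundedUnder_of ⟨C, fun i => (abs_le.1 ((hκ (ns i)).bdd x)).2⟩)
    · exact limsup_le_of_le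
        (isCoboundedUnder_le_of_eventually_le _
          (Eventually.of_forall fun i => (abs_le.1 ((hκ (ns i)).bdd x)).1))
        (Eventually.of_forall fun i => (abs_le.1 ((hκ (ns i)).bdd x)).2)
    · simp only [fun i => (hκ i).inv x hx]
    · filter_upwards [hns, ae_all_iff.2 hκ'] with x hx hx'
      simp only [hx'] at hx
      exact hx.limsup_eq.symm
  have hcv : Convex ℝ K := by
    rintro a ⟨κ, hκ, ha⟩ b ⟨κ', hκ', hb⟩ s r hs hr hsr
    refine ⟨fun x => s * κ x + r * κ' x,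
      ⟨(hκ.meas.const_mul s).add (hκ'.meas.const_mul r), fun x => ?_, fun x hx => ?_⟩, ?_⟩
    · have h1 := abs_le.1 (hκ.bdd x)
      have h2 := abs_le.1 (hκ'.bdd x)
      have h3 : C = s * C + r * C := by rw [← add_mul, hsr, one_mul]
      rw [abs_le]
      constructor <;> nlinarith [h1.1, h1.2, h2.1, h2.2]
    · simp only [hκ.inv x hx, hκ'.inv x hx]
    · filter_upwards [Lp.coeFn_add (s • a) (r • b), Lp.coeFn_smul s a, Lp.coeFn_smul r b, ha, hb]
        with x h1 h2 h3 h4 h5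
      rw [h1, Pi.add_apply, h2, h3, Pi.smul_apply, Pi.smul_apply, h4, h5, smul_eq_mul, smul_eq_mul]
  have hbd : ∀ a ∈ K, ‖a‖ ≤ C := by
    rintro a ⟨κ, hκ, ha⟩
    have := Lp.norm_le_of_ae_bound (f := a) hC
      (by filter_upwards [ha] with x hx using by rw [hx]; exact hκ.bdd x)
    simpa [measureUnivNNReal] using this
  have hrep : ∀ a : Lp ℝ 2 μX, ∃ κ, Adm α Cs C κ ∧ (a ∈ K → a =ᵐ[μX] κ) := by
    intro a
    by_cases ha : a ∈ K
    · obtain ⟨κ, hκ, ha'⟩ := ha
      exact ⟨κ, hκ, fun _ => ha'⟩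
    · exact ⟨0, h0, fun h => absurd h ha⟩
  choose rep hrep hrep' using hrep
  have hPm : ∀ g, MemLp (fun x => T.P g x - t) 2 μX := fun g =>
    ((T.P_bm g).sub' (BM.const t)).memLp 2
  set R : Lp ℝ 2 μX → Lp ℝ 2 μX := fun a => (hPm (g₀ + rep a)).toLp _ with hR
  have hRa : ∀ a, R a =ᵐ[μX] fun x => T.P (g₀ + rep a) x - t := fun a => MemLp.coeFn_toLp _
  obtain ⟨a, ha, hvi⟩ := exists_vi_abstract K ⟨_, hmem 0 h0⟩ hcl hcv C hbd R (by
    intro a ha b hb
    have h1 := T.coco _ _ (hg₀.add (hrep a).bm) (hg₀.add (hrep b).bm)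
    rw [← real_inner_self_eq_norm_sq, L2.inner_def, L2.inner_def]
    convert h1 using 1
    · refine integral_congr_ae ?_
      filter_upwards [Lp.coeFn_sub (R a) (R b), hRa a, hRa b] with x e1 e2 e3
      rw [e1, Pi.sub_apply, e2, e3, real_inner_self_eq_norm_sq, Real.norm_eq_abs, sq_abs]
      ring
    · refine integral_congr_ae ?_
      filter_upwards [Lp.coeFn_sub (R a) (R b), hRa a, hRa b, Lp.coeFn_sub b a, hrep' a ha,
        hrep' b hb] with x e1 e2 e3 e4 e5 e6
      rw [e1, e4, Pi.sub_apply, Pi.sub_apply, e2, e3, e5, e6]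
      simp only [Pi.add_apply, RCLike.inner_apply, conj_trivial]
      ring) hε
  refine ⟨rep a, hrep a, fun κ' hκ' => ?_⟩
  have h1 := hvi _ (hmem κ' hκ')
  rw [L2.inner_def] at h1
  convert h1 using 1
  refine integral_congr_ae ?_
  filter_upwards [hRa a, Lp.coeFn_sub ((hκ'.bm.memLp 2).toLp κ') a, hrep' a ha,
    MemLp.coeFn_toLp (hκ'.bm.memLp 2)] with x e1 e2 e3 e4
  rw [e1, e2, Pi.sub_apply, e3, e4]
  simp only [RCLike.inner_apply, conj_trivial]
  ring

end Crest.Agent.R113
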